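import Mathlib

/-!
# Primitive recursive arithmetic on `ℤ` and `ℚ`

The encodings are the canonical Mathlib ones (`Primcodable.ofDenumerable`).
-/

namespace Vale.Agent.N113.RatPrim

open Encodable Denumerable

/-! ### Natural numbers -/

theorem nat_pow : Primrec₂ (fun a b : ℕ => a ^ b) :=
  Primrec₂.unpaired'.1 Nat.Primrec.pow

theorem nat_dvd : PrimrecRel (fun a b : ℕ => a ∣ b) := by
  have h : PrimrecRel (fun a b : ℕ => b % a = 0) :=
    Primrec.eq.comp (Primrec.nat_mod.comp Primrec.snd Primrec.fst) (Primrec.const 0)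
  exact h.of_eq fun a b => (Nat.dvd_iff_mod_eq_zero).symm

theorem gcd_eq_findGreatest (a b : ℕ) :
    Nat.findGreatest (fun d => d ∣ a ∧ d ∣ b) (a + b) = Nat.gcd a b := by
  rcases Nat.eq_zero_or_pos (a + b) with h | h
  · obtain ⟨rfl, rfl⟩ : a = 0 ∧ b = 0 := by omega
    simp
  · have hg : 0 < Nat.gcd a b := by
      rcases Nat.eq_zero_or_pos a with rfl | ha
      · simpa using h
      · exact Nat.gcd_pos_of_pos_left _ ha
    rw [Nat.findGreatest_eq_iff]
    refine ⟨?_, fun _ => ⟨Nat.gcd_dvd_left _ _, Nat.gcd_dvd_right _ _⟩, ?_⟩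
    · exact Nat.le_of_dvd h (dvd_add (Nat.gcd_dvd_left _ _) (Nat.gcd_dvd_right _ _))
    · intro n hn _ hd
      exact absurd (Nat.le_of_dvd hg (Nat.dvd_gcd hd.1 hd.2)) (by omega)

theorem nat_gcd : Primrec₂ Nat.gcd := by
  have h : Primrec (fun p : ℕ × ℕ =>
      Nat.findGreatest (fun d => d ∣ p.1 ∧ d ∣ p.2) (p.1 + p.2)) := by
    refine Primrec.nat_findGreatest (Primrec.nat_add.comp Primrec.fst Primrec.snd) ?_
    exact PrimrecPred.and (nat_dvd.comp Primrec.snd (Primrec.fst.comp Primrec.fst))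
      (nat_dvd.comp Primrec.snd (Primrec.snd.comp Primrec.fst))
  exact h.of_eq fun p => gcd_eq_findGreatest p.1 p.2

theorem nat_count {p : ℕ → Prop} [DecidablePred p] (hp : PrimrecPred p) :
    Primrec (Nat.count p) := by
  have h : Primrec (fun n : ℕ => (Nat.rec 0 (fun k r => r + if p k then 1 else 0) n : ℕ)) := by
    refine Primrec.nat_rec₁ 0 ?_
    exact Primrec.nat_add.comp Primrec.snd
      (Primrec.ite (hp.comp Primrec.fst) (Primrec.const 1) (Primrec.const 0))
  refine h.of_eq fun n => ?_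
  induction n with
  | zero => simp
  | succ n ih => rw [Nat.count_succ, ← ih]

/-! ### Integers -/

theorem int_subNat : Primrec₂ (fun a b : ℕ => (a : ℤ) - (b : ℤ)) := by
  have h : Primrec (fun p : ℕ × ℕ => if p.2 ≤ p.1 then 2 * (p.1 - p.2) else
      2 * (p.2 - p.1 - 1) + 1) := by
    refine Primrec.ite (Primrec.nat_le.comp Primrec.snd Primrec.fst) ?_ ?_
    · exact Primrec.nat_mul.comp (Primrec.const 2) (Primrec.nat_sub.comp Primrec.fst Primrec.snd)
    · exact Primrec.succ.comp (Primrec.nat_mul.comp (Primrec.const 2)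
        (Primrec.nat_sub.comp (Primrec.nat_sub.comp Primrec.snd Primrec.fst) (Primrec.const 1)))
  refine Primrec.encode_iff.1 (h.of_eq ?_)
  rintro ⟨a, b⟩
  simp only
  split_ifs with hab
  · obtain ⟨c, rfl⟩ := Nat.exists_eq_add_of_le hab
    have e1 : ((b + c : ℕ) : ℤ) - (b : ℤ) = ((c : ℕ) : ℤ) := by push_cast; ring
    rw [e1, Nat.add_sub_cancel_left]
    rfl
  · obtain ⟨c, rfl⟩ : ∃ c, b = a + c + 1 := ⟨b - a - 1, by omega⟩
    have e1 : ((a : ℕ) : ℤ) - ((a + c + 1 : ℕ) : ℤ) = Int.negSucc c := by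
      rw [Int.negSucc_eq]; push_cast; ring
    have e2 : a + c + 1 - a - 1 = c := by omega
    rw [e1, e2]
    rfl

theorem int_toNat : Primrec (fun z : ℤ => z.toNat) := by
  have h3 : Primrec (fun n : ℕ => if n % 2 = 0 then n / 2 else 0) := by
    refine Primrec.ite (Primrec.eq.comp ?_ (Primrec.const 0)) ?_ (Primrec.const 0)
    · exact Primrec.nat_mod.comp Primrec.id (Primrec.const 2)
    · exact Primrec.nat_div.comp Primrec.id (Primrec.const 2)
  refine (h3.comp (Primrec.encode (α := ℤ))).of_eq (fun z => ?_)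
  rcases z with n | n
  · have e : Encodable.encode (Int.ofNat n) = 2 * n := rfl
    rw [e, if_pos (by omega)]
    simp
  · have e : Encodable.encode (Int.negSucc n) = 2 * n + 1 := rfl
    rw [e, if_neg (by omega)]
    rfl

theorem int_negToNat : Primrec (fun z : ℤ => (-z).toNat) := by
  have h3 : Primrec (fun n : ℕ => if n % 2 = 0 then 0 else n / 2 + 1) := by
    refine Primrec.ite (Primrec.eq.comp ?_ (Primrec.const 0)) (Primrec.const 0) ?_
    · exact Primrec.nat_mod.comp Primrec.id (Primrec.const 2)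
    · exact Primrec.succ.comp (Primrec.nat_div.comp Primrec.id (Primrec.const 2))
  refine (h3.comp (Primrec.encode (α := ℤ))).of_eq (fun z => ?_)
  rcases z with n | n
  · have e : Encodable.encode (Int.ofNat n) = 2 * n := rfl
    rw [e, if_pos (by omega)]
    simp
  · have e : Encodable.encode (Int.negSucc n) = 2 * n + 1 := rfl
    rw [e, if_neg (by omega)]
    rw [Int.neg_negSucc]
    simp
    omega

theorem int_add : Primrec₂ (fun a b : ℤ => a + b) := by
  have h : Primrec (fun p : ℤ × ℤ => ((p.1.toNat + p.2.toNat : ℕ) : ℤ) -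
      (((-p.1).toNat + (-p.2).toNat : ℕ) : ℤ)) :=
    int_subNat.comp (Primrec.nat_add.comp (int_toNat.comp Primrec.fst)
      (int_toNat.comp Primrec.snd)) (Primrec.nat_add.comp (int_negToNat.comp Primrec.fst)
      (int_negToNat.comp Primrec.snd))
  refine h.of_eq fun p => ?_
  show _ = p.1 + p.2
  omega

theorem int_neg : Primrec (fun a : ℤ => -a) := by
  have h : Primrec (fun p : ℤ => (((-p).toNat : ℕ) : ℤ) - ((p.toNat : ℕ) : ℤ)) :=
    int_subNat.comp int_negToNat int_toNat
  exact h.of_eq fun p => by omega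

theorem int_sub : Primrec₂ (fun a b : ℤ => a - b) :=
  (int_add.comp Primrec.fst (int_neg.comp Primrec.snd)).of_eq fun p => by
    simp only [sub_eq_add_neg]

theorem int_natCast : Primrec (fun n : ℕ => (n : ℤ)) :=
  (int_subNat.comp Primrec.id (Primrec.const 0)).of_eq fun n => by simp

theorem int_mul : Primrec₂ (fun a b : ℤ => a * b) := by
  have h : Primrec (fun p : ℤ × ℤ =>
      ((p.1.toNat * p.2.toNat + (-p.1).toNat * (-p.2).toNat : ℕ) : ℤ) -
      ((p.1.toNat * (-p.2).toNat + (-p.1).toNat * p.2.toNat : ℕ) : ℤ)) := by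
    have a1 := int_toNat.comp (Primrec.fst (α := ℤ) (β := ℤ))
    have a2 := int_toNat.comp (Primrec.snd (α := ℤ) (β := ℤ))
    have b1 := int_negToNat.comp (Primrec.fst (α := ℤ) (β := ℤ))
    have b2 := int_negToNat.comp (Primrec.snd (α := ℤ) (β := ℤ))
    exact int_subNat.comp (Primrec.nat_add.comp (Primrec.nat_mul.comp a1 a2)
      (Primrec.nat_mul.comp b1 b2)) (Primrec.nat_add.comp (Primrec.nat_mul.comp a1 b2)
      (Primrec.nat_mul.comp b1 a2))
  refine h.of_eq fun p => ?_
  have e1 : ((p.1.toNat : ℕ) : ℤ) - (((-p.1).toNat : ℕ) : ℤ) = p.1 := by omega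
  have e2 : ((p.2.toNat : ℕ) : ℤ) - (((-p.2).toNat : ℕ) : ℤ) = p.2 := by omega
  generalize p.1.toNat = x at *
  generalize (-p.1).toNat = y at *
  generalize p.2.toNat = z at *
  generalize (-p.2).toNat = w at *
  show _ = p.1 * p.2
  rw [← e1, ← e2]
  push_cast
  ring

theorem int_natAbs : Primrec (fun z : ℤ => z.natAbs) :=
  (Primrec.nat_add.comp int_toNat int_negToNat).of_eq fun z => by omega

theorem int_le : PrimrecRel (fun a b : ℤ => a ≤ b) := by
  have h : PrimrecRel (fun a b : ℤ => (a - b).toNat = 0) :=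
    Primrec.eq.comp (int_toNat.comp int_sub) (Primrec.const 0)
  exact h.of_eq fun a b => by omega

theorem int_lt : PrimrecRel (fun a b : ℤ => a < b) := by
  have h : PrimrecRel (fun a b : ℤ => a + 1 ≤ b) :=
    int_le.comp (int_add.comp Primrec.fst (Primrec.const 1)) Primrec.snd
  exact h.of_eq fun a b => by omega

theorem int_sign : Primrec Int.sign := by
  have h : Primrec (fun z : ℤ => if z = 0 then (0 : ℤ) else if z < 0 then -1 else 1) :=
    Primrec.ite (Primrec.eq.comp Primrec.id (Primrec.const 0)) (Primrec.const 0)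
      (Primrec.ite (int_lt.comp Primrec.id (Primrec.const 0)) (Primrec.const (-1))
        (Primrec.const 1))
  refine h.of_eq fun z => ?_
  split_ifs with h0 h1
  · simp [h0]
  · exact (Int.sign_eq_neg_one_of_neg h1).symm
  · exact (Int.sign_eq_one_of_pos (by omega)).symm

/-! ### Rationals -/

/-- The code of a rational in the plain `Encodable` instance. -/
def raw (q : ℚ) : ℕ := @Encodable.encode ℚ Rat.instEncodable q

theorem raw_eq (q : ℚ) : raw q = Nat.pair (Encodable.encode q.num) q.den := rfl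

theorem ofNat_encode_int (z : ℤ) : Denumerable.ofNat ℤ (Encodable.encode z) = z :=
  Denumerable.ofNat_encode z

theorem encode_ofNat_int (n : ℕ) : Encodable.encode (Denumerable.ofNat ℤ n) = n :=
  Denumerable.encode_ofNat n

/-- The set of plain codes of rationals. -/
def IsRaw (n : ℕ) : Prop :=
  0 < n.unpair.2 ∧ Nat.gcd (Denumerable.ofNat ℤ n.unpair.1).natAbs n.unpair.2 = 1

instance : DecidablePred IsRaw := fun n => by unfold IsRaw; infer_instance

theorem isRaw_raw (q : ℚ) : IsRaw (raw q) := by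
  rw [raw_eq]
  refine ⟨by simpa using q.den_pos, ?_⟩
  rw [Nat.unpair_pair, ofNat_encode_int]
  exact q.reduced

theorem isRaw_iff (n : ℕ) : IsRaw n ↔ n ∈ Set.range raw := by
  constructor
  · rintro ⟨h1, h2⟩
    refine ⟨⟨Denumerable.ofNat ℤ n.unpair.1, n.unpair.2, h1.ne', h2⟩, ?_⟩
    rw [raw_eq, encode_ofNat_int, Nat.pair_unpair]
  · rintro ⟨q, rfl⟩
    exact isRaw_raw q

theorem primrec_isRaw : PrimrecPred IsRaw := by
  unfold IsRaw
  refine PrimrecPred.and (Primrec.nat_lt.comp (Primrec.const 0) (Primrec.snd.comp Primrec.unpair)) ?_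
  exact Primrec.eq.comp (nat_gcd.comp (int_natAbs.comp ((Primrec.ofNat ℤ).comp
    (Primrec.fst.comp Primrec.unpair))) (Primrec.snd.comp Primrec.unpair)) (Primrec.const 1)

/-- The code of a rational in the `Primcodable` instance. -/
def code (q : ℚ) : ℕ := @Encodable.encode ℚ Primcodable.toEncodable q

theorem code_eq (q : ℚ) : code q = Nat.count IsRaw (raw q) := by
  have h : code q = @List.countP ℕ
      (fun n => @decide (n ∈ Set.range (@Encodable.encode ℚ Rat.instEncodable))
        (@Encodable.decidableRangeEncode ℚ Rat.instEncodable n)) (List.range (raw q)) := rfl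
  rw [h, Nat.count]
  congr 1
  funext n
  exact decide_eq_decide.2 (isRaw_iff n).symm

theorem primrec_code : Primrec code := Primrec.encode

theorem count_lower (n : ℕ) : n + 1 ≤ Nat.count IsRaw (Nat.pair (2 * n) 1 + 1) := by
  have hr : ∀ k : ℕ, IsRaw (Nat.pair (2 * k) 1) := fun k => isRaw_raw (k : ℚ)
  induction n with
  | zero =>
    rw [Nat.count_succ, if_pos (hr 0)]
    omega
  | succ n ih =>
    rw [Nat.count_succ, if_pos (hr (n + 1))]
    have : Nat.pair (2 * n) 1 + 1 ≤ Nat.pair (2 * (n + 1)) 1 :=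
      Nat.pair_lt_pair_left 1 (by omega)
    have := Nat.count_monotone IsRaw this
    omega

theorem raw_le (q : ℚ) : raw q ≤ Nat.pair (2 * code q) 1 := by
  by_contra h
  have h1 : Nat.pair (2 * code q) 1 + 1 ≤ raw q := by omega
  have h2 := Nat.count_monotone IsRaw h1
  have h3 := count_lower (code q)
  rw [← code_eq] at h2
  omega

theorem primrec_raw : Primrec raw := by
  refine Primrec.of_graph ⟨fun q => Nat.pair (2 * code q) 1, ?_, raw_le⟩ ?_
  · exact Primrec₂.natPair.comp (Primrec.nat_mul.comp (Primrec.const 2) primrec_code)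
      (Primrec.const 1)
  · have h : PrimrecRel (fun (q : ℚ) (b : ℕ) => IsRaw b ∧ Nat.count IsRaw b = code q) :=
      PrimrecPred.and (primrec_isRaw.comp Primrec.snd)
        (Primrec.eq.comp ((nat_count primrec_isRaw).comp Primrec.snd)
          (primrec_code.comp Primrec.fst))
    refine h.of_eq fun q b => ?_
    constructor
    · rintro ⟨h1, h2⟩
      rw [code_eq] at h2
      exact (Nat.count_injective h1 (isRaw_raw q) h2).symm
    · rintro rfl
      exact ⟨isRaw_raw q, (code_eq q).symm⟩

theorem rat_num : Primrec Rat.num :=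
  ((Primrec.ofNat ℤ).comp (Primrec.fst.comp (Primrec.unpair.comp primrec_raw))).of_eq fun q => by
    rw [raw_eq, Nat.unpair_pair, ofNat_encode_int]

theorem rat_den : Primrec Rat.den :=
  (Primrec.snd.comp (Primrec.unpair.comp primrec_raw)).of_eq fun q => by
    rw [raw_eq]; simp

/-- A rational-valued function is primitive recursive as soon as its numerator and denominator
are. -/
theorem rat_of_num_den {α : Type*} [Primcodable α] {f : α → ℚ}
    (h1 : Primrec fun a => (f a).num) (h2 : Primrec fun a => (f a).den) : Primrec f := by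
  refine Primrec.encode_iff.1 ?_
  have h : Primrec fun a => Nat.count IsRaw (Nat.pair (Encodable.encode (f a).num) (f a).den) :=
    (nat_count primrec_isRaw).comp (Primrec₂.natPair.comp (Primrec.encode.comp h1) h2)
  exact h.of_eq fun a => (code_eq (f a)).symm

theorem rat_mkRat : Primrec₂ mkRat := by
  have hg : Primrec fun p : ℤ × ℕ => Nat.gcd p.2 p.1.natAbs :=
    nat_gcd.comp Primrec.snd (int_natAbs.comp Primrec.fst)
  refine rat_of_num_den (f := fun p : ℤ × ℕ => mkRat p.1 p.2) ?_ ?_
  · have h : Primrec fun p : ℤ × ℕ => if p.2 = 0 then (0 : ℤ) else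
        p.1.sign * ((p.1.natAbs / Nat.gcd p.2 p.1.natAbs : ℕ) : ℤ) :=
      Primrec.ite (Primrec.eq.comp Primrec.snd (Primrec.const 0)) (Primrec.const 0)
        (int_mul.comp (int_sign.comp Primrec.fst)
          (int_natCast.comp (Primrec.nat_div.comp (int_natAbs.comp Primrec.fst) hg)))
    refine h.of_eq fun p => ?_
    rw [Rat.num_mkRat]
    split_ifs with h0
    · rfl
    · have hd : ((Nat.gcd p.2 p.1.natAbs : ℕ) : ℤ) ∣ (p.1.natAbs : ℤ) :=
        Int.natCast_dvd_natCast.2 (Nat.gcd_dvd_right _ _)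
      rw [Int.natCast_div, ← Int.mul_ediv_assoc _ hd, Int.sign_mul_natAbs]
  · have h : Primrec fun p : ℤ × ℕ => if p.2 = 0 then 1 else p.2 / Nat.gcd p.2 p.1.natAbs :=
      Primrec.ite (Primrec.eq.comp Primrec.snd (Primrec.const 0)) (Primrec.const 1)
        (Primrec.nat_div.comp Primrec.snd hg)
    exact h.of_eq fun p => (Rat.den_mkRat _ _).symm

theorem rat_add : Primrec₂ (fun a b : ℚ => a + b) := by
  have n1 := rat_num.comp (Primrec.fst (α := ℚ) (β := ℚ))
  have n2 := rat_num.comp (Primrec.snd (α := ℚ) (β := ℚ))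
  have d1 := rat_den.comp (Primrec.fst (α := ℚ) (β := ℚ))
  have d2 := rat_den.comp (Primrec.snd (α := ℚ) (β := ℚ))
  exact (rat_mkRat.comp (int_add.comp (int_mul.comp n1 (int_natCast.comp d2))
    (int_mul.comp n2 (int_natCast.comp d1))) (Primrec.nat_mul.comp d1 d2)).of_eq
    fun p => (Rat.add_def' p.1 p.2).symm

theorem rat_mul : Primrec₂ (fun a b : ℚ => a * b) := by
  have n1 := rat_num.comp (Primrec.fst (α := ℚ) (β := ℚ))
  have n2 := rat_num.comp (Primrec.snd (α := ℚ) (β := ℚ))
  have d1 := rat_den.comp (Primrec.fst (α := ℚ) (β := ℚ))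
  have d2 := rat_den.comp (Primrec.snd (α := ℚ) (β := ℚ))
  exact (rat_mkRat.comp (int_mul.comp n1 n2) (Primrec.nat_mul.comp d1 d2)).of_eq
    fun p => (Rat.mul_def' p.1 p.2).symm

theorem rat_neg : Primrec (fun a : ℚ => -a) :=
  (rat_mul.comp (Primrec.const (-1)) Primrec.id).of_eq fun a => by simp

theorem rat_sub : Primrec₂ (fun a b : ℚ => a - b) :=
  (rat_add.comp Primrec.fst (rat_neg.comp Primrec.snd)).of_eq fun p => by
    simp only [sub_eq_add_neg]

theorem rat_inv : Primrec (fun a : ℚ => a⁻¹) := by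
  refine rat_of_num_den ?_ ?_
  · exact (int_mul.comp (int_sign.comp rat_num) (int_natCast.comp rat_den)).of_eq
      fun a => (Rat.num_inv a).symm
  · exact (Primrec.ite (Primrec.eq.comp rat_num (Primrec.const 0)) (Primrec.const 1)
      (int_natAbs.comp rat_num)).of_eq fun a => (Rat.den_inv a).symm

theorem rat_div : Primrec₂ (fun a b : ℚ => a / b) :=
  (rat_mul.comp Primrec.fst (rat_inv.comp Primrec.snd)).of_eq fun p => by
    simp only [div_eq_mul_inv]

theorem rat_intCast : Primrec (fun z : ℤ => (z : ℚ)) :=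
  rat_of_num_den (Primrec.id.of_eq fun z => by simp) ((Primrec.const 1).of_eq fun z => by simp)

theorem rat_natCast : Primrec (fun n : ℕ => (n : ℚ)) :=
  (rat_intCast.comp int_natCast).of_eq fun n => by simp

theorem rat_pow : Primrec₂ (fun (a : ℚ) (n : ℕ) => a ^ n) := by
  have h : Primrec (fun p : ℚ × ℕ => (fun r : ℚ => r * p.1)^[p.2] 1) :=
    Primrec.nat_iterate Primrec.snd (Primrec.const 1)
      (rat_mul.comp Primrec.snd (Primrec.fst.comp Primrec.fst)).to₂
  refine h.of_eq ?_
  rintro ⟨a, n⟩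
  simp only
  induction n with
  | zero => simp
  | succ n ih => rw [Function.iterate_succ_apply', ih, pow_succ]

theorem rat_le : PrimrecRel (fun a b : ℚ => a ≤ b) := by
  have h : PrimrecRel (fun a b : ℚ => 0 ≤ (b - a).num) :=
    int_le.comp (Primrec.const 0) (rat_num.comp (rat_sub.comp Primrec.snd Primrec.fst))
  exact h.of_eq fun a b => by rw [Rat.num_nonneg, sub_nonneg]

theorem rat_lt : PrimrecRel (fun a b : ℚ => a < b) := by
  have h : PrimrecRel (fun a b : ℚ => ¬ b ≤ a) :=
    PrimrecPred.not (rat_le.comp Primrec.snd Primrec.fst)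
  exact h.of_eq fun a b => not_le

end Vale.Agent.N113.RatPrim
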