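import Vale.Agent.N113.Bump

/-!
# P113: the five shears acting on cylinder boxes
-/

namespace Vale.Agent.N113

open Set

/-! ## Words -/

theorem pushQ_nil (N : ℕ) (r : ℚ) : pushQ N [] r = r := rfl

theorem pushQ_cons (N d : ℕ) (u : List ℕ) (r : ℚ) :
    pushQ N (d :: u) r = (3 * (d : ℚ) + 1 + pushQ N u r) / N := rfl

theorem scQ_nil (N : ℕ) : scQ N [] = 1 := by simp [scQ]

theorem scQ_cons (N d : ℕ) (u : List ℕ) : scQ N (d :: u) = N * scQ N u := by
  simp [scQ, pow_succ, mul_comm]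

theorem one_le_scQ {N : ℕ} (hN : 0 < N) (u : List ℕ) : 1 ≤ scQ N u :=
  one_le_pow₀ (by exact_mod_cast hN)

theorem scQ_pos {N : ℕ} (hN : 0 < N) (u : List ℕ) : 0 < scQ N u :=
  lt_of_lt_of_le one_pos (one_le_scQ hN u)

theorem pushQ_affine {N : ℕ} (hN : 0 < N) (u : List ℕ) (r : ℚ) :
    scQ N u * (pushQ N u r - pushQ N u 0) = r := by
  induction u with
  | nil => simp [pushQ_nil, scQ_nil]
  | cons d u ih =>
    have : (N : ℚ) ≠ 0 := by exact_mod_cast hN.ne'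
    rw [pushQ_cons, pushQ_cons, scQ_cons]
    have e : (N : ℚ) * scQ N u * ((3 * (d : ℚ) + 1 + pushQ N u r) / N
        - (3 * (d : ℚ) + 1 + pushQ N u 0) / N) = scQ N u * (pushQ N u r - pushQ N u 0) := by
      field_simp
      ring
    rw [e, ih]

theorem pushQ_replace {N : ℕ} (hN : 0 < N) (u u' : List ℕ) (r : ℚ) :
    ofQ N u u' + slQ N u u' * pushQ N u r = pushQ N u' r := by
  have h1 := pushQ_affine hN u r
  have h2 := pushQ_affine hN u' r
  have h3 := (scQ_pos hN u').ne'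
  have e : ofQ N u u' + slQ N u u' * pushQ N u r
      = pushQ N u' 0 + scQ N u * (pushQ N u r - pushQ N u 0) / scQ N u' := by
    unfold ofQ slQ
    field_simp
    ring
  rw [e, h1]
  have e2 : r / scQ N u' = pushQ N u' r - pushQ N u' 0 := by
    rw [div_eq_iff h3, mul_comm, h2]
  rw [e2]
  ring

theorem pushQ_mem' {n : ℕ} (hn : 0 < n) {u : List ℕ} (hu : ∀ d ∈ u, d < n) {ξ : ℚ}
    (h0 : 0 ≤ ξ) (h1 : ξ ≤ 1) : 0 ≤ pushQ (3 * n) u ξ ∧ pushQ (3 * n) u ξ ≤ 1 := by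
  induction u with
  | nil => exact ⟨h0, h1⟩
  | cons d u ih =>
    obtain ⟨i0, i1⟩ := ih (fun e he => hu e (List.mem_cons_of_mem _ he))
    have hd : (d : ℚ) + 1 ≤ n := by exact_mod_cast hu d List.mem_cons_self
    have hn' : (0 : ℚ) < ((3 * n : ℕ) : ℚ) := by positivity
    rw [pushQ_cons]
    refine ⟨by positivity, ?_⟩
    rw [div_le_one hn']
    push_cast
    linarith

theorem pushQ_sep {n : ℕ} (hn : 0 < n) {ξ : ℚ} (h0 : 0 ≤ ξ) (h1 : ξ ≤ 1) :
    ∀ {u v : List ℕ}, Incomp u v → (∀ d ∈ u, d < n) → (∀ d ∈ v, d < n) →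
      scQ (3 * n) v * (pushQ (3 * n) u ξ - pushQ (3 * n) v 0) ≤ -2 ∨
      3 ≤ scQ (3 * n) v * (pushQ (3 * n) u ξ - pushQ (3 * n) v 0)
  | [], _, h, _, _ => by simp [Incomp] at h
  | _ :: _, [], h, _, _ => by simp [Incomp] at h
  | a :: u, b :: v, h, hu, hv => by
    have hN : 0 < 3 * n := by omega
    have hN' : ((3 * n : ℕ) : ℚ) ≠ 0 := by exact_mod_cast hN.ne'
    have hu' : ∀ d ∈ u, d < n := fun e he => hu e (List.mem_cons_of_mem _ he)
    have hv' : ∀ d ∈ v, d < n := fun e he => hv e (List.mem_cons_of_mem _ he)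
    have e : scQ (3 * n) (b :: v) * (pushQ (3 * n) (a :: u) ξ - pushQ (3 * n) (b :: v) 0)
        = scQ (3 * n) v * (3 * ((a : ℚ) - b) + pushQ (3 * n) u ξ - pushQ (3 * n) v 0) := by
      rw [pushQ_cons, pushQ_cons, scQ_cons]
      field_simp
      ring
    rw [e]
    by_cases hab : a = b
    · subst hab
      have h' : Incomp u v := by simpa [Incomp] using h
      have := pushQ_sep hn h0 h1 h' hu' hv'
      simpa using this
    · obtain ⟨p0, p1⟩ := pushQ_mem' hn hu' h0 h1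
      obtain ⟨q0, -⟩ := pushQ_mem' hn hv' le_rfl zero_le_one
      obtain ⟨-, q1⟩ := pushQ_mem' hn hv' zero_le_one le_rfl
      have hs := one_le_scQ hN v
      have ha := pushQ_affine hN v 1
      rcases lt_or_gt_of_ne hab with hlt | hlt
      · left
        have : (a : ℚ) + 1 ≤ b := by exact_mod_cast hlt
        nlinarith
      · right
        have : (b : ℚ) + 1 ≤ a := by exact_mod_cast hlt
        nlinarith

/-! ## Values of the indicator bumps -/

theorem chi_eval (N k : ℕ) (u : List ℕ) (x : ℝ) :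
    Bump.eval (chi N k u) x
      = x ^ k * plateau 3 ((scQ N u : ℝ) * (4 * x - (pushQ N u 0 : ℝ)) + 1) := by
  simp only [chi, Bump.eval]
  push_cast
  congr 2
  ring

theorem psi_eval (A k i : ℕ) (x : ℝ) :
    Bump.eval (psi A k i) x = x ^ k * plateau 3 ((A : ℝ) * x - 3 * i) := by
  simp only [psi, Bump.eval]
  push_cast
  rfl

theorem per_eq_self_of_supp {g : ℝ → ℝ} (hg : ∀ s, s ≤ -1 / 2 ∨ 1 ≤ s → g s = 0) {y : ℝ}
    (h0 : 0 ≤ y) (h1 : y ≤ 1 / 2) : per g y = g y := by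
  refine per_eq_self fun m hm => hg _ ?_
  rcases lt_or_gt_of_ne hm with h | h
  · left
    have : (m : ℝ) ≤ -1 := by exact_mod_cast Int.le_sub_one_of_lt h
    linarith
  · right
    have : (1 : ℝ) ≤ m := by exact_mod_cast h
    linarith

theorem per_chi {n : ℕ} (hn : 0 < n) (k : ℕ) {u : List ℕ} (hu : ∀ d ∈ u, d < n) {x : ℝ}
    (h0 : 0 ≤ x) (h1 : x ≤ 1) :
    per (Bump.eval (chi (3 * n) k u)) (x / 4)
      = (x / 4) ^ k * plateau 3 ((scQ (3 * n) u : ℝ) * (x - (pushQ (3 * n) u 0 : ℝ)) + 1) := by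
  have hN : 0 < 3 * n := by omega
  rw [per_eq_self_of_supp _ (by positivity) (by linarith), chi_eval]
  · congr 3
    ring
  · intro s hs
    rw [chi_eval, plateau_three_eq_zero, mul_zero]
    obtain ⟨q0, q1⟩ := pushQ_mem' hn hu (le_refl (0 : ℚ)) zero_le_one
    have q0' : (0 : ℝ) ≤ (pushQ (3 * n) u 0 : ℝ) := by exact_mod_cast q0
    have q1' : (pushQ (3 * n) u 0 : ℝ) ≤ 1 := by exact_mod_cast q1
    have hs' : (1 : ℝ) ≤ (scQ (3 * n) u : ℝ) := by exact_mod_cast one_le_scQ hN u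
    rcases hs with hs | hs
    · left
      nlinarith
    · right
      nlinarith

theorem per_chi_in {n : ℕ} (hn : 0 < n) (k : ℕ) {u : List ℕ} (hu : ∀ d ∈ u, d < n) {ξ : ℚ}
    (h0 : 0 ≤ ξ) (h1 : ξ ≤ 1) :
    per (Bump.eval (chi (3 * n) k u)) ((pushQ (3 * n) u ξ : ℝ) / 4)
      = ((pushQ (3 * n) u ξ : ℝ) / 4) ^ k * kappa := by
  have hN : 0 < 3 * n := by omega
  obtain ⟨p0, p1⟩ := pushQ_mem' hn hu h0 h1
  rw [per_chi hn k hu (by exact_mod_cast p0) (by exact_mod_cast p1)]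
  have e : (scQ (3 * n) u : ℝ) * ((pushQ (3 * n) u ξ : ℝ) - (pushQ (3 * n) u 0 : ℝ)) = ξ := by
    exact_mod_cast pushQ_affine hN u ξ
  have h0' : (0 : ℝ) ≤ ξ := by exact_mod_cast h0
  have h1' : (ξ : ℝ) ≤ 1 := by exact_mod_cast h1
  rw [e, plateau_three_eq_kappa (by linarith) (by linarith)]

theorem per_chi_out {n : ℕ} (hn : 0 < n) (k : ℕ) {u v : List ℕ} (h : Incomp u v)
    (hu : ∀ d ∈ u, d < n) (hv : ∀ d ∈ v, d < n) {ξ : ℚ} (h0 : 0 ≤ ξ) (h1 : ξ ≤ 1) :
    per (Bump.eval (chi (3 * n) k v)) ((pushQ (3 * n) u ξ : ℝ) / 4) = 0 := by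
  obtain ⟨p0, p1⟩ := pushQ_mem' hn hu h0 h1
  rw [per_chi hn k hv (by exact_mod_cast p0) (by exact_mod_cast p1), plateau_three_eq_zero, mul_zero]
  rcases pushQ_sep hn h0 h1 h hu hv with h' | h'
  · left
    have : (scQ (3 * n) v : ℝ) * ((pushQ (3 * n) u ξ : ℝ) - (pushQ (3 * n) v 0 : ℝ)) ≤ -2 := by
      exact_mod_cast h'
    linarith
  · right
    have : (3 : ℝ) ≤ (scQ (3 * n) v : ℝ) * ((pushQ (3 * n) u ξ : ℝ) - (pushQ (3 * n) v 0 : ℝ)) := by
      exact_mod_cast h'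
    linarith

theorem per_chi_nil (N k : ℕ) {x : ℝ} (h0 : 0 ≤ x) (h1 : x ≤ 1) :
    per (Bump.eval (chi N k [])) (x / 4) = (x / 4) ^ k * kappa := by
  rw [per_eq_self_of_supp _ (by positivity) (by linarith), chi_eval]
  · rw [plateau_three_eq_kappa]
    · simp [scQ_nil, pushQ_nil]; linarith
    · simp [scQ_nil, pushQ_nil]; linarith
  · intro s hs
    rw [chi_eval, plateau_three_eq_zero, mul_zero]
    simp only [scQ_nil, pushQ_nil]
    push_cast
    rcases hs with hs | hs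
    · left
      linarith
    · right
      linarith

theorem per_psi {A i j : ℕ} (k : ℕ) (hi : 6 * i + 8 ≤ A) (hj : 6 * j + 8 ≤ A) {w : ℝ}
    (h0 : 0 ≤ w) (h1 : w ≤ 1) :
    per (Bump.eval (psi A k i)) ((3 * (j : ℝ) + 1 + w) / A)
      = ((3 * (j : ℝ) + 1 + w) / A) ^ k * plateau 3 (3 * ((j : ℝ) - i) + 1 + w) := by
  have hi' : 6 * (i : ℝ) + 8 ≤ A := by exact_mod_cast hi
  have hj' : 6 * (j : ℝ) + 8 ≤ A := by exact_mod_cast hj
  have hi0 : (0 : ℝ) ≤ i := Nat.cast_nonneg i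
  have hj0 : (0 : ℝ) ≤ j := Nat.cast_nonneg j
  have hA : (0 : ℝ) < A := by linarith
  rw [per_eq_self_of_supp _ (by positivity) (by rw [div_le_iff₀ hA]; linarith), psi_eval]
  · congr 2
    field_simp
    ring
  · intro s hs
    rw [psi_eval, plateau_three_eq_zero, mul_zero]
    rcases hs with hs | hs
    · left
      nlinarith
    · right
      nlinarith

theorem per_psi_in {A i : ℕ} (k : ℕ) (hi : 6 * i + 8 ≤ A) {w : ℝ} (h0 : 0 ≤ w) (h1 : w ≤ 1) :
    per (Bump.eval (psi A k i)) ((3 * (i : ℝ) + 1 + w) / A)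
      = ((3 * (i : ℝ) + 1 + w) / A) ^ k * kappa := by
  rw [per_psi k hi hi h0 h1, plateau_three_eq_kappa (by linarith) (by linarith)]

theorem per_psi_out {A i j : ℕ} (k : ℕ) (hi : 6 * i + 8 ≤ A) (hj : 6 * j + 8 ≤ A) (hij : j ≠ i)
    {w : ℝ} (h0 : 0 ≤ w) (h1 : w ≤ 1) :
    per (Bump.eval (psi A k i)) ((3 * (j : ℝ) + 1 + w) / A) = 0 := by
  rw [per_psi k hi hj h0 h1, plateau_three_eq_zero, mul_zero]
  rcases lt_or_gt_of_ne hij with h | h
  · left
    have : (j : ℝ) + 1 ≤ i := by exact_mod_cast h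
    linarith
  · right
    have : (i : ℝ) + 1 ≤ j := by exact_mod_cast h
    linarith

/-! ## Sums of spatial factors -/

theorem space_pTerm (ν : ℝ) (j : ℕ) (q : ℚ) (m : ℕ) (hx hy hz : List Bump) (x y z : ℝ) :
    Term.space ν (pTerm j q m hx hy hz) (proj ![x, y, z])
      = (q : ℝ) / kappa ^ m * ((hx.map fun g => per (Bump.eval g) x).prod *
        (hy.map fun g => per (Bump.eval g) y).prod * (hz.map fun g => per (Bump.eval g) z).prod) := by
  have hk := kappa_pos.ne'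
  simp only [Term.space, Term.coeff, pTerm, Fin.prod_univ_three, proj, Matrix.cons_val_zero,
    Matrix.cons_val_one, Matrix.cons_val_two, Matrix.head_cons, Matrix.tail_cons, per_rep,
    List.map_nil, List.prod_nil, pow_zero, mul_one]
  congr 1
  rw [zpow_neg, zpow_add₀ hk, zpow_natCast, zpow_one]
  push_cast
  field_simp

theorem spaceSum_nil (ν : ℝ) (x : T3) : spaceSum ν [] x = 0 := rfl

theorem spaceSum_cons (ν : ℝ) (τ : Term) (L : List Term) (x : T3) :
    spaceSum ν (τ :: L) x = τ.space ν x + spaceSum ν L x := by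
  simp [spaceSum]

theorem spaceSum_append (ν : ℝ) (L L' : List Term) (x : T3) :
    spaceSum ν (L ++ L') x = spaceSum ν L x + spaceSum ν L' x := by
  simp [spaceSum]

theorem spaceSum_flatMap_zero {α : Type*} (ν : ℝ) (F : α → List Term) (x : T3) :
    ∀ (R : List α), (∀ r ∈ R, spaceSum ν (F r) x = 0) → spaceSum ν (R.flatMap F) x = 0
  | [], _ => rfl
  | a :: R, h => by
    rw [List.flatMap_cons, spaceSum_append, h a List.mem_cons_self,
      spaceSum_flatMap_zero ν F x R fun r hr => h r (List.mem_cons_of_mem _ hr), add_zero]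

theorem spaceSum_flatMap_single {α : Type*} (ν : ℝ) (F : α → List Term) (x : T3) {r : α} :
    ∀ (R : List α), R.Nodup → r ∈ R → (∀ r' ∈ R, r ≠ r' → spaceSum ν (F r') x = 0) →
      spaceSum ν (R.flatMap F) x = spaceSum ν (F r) x
  | [], _, h, _ => by simp at h
  | a :: R, hnd, hr, h => by
    rw [List.flatMap_cons, spaceSum_append]
    obtain ⟨ha, hR⟩ := List.nodup_cons.1 hnd
    by_cases hra : r = a
    · subst hra
      rw [spaceSum_flatMap_zero ν F x R, add_zero]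
      intro r' hr'
      exact h r' (List.mem_cons_of_mem _ hr') (fun e => ha (e ▸ hr'))
    · rw [h a List.mem_cons_self hra, zero_add]
      exact spaceSum_flatMap_single ν F x R hR ((List.mem_cons.1 hr).resolve_left hra)
        fun r' hr' => h r' (List.mem_cons_of_mem _ hr')

theorem map_eq_flatMap_singleton {α β : Type*} (f : α → β) (l : List α) :
    l.map f = l.flatMap fun a => [f a] := by
  induction l with
  | nil => rfl
  | cons a l ih => simp [ih]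

section Box
variable {n N A : ℕ} {R : List Rule} {Hs : List ℕ}

theorem pushQ_mem (G : GoodSys n N A R Hs) {u : List ℕ} (hu : ∀ d ∈ u, d < n) {ξ : ℚ}
    (h0 : 0 ≤ ξ) (h1 : ξ ≤ 1) : 0 ≤ pushQ N u ξ ∧ pushQ N u ξ ≤ 1 := by
  rw [G.base]
  exact pushQ_mem' G.n_pos hu h0 h1

theorem box_lift (G : GoodSys n N A R Hs) (ν : ℝ) {r : Rule} (hr : r ∈ R) {ξ η : ℚ}
    (h0 : 0 ≤ ξ) (h1 : ξ ≤ 1) (h2 : 0 ≤ η) (h3 : η ≤ 1) (z : ℝ) :
    spaceSum ν (R.flatMap (lift1 N A) ++ Hs.map (liftH N))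
        (proj ![(pushQ N r.2.1.1 ξ : ℝ) / 4, (pushQ N r.2.1.2 η : ℝ) / 4, z])
      = (3 * (r.1 : ℝ) + 1 + pushQ N r.2.2.1 ξ) / A := by
  obtain rfl := G.base
  have hn := G.n_pos
  have hk := kappa_pos.ne'
  have hA : (A : ℝ) ≠ 0 := by have := G.A_ge; positivity
  rw [spaceSum_append, map_eq_flatMap_singleton, spaceSum_flatMap_zero ν _ _ Hs, add_zero,
    spaceSum_flatMap_single ν _ _ R G.nodup hr]
  · have e : (pushQ (3 * n) r.2.2.1 ξ : ℝ) = (ofQ (3 * n) r.2.1.1 r.2.2.1 : ℝ)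
        + (slQ (3 * n) r.2.1.1 r.2.2.1 : ℝ) * (pushQ (3 * n) r.2.1.1 ξ : ℝ) := by
      exact_mod_cast (pushQ_replace (by omega) r.2.1.1 r.2.2.1 ξ).symm
    simp only [lift1, spaceSum_cons, spaceSum_nil, space_pTerm, List.map_cons, List.map_nil,
      List.prod_cons, List.prod_nil, per_chi_in hn _ (G.dig_u r hr) h0 h1,
      per_chi_in hn _ (G.dig_v r hr) h2 h3]
    rw [e]
    push_cast
    field_simp
    ring
  · intro r' hr' hne
    rcases G.src_ne r hr r' hr' hne with h | h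
    · simp [lift1, spaceSum_cons, spaceSum_nil, space_pTerm,
        per_chi_out hn _ h (G.dig_u r hr) (G.dig_u r' hr') h0 h1]
    · simp [lift1, spaceSum_cons, spaceSum_nil, space_pTerm,
        per_chi_out hn _ h (G.dig_v r hr) (G.dig_v r' hr') h2 h3]
  · intro s hs
    have hs' : ∀ d ∈ [s], d < n := by simpa using G.dig_H s hs
    simp [liftH, spaceSum_cons, spaceSum_nil, space_pTerm,
      per_chi_out hn _ (G.src_H r hr s hs).1 (G.dig_u r hr) hs' h0 h1]

theorem box_halt (G : GoodSys n N A R Hs) (ν : ℝ) {s : ℕ} (hs : s ∈ Hs) {ξ : ℚ}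
    (h0 : 0 ≤ ξ) (h1 : ξ ≤ 1) (y z : ℝ) :
    spaceSum ν (R.flatMap (lift1 N A) ++ Hs.map (liftH N))
        (proj ![(pushQ N [s] ξ : ℝ) / 4, y, z]) = 3 / 4 := by
  obtain rfl := G.base
  have hn := G.n_pos
  have hk := kappa_pos.ne'
  have hs' : ∀ d ∈ [s], d < n := by simpa using G.dig_H s hs
  rw [spaceSum_append, map_eq_flatMap_singleton, spaceSum_flatMap_zero ν _ _ R, zero_add,
    spaceSum_flatMap_single ν _ _ Hs G.nodup_H hs]
  · simp only [liftH, spaceSum_cons, spaceSum_nil, space_pTerm, List.map_cons, List.map_nil,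
      List.prod_cons, List.prod_nil, per_chi_in hn _ hs' h0 h1]
    push_cast
    field_simp
    ring
  · intro s' hs2 hne
    have hs2' : ∀ d ∈ [s'], d < n := by simpa using G.dig_H s' hs2
    have hinc : Incomp [s] [s'] := Or.inl hne
    simp [liftH, spaceSum_cons, spaceSum_nil, space_pTerm, per_chi_out hn _ hinc hs' hs2' h0 h1]
  · intro r hr
    simp [lift1, spaceSum_cons, spaceSum_nil, space_pTerm,
      per_chi_out hn _ (G.src_H r hr s hs).2 hs' (G.dig_u r hr) h0 h1]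

theorem box_move2 (G : GoodSys n N A R Hs) (ν : ℝ) {r : Rule} (hr : r ∈ R) {ξ : ℚ}
    (h0 : 0 ≤ ξ) (h1 : ξ ≤ 1) (x y : ℝ) :
    spaceSum ν (R.flatMap (move2 N A))
        (proj ![x, y, (3 * (r.1 : ℝ) + 1 + pushQ N r.2.2.1 ξ) / A])
      = (pushQ N r.2.2.1 ξ : ℝ) / 4 - (pushQ N r.2.1.1 ξ : ℝ) / 4 := by
  obtain ⟨p0, p1⟩ := pushQ_mem G (G.dig_u' r hr) h0 h1
  have p0' : (0 : ℝ) ≤ (pushQ N r.2.2.1 ξ : ℝ) := by exact_mod_cast p0
  have p1' : (pushQ N r.2.2.1 ξ : ℝ) ≤ 1 := by exact_mod_cast p1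
  have hN : 0 < N := by have := G.n_pos; have := G.base; omega
  have hk := kappa_pos.ne'
  have hA : (A : ℝ) ≠ 0 := by have := G.A_ge; positivity
  rw [spaceSum_flatMap_single ν _ _ R G.nodup hr]
  · have e : (pushQ N r.2.1.1 ξ : ℝ) = (ofQ N r.2.2.1 r.2.1.1 : ℝ)
        + (slQ N r.2.2.1 r.2.1.1 : ℝ) * (pushQ N r.2.2.1 ξ : ℝ) := by
      exact_mod_cast (pushQ_replace hN r.2.2.1 r.2.1.1 ξ).symm
    simp only [move2, spaceSum_cons, spaceSum_nil, space_pTerm, List.map_cons, List.map_nil,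
      List.prod_cons, List.prod_nil, per_psi_in _ (G.level r hr) p0' p1']
    rw [e]
    push_cast
    field_simp
    ring
  · intro r' hr' hne
    simp [move2, spaceSum_cons, spaceSum_nil, space_pTerm,
      per_psi_out _ (G.level r' hr') (G.level r hr) (G.lev_ne r hr r' hr' hne) p0' p1']

theorem box_swap3 (ν : ℝ) {x y : ℝ} (h0 : 0 ≤ x) (h1 : x ≤ 1) (h2 : 0 ≤ y) (h3 : y ≤ 1) (z : ℝ) :
    spaceSum ν (swap3 N A) (proj ![x / 4, y / 4, z]) = (y - x) / A := by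
  have hk := kappa_pos.ne'
  simp only [swap3, spaceSum_cons, spaceSum_nil, space_pTerm, List.map_cons, List.map_nil,
    List.prod_cons, List.prod_nil, per_chi_nil _ _ h0 h1, per_chi_nil _ _ h2 h3]
  push_cast
  field_simp
  ring

theorem box_move4 (G : GoodSys n N A R Hs) (ν : ℝ) {r : Rule} (hr : r ∈ R) {η : ℚ}
    (h2 : 0 ≤ η) (h3 : η ≤ 1) (x y : ℝ) :
    spaceSum ν (R.flatMap (move4 N A))
        (proj ![x, y, (3 * (r.1 : ℝ) + 1 + pushQ N r.2.1.2 η) / A])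
      = (pushQ N r.2.2.2 η : ℝ) / 4 - (pushQ N r.2.1.2 η : ℝ) / 4 := by
  obtain ⟨p0, p1⟩ := pushQ_mem G (G.dig_v r hr) h2 h3
  have p0' : (0 : ℝ) ≤ (pushQ N r.2.1.2 η : ℝ) := by exact_mod_cast p0
  have p1' : (pushQ N r.2.1.2 η : ℝ) ≤ 1 := by exact_mod_cast p1
  have hN : 0 < N := by have := G.n_pos; have := G.base; omega
  have hk := kappa_pos.ne'
  have hA : (A : ℝ) ≠ 0 := by have := G.A_ge; positivity
  rw [spaceSum_flatMap_single ν _ _ R G.nodup hr]
  · have e : (pushQ N r.2.2.2 η : ℝ) = (ofQ N r.2.1.2 r.2.2.2 : ℝ)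
        + (slQ N r.2.1.2 r.2.2.2 : ℝ) * (pushQ N r.2.1.2 η : ℝ) := by
      exact_mod_cast (pushQ_replace hN r.2.1.2 r.2.2.2 η).symm
    simp only [move4, spaceSum_cons, spaceSum_nil, space_pTerm, List.map_cons, List.map_nil,
      List.prod_cons, List.prod_nil, per_psi_in _ (G.level r hr) p0' p1']
    rw [e]
    push_cast
    field_simp
    ring
  · intro r' hr' hne
    simp [move4, spaceSum_cons, spaceSum_nil, space_pTerm,
      per_psi_out _ (G.level r' hr') (G.level r hr) (G.lev_ne r hr r' hr' hne) p0' p1']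

theorem box_drop5 (G : GoodSys n N A R Hs) (ν : ℝ) {r : Rule} (hr : r ∈ R) {ξ η : ℚ}
    (h0 : 0 ≤ ξ) (h1 : ξ ≤ 1) (h2 : 0 ≤ η) (h3 : η ≤ 1) (z : ℝ) :
    spaceSum ν (R.flatMap (drop5 N A))
        (proj ![(pushQ N r.2.2.1 ξ : ℝ) / 4, (pushQ N r.2.2.2 η : ℝ) / 4, z])
      = -((3 * (r.1 : ℝ) + 1 + pushQ N r.2.1.2 η) / A) := by
  obtain rfl := G.base
  have hn := G.n_pos
  have hk := kappa_pos.ne'
  have hA : (A : ℝ) ≠ 0 := by have := G.A_ge; positivity
  rw [spaceSum_flatMap_single ν _ _ R G.nodup hr]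
  · have e : (pushQ (3 * n) r.2.1.2 η : ℝ) = (ofQ (3 * n) r.2.2.2 r.2.1.2 : ℝ)
        + (slQ (3 * n) r.2.2.2 r.2.1.2 : ℝ) * (pushQ (3 * n) r.2.2.2 η : ℝ) := by
      exact_mod_cast (pushQ_replace (by omega) r.2.2.2 r.2.1.2 η).symm
    simp only [drop5, spaceSum_cons, spaceSum_nil, space_pTerm, List.map_cons, List.map_nil,
      List.prod_cons, List.prod_nil, per_chi_in hn _ (G.dig_u' r hr) h0 h1,
      per_chi_in hn _ (G.dig_v' r hr) h2 h3]
    rw [e]
    push_cast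
    field_simp
    ring
  · intro r' hr' hne
    rcases G.tgt_ne r hr r' hr' hne with h | h
    · simp [drop5, spaceSum_cons, spaceSum_nil, space_pTerm,
        per_chi_out hn _ h (G.dig_u' r hr) (G.dig_u' r' hr') h0 h1]
    · simp [drop5, spaceSum_cons, spaceSum_nil, space_pTerm,
        per_chi_out hn _ h (G.dig_v' r hr) (G.dig_v' r' hr') h2 h3]

end Box

end Vale.Agent.N113
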