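import Vale.Agent.N113.Defs

/-!
# P113: the compiler (definitions only)
-/

namespace Vale.Agent.N113

/-! ## Formal derivatives of bumps and terms -/

/-- Formal derivative of a bump as a rational combination of bumps. -/
def Bump.D : Bump → List (ℚ × Bump)
  | .inl (k, j, a, b) => [((k : ℚ), .inl (k - 1, j, a, b)), (a, .inl (k, j + 1, a, b))]
  | .inr (k, l, a, b) =>
      [((k : ℚ), .inr (k - 1, l, a, b)), (a, .inl (k, 0, a, b)), (-a, .inl (k, 0, a, b + l))]

/-- Formal product rule. -/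
def prodD : List Bump → List (ℚ × List Bump)
  | [] => []
  | g :: l => (Bump.D g).map (fun p => (p.1, p.2 :: l)) ++ (prodD l).map (fun p => (p.1, g :: p.2))

/-- Multiply the rational of a coefficient by `q`. -/
def scaleC (q : ℚ) (c : ℚ × ℕ × ℤ × List ℚ) : ℚ × ℕ × ℤ × List ℚ := (q * c.1, c.2)

/-- Formal time derivative of a term. -/
def Term.dT (τ : Term) : List Term :=
  (prodD τ.2.1.1).map (fun p => (scaleC p.1 τ.1, (p.2, τ.2.1.2), τ.2.2)) ++
    (prodD τ.2.1.2).map (fun p => (scaleC p.1 τ.1, (τ.2.1.1, p.2), τ.2.2))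

/-- Formal partial derivative of a term. -/
def Term.dX (j : Fin 3) (τ : Term) : List Term :=
  (prodD (τ.2.2 j)).map (fun p => (scaleC p.1 τ.1, τ.2.1, Function.update τ.2.2 j p.2))

/-- Multiply a term by `-ν`. -/
def Term.negNu (τ : Term) : Term := ((-τ.1.1, τ.1.2.1 + 1, τ.1.2.2), τ.2)

/-- The terms of `∂_t τ - ν Δ τ`. -/
def Term.heat (τ : Term) : List Term :=
  τ.dT ++ ((([0, 1, 2] : List (Fin 3)).flatMap fun j => (τ.dX j).flatMap (Term.dX j)).map Term.negNu)

/-- The terms of `∂_t u - ν Δ u`. -/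
def forceOf (U : List Term) : List Term := U.flatMap Term.heat

/-! ## Words, cylinders, rules -/

/-- Push the digits of `u` in front of `r ∈ [0,1]`, in base `N`; the digit `d` is written `3 d + 1`. -/
def pushQ (N : ℕ) (u : List ℕ) (r : ℚ) : ℚ := u.foldr (fun d s => (3 * (d : ℚ) + 1 + s) / N) r

/-- `N ^ |u|`. -/
def scQ (N : ℕ) (u : List ℕ) : ℚ := (N : ℚ) ^ u.length

/-- Slope of the affine map replacing the initial word `u` by `u'`. -/
def slQ (N : ℕ) (u u' : List ℕ) : ℚ := scQ N u / scQ N u'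

/-- Offset of the affine map replacing the initial word `u` by `u'`. -/
def ofQ (N : ℕ) (u u' : List ℕ) : ℚ := pushQ N u' 0 - slQ N u u' * pushQ N u 0

/-- `s ^ k` times (`κ` times) the indicator bump of the cylinder of the word `u` (at scale `1/4`). -/
def chi (N : ℕ) (k : ℕ) (u : List ℕ) : Bump := .inr (k, 3, 4 * scQ N u, scQ N u * pushQ N u 0 - 1)

/-- `s ^ k` times (`κ` times) the indicator bump of level `i`. -/
def psi (A : ℕ) (k : ℕ) (i : ℕ) : Bump := .inr (k, 3, (A : ℚ), 3 * (i : ℚ))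

/-- The time bump of slot `j` (support `[j/8, (j+1)/8]`). -/
def slot (j : ℕ) : Bump := .inl (0, 0, 16, 2 * (j : ℚ) + 1)

/-- The periodic term `q κ^{-m} · (16/κ) P[slot j](t) · P[hx](x) P[hy](y) P[hz](z)`. -/
def pTerm (j : ℕ) (q : ℚ) (m : ℕ) (hx hy hz : List Bump) : Term :=
  ((16 * q, 0, -((m : ℤ) + 1), []), ([], [slot j]), ![hx, hy, hz])

/-- The non-periodic term `q · (16/κ) slot j (t)`. -/
def iTerm (j : ℕ) (q : ℚ) : Term :=
  ((16 * q, 0, -1, []), ([slot j], []), ![[], [], []])

/-- A rule: a level `i`, source words `(u, v)` and target words `(u', v')`. -/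
abbrev Rule := ℕ × (List ℕ × List ℕ) × (List ℕ × List ℕ)

/-- Slot 2 (direction `z`): lift the source box to its level and store the new `x`. -/
def lift1 (N A : ℕ) (r : Rule) : List Term :=
  [pTerm 2 ((3 * (r.1 : ℚ) + 1 + ofQ N r.2.1.1 r.2.2.1) / A) 2 [chi N 0 r.2.1.1] [chi N 0 r.2.1.2] [],
   pTerm 2 (4 * slQ N r.2.1.1 r.2.2.1 / A) 2 [chi N 1 r.2.1.1] [chi N 0 r.2.1.2] []]

/-- Slot 2 (direction `z`): lift the box of a halting state to height `3/4`. -/
def liftH (N : ℕ) (s : ℕ) : Term := pTerm 2 (3 / 4) 1 [chi N 0 [s]] [] []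

/-- Slot 3 (direction `x`): replace the old `x` by the new one. -/
def move2 (N A : ℕ) (r : Rule) : List Term :=
  [pTerm 3 ((-(1 - slQ N r.2.2.1 r.2.1.1) * (3 * (r.1 : ℚ) + 1) - ofQ N r.2.2.1 r.2.1.1) / 4) 1
      [] [] [psi A 0 r.1],
   pTerm 3 ((1 - slQ N r.2.2.1 r.2.1.1) * A / 4) 1 [] [] [psi A 1 r.1]]

/-- Slot 4 (direction `z`): store the old `y` in place of the new `x`. -/
def swap3 (N A : ℕ) : List Term :=
  [pTerm 4 (4 / A) 1 [] [chi N 1 []] [], pTerm 4 (-4 / A) 1 [chi N 1 []] [] []]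

/-- Slot 5 (direction `y`): replace the old `y` by the new one. -/
def move4 (N A : ℕ) (r : Rule) : List Term :=
  [pTerm 5 ((-(slQ N r.2.1.2 r.2.2.2 - 1) * (3 * (r.1 : ℚ) + 1) + ofQ N r.2.1.2 r.2.2.2) / 4) 1
      [] [] [psi A 0 r.1],
   pTerm 5 ((slQ N r.2.1.2 r.2.2.2 - 1) * A / 4) 1 [] [] [psi A 1 r.1]]

/-- Slot 6 (direction `z`): bring the target box down to height `0`. -/
def drop5 (N A : ℕ) (r : Rule) : List Term :=
  [pTerm 6 (-(3 * (r.1 : ℚ) + 1 + ofQ N r.2.2.2 r.2.1.2) / A) 2 [chi N 0 r.2.2.1] [chi N 0 r.2.2.2] [],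
   pTerm 6 (-4 * slQ N r.2.2.2 r.2.1.2 / A) 2 [chi N 0 r.2.2.1] [chi N 1 r.2.2.2] []]

/-- The periodic part of the velocity for a list of rules and a list of halting digits. -/
def velP (N A : ℕ) (R : List Rule) (Hs : List ℕ) : Fin 3 → List Term :=
  ![R.flatMap (move2 N A), R.flatMap (move4 N A),
    R.flatMap (lift1 N A) ++ Hs.map (liftH N) ++ swap3 N A ++ R.flatMap (drop5 N A)]

/-- The loading part of the velocity. -/
def velI (x₀ y₀ : ℚ) : Fin 3 → List Term := ![[iTerm 0 x₀], [iTerm 1 y₀], []]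

/-! ## The rules of a machine -/

namespace MachineCode

/-- Bound on all digits. -/
def nD (c : MachineCode) : ℕ := c.2.1 * (3 * c.1 + 1)

/-- The base. -/
def base (c : MachineCode) : ℕ := 3 * nD c

/-- The number of levels. -/
def nL (c : MachineCode) : ℕ := 3 * c.1 * nD c

/-- The vertical scale. -/
def vsc (c : MachineCode) : ℕ := 6 * nL c + 8

/-- Is the state `q` halting? -/
def isH (c : MachineCode) (q : ℕ) : Bool := c.2.2.2.2.1.getD q true

/-- The transition table. -/
def tr (c : MachineCode) (q a : ℕ) : ℕ × ℕ × ℕ := (c.2.2.2.2.2.getD q []).getD a (0, 0, 0)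

/-- Source words for the extended state `s = 3 q + d` reading the digit `e`
(`d = 0`: read from the left stack; `d = 1, 2`: read from the right stack). -/
def src (s e : ℕ) : List ℕ × List ℕ := if s % 3 = 0 then ([s, e], []) else ([s], [e])

/-- Target words.  A digit `e ≥ nG` is garbage and is moved to the other stack.  Otherwise a step
of the machine is made, and the garbage digit `nG (s + 1) + e` is left under the written symbol. -/
def tgt (c : MachineCode) (s e : ℕ) : List ℕ × List ℕ :=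
  if c.2.1 ≤ e then (if s % 3 = 0 then ([s], [e]) else ([s, e], []))
  else
    if (tr c (s / 3) e).2.2 = 2 then
      ([3 * (tr c (s / 3) e).1 + 2, (tr c (s / 3) e).2.1, c.2.1 * (s + 1) + e], [])
    else
      ([3 * (tr c (s / 3) e).1 + (tr c (s / 3) e).2.2], [(tr c (s / 3) e).2.1, c.2.1 * (s + 1) + e])

/-- Which pairs `(s, e)` carry a rule. -/
def ok (c : MachineCode) (s e : ℕ) : Bool := !isH c (s / 3) && (decide (e < c.2.1) || decide (s % 3 ≠ 1))

/-- The rule with level `i = s * nD + e`. -/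
def rule (c : MachineCode) (i : ℕ) : Rule :=
  (i, src (i / nD c) (i % nD c), tgt c (i / nD c) (i % nD c))

/-- All rules. -/
def rules (c : MachineCode) : List Rule :=
  ((List.range (nL c)).filter fun i => ok c (i / nD c) (i % nD c)).map (rule c)

/-- The halting extended states. -/
def halts (c : MachineCode) : List ℕ := (List.range (3 * c.1)).filter fun s => isH c (s / 3)

/-- The code of the all-blank stack. -/
def eInf (c : MachineCode) : ℚ := (3 * (c.2.2.2.1 : ℚ) + 1) / ((base c : ℚ) - 1)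

/-- The code of a stack (a finite list above infinitely many blanks). -/
def encS (c : MachineCode) (l : List ℕ) : ℚ := pushQ (base c) l (eInf c)

end MachineCode

open MachineCode in
/-- The velocity terms. -/
def vel (c : MachineCode) (w : List ℕ) (i : Fin 3) : List Term :=
  velI (encS c [3 * c.2.2.1 + 2] / 4) (encS c w / 4) i ++ velP (base c) (vsc c) (rules c) (halts c) i

/-- The force compiler. -/
def compile (z : MachineCode × List ℕ) (i : Fin 3) : List Term := forceOf (vel z.1 z.2 i)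

end Vale.Agent.N113
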