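import Vale.Agent.N113.Iface

/-!
# P113: analysis of the bumps and of their periodizations
-/

namespace Vale.Agent.N113

open Set MeasureTheory Filter Topology
open scoped ContDiff

/-! ## The functions `rho`, `sigma`, `plateau` -/

theorem rho_eq_glue (s : ℝ) : rho s = expNegInvGlue (1 - s ^ 2) := by
  unfold rho expNegInvGlue
  by_cases h : |s| < 1
  · have h1 : s ^ 2 < 1 := (sq_lt_one_iff_abs_lt_one s).2 h
    have h2 : ¬ (1 - s ^ 2 ≤ 0) := by linarith
    rw [if_pos h, if_neg h2, neg_div, one_div]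
  · have h1 : ¬ s ^ 2 < 1 := fun h' => h ((sq_lt_one_iff_abs_lt_one s).1 h')
    have h2 : 1 - s ^ 2 ≤ 0 := by linarith [not_lt.1 h1]
    rw [if_neg h, if_pos h2]

theorem contDiff_rho : ContDiff ℝ ∞ rho := by
  have h : rho = fun s => expNegInvGlue (1 - s ^ 2) := funext rho_eq_glue
  rw [h]
  exact expNegInvGlue.contDiff.comp (contDiff_const.sub (contDiff_id.pow 2))

theorem continuous_rho : Continuous rho := contDiff_rho.continuous

theorem rho_nonneg (s : ℝ) : 0 ≤ rho s := by
  rw [rho_eq_glue]; exact expNegInvGlue.nonneg _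

theorem rho_eq_zero {s : ℝ} (h : 1 ≤ |s|) : rho s = 0 := by
  unfold rho; rw [if_neg (not_lt.2 h)]

theorem rho_pos {s : ℝ} (h : |s| < 1) : 0 < rho s := by
  unfold rho; rw [if_pos h]; exact Real.exp_pos _

theorem iteratedDeriv_rho_eq_zero (j : ℕ) {s : ℝ} (h : 1 < |s|) : iteratedDeriv j rho s = 0 := by
  have h1 : rho =ᶠ[𝓝 s] fun _ => (0 : ℝ) := by
    have ho : IsOpen {x : ℝ | 1 < |x|} := isOpen_lt continuous_const continuous_abs
    filter_upwards [ho.mem_nhds h] with x hx
    exact rho_eq_zero (le_of_lt hx)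
  rw [h1.iteratedDeriv_eq j]
  simp

theorem hasCompactSupport_rho : HasCompactSupport rho := by
  refine HasCompactSupport.intro (isCompact_Icc (a := (-1 : ℝ)) (b := 1)) fun x hx => ?_
  apply rho_eq_zero
  by_contra h
  exact hx (abs_le.1 (le_of_lt (not_le.1 h)))

theorem integrable_rho : Integrable rho :=
  continuous_rho.integrable_of_hasCompactSupport hasCompactSupport_rho

theorem kappa_pos : 0 < kappa := by
  unfold kappa
  exact continuous_rho.integral_pos_of_hasCompactSupport_nonneg_nonzero hasCompactSupport_rho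
    rho_nonneg (x := 0) (rho_pos (by simp)).ne'

theorem hasDerivAt_sigma (s : ℝ) : HasDerivAt sigma (rho s) s := by
  have h : sigma = fun x => sigma 0 + ∫ r in (0 : ℝ)..x, rho r := by
    funext x
    have := intervalIntegral.integral_Iic_sub_Iic (a := (0 : ℝ)) (b := x)
      (integrable_rho.integrableOn (s := Iic 0)) (integrable_rho.integrableOn (s := Iic x))
    unfold sigma
    linarith
  rw [h]
  exact ((continuous_rho.integral_hasStrictDerivAt 0 s).hasDerivAt).const_add _

theorem deriv_sigma : deriv sigma = rho := funext fun s => (hasDerivAt_sigma s).deriv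

theorem contDiff_sigma : ContDiff ℝ ∞ sigma := by
  rw [contDiff_infty_iff_deriv, deriv_sigma]
  exact ⟨fun s => (hasDerivAt_sigma s).differentiableAt, contDiff_rho⟩

theorem sigma_of_le {s : ℝ} (h : s ≤ -1) : sigma s = 0 := by
  unfold sigma
  refine setIntegral_eq_zero_of_forall_eq_zero fun x hx => rho_eq_zero ?_
  have hx' : x ≤ s := hx
  exact le_abs.2 (Or.inr (by linarith))

theorem sigma_of_ge {s : ℝ} (h : 1 ≤ s) : sigma s = kappa := by
  unfold sigma kappa
  refine setIntegral_eq_integral_of_forall_compl_eq_zero fun x hx => rho_eq_zero ?_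
  have hx' : s < x := not_le.1 hx
  exact le_abs.2 (Or.inl (by linarith))

theorem sigma_nonneg (s : ℝ) : 0 ≤ sigma s := by
  unfold sigma
  exact integral_nonneg fun x => rho_nonneg x

theorem sigma_le_kappa (s : ℝ) : sigma s ≤ kappa := by
  unfold sigma kappa
  exact setIntegral_le_integral integrable_rho (Eventually.of_forall fun x => rho_nonneg x)

theorem plateau_three_eq_kappa {s : ℝ} (h1 : 1 ≤ s) (h2 : s ≤ 2) : plateau 3 s = kappa := by
  unfold plateau
  rw [sigma_of_ge h1, sigma_of_le (by linarith), sub_zero]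

theorem plateau_eq_zero {l s : ℝ} (hl : 0 ≤ l) (h : s ≤ -1 ∨ l + 1 ≤ s) : plateau l s = 0 := by
  unfold plateau
  rcases h with h | h
  · rw [sigma_of_le h, sigma_of_le (by linarith), sub_zero]
  · rw [sigma_of_ge (by linarith), sigma_of_ge (by linarith), sub_self]

theorem plateau_three_eq_zero {s : ℝ} (h : s ≤ -1 ∨ 4 ≤ s) : plateau 3 s = 0 :=
  plateau_eq_zero (by norm_num) (h.imp id fun h => by linarith)

theorem contDiff_plateau (l : ℝ) : ContDiff ℝ ∞ (plateau l) := by
  unfold plateau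
  exact contDiff_sigma.sub (contDiff_sigma.comp (contDiff_id.sub contDiff_const))

theorem hasDerivAt_plateau (l s : ℝ) : HasDerivAt (plateau l) (rho s - rho (s - l)) s := by
  unfold plateau
  exact (hasDerivAt_sigma s).sub ((hasDerivAt_sigma (s - l)).comp_sub_const s l)

theorem contDiff_iteratedDeriv_rho (j : ℕ) : ContDiff ℝ ∞ (iteratedDeriv j rho) := by
  rw [iteratedDeriv_eq_iterate]
  exact contDiff_rho.iterate_deriv j

theorem hasDerivAt_iteratedDeriv_rho (j : ℕ) (s : ℝ) :
    HasDerivAt (iteratedDeriv j rho) (iteratedDeriv (j + 1) rho s) s := by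
  rw [iteratedDeriv_succ]
  exact (((contDiff_iteratedDeriv_rho j).differentiable (by simp)) s).hasDerivAt

/-! ## Bumps -/

theorem Bump.contDiff (g : Bump) : ContDiff ℝ ∞ (Bump.eval g) := by
  rcases g with ⟨k, j, a, b⟩ | ⟨k, l, a, b⟩
  · exact (contDiff_id.pow k).mul ((contDiff_iteratedDeriv_rho j).comp
      ((contDiff_const.mul contDiff_id).sub contDiff_const))
  · exact (contDiff_id.pow k).mul ((contDiff_plateau l).comp
      ((contDiff_const.mul contDiff_id).sub contDiff_const))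

theorem hasDerivAt_affine (a b s : ℝ) : HasDerivAt (fun x : ℝ => a * x - b) a s := by
  simpa using ((hasDerivAt_id s).const_mul a).sub_const b

theorem Bump.hasDerivAt (g : Bump) (s : ℝ) :
    HasDerivAt (Bump.eval g) (((Bump.D g).map fun p => (p.1 : ℝ) * Bump.eval p.2 s).sum) s := by
  rcases g with ⟨k, j, a, b⟩ | ⟨k, l, a, b⟩
  · have h := (hasDerivAt_pow k s).mul
      ((hasDerivAt_iteratedDeriv_rho j ((a : ℝ) * s - b)).comp s (hasDerivAt_affine a b s))
    refine HasDerivAt.congr_deriv h ?_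
    simp only [Bump.D, Bump.eval, List.map_cons, List.map_nil, List.sum_cons, List.sum_nil,
      Function.comp_apply, Rat.cast_natCast]
    ring
  · have h := (hasDerivAt_pow k s).mul
      ((hasDerivAt_plateau l ((a : ℝ) * s - b)).comp s (hasDerivAt_affine a b s))
    refine HasDerivAt.congr_deriv h ?_
    simp only [Bump.D, Bump.eval, List.map_cons, List.map_nil, List.sum_cons, List.sum_nil,
      Function.comp_apply, Rat.cast_natCast, iteratedDeriv_zero, Rat.cast_neg, Rat.cast_add]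
    have e : (a : ℝ) * s - (b + l) = a * s - b - l := by ring
    rw [e]
    ring

theorem Bump.D_wf {g : Bump} (h : Bump.WF g) : ∀ p ∈ Bump.D g, Bump.WF p.2 := by
  rcases g with ⟨k, j, a, b⟩ | ⟨k, l, a, b⟩
  · intro p hp
    simp only [Bump.D, List.mem_cons, List.not_mem_nil, or_false] at hp
    rcases hp with rfl | rfl
    · exact h
    · exact h
  · intro p hp
    simp only [Bump.D, List.mem_cons, List.not_mem_nil, or_false] at hp
    rcases hp with rfl | rfl | rfl
    · exact h
    · exact h.1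
    · exact h.1

/-! ## Periodization -/

/-- `g` vanishes outside a bounded set. -/
def BddSupp (g : ℝ → ℝ) : Prop := ∃ R : ℝ, ∀ s, R < |s| → g s = 0

theorem lt_abs_affine {a b c s : ℝ} (ha : a ≠ 0) (hs : (c + |b|) / |a| < |s|) :
    c < |a * s - b| := by
  have ha' : 0 < |a| := abs_pos.2 ha
  rw [div_lt_iff₀ ha'] at hs
  have h1 : |a * s| - |b| ≤ |a * s - b| := abs_sub_abs_le_abs_sub _ _
  rw [abs_mul] at h1
  nlinarith

theorem Bump.bddSupp {g : Bump} (h : Bump.WF g) : BddSupp (Bump.eval g) := by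
  rcases g with ⟨k, j, a, b⟩ | ⟨k, l, a, b⟩
  · have ha : (a : ℝ) ≠ 0 := by exact_mod_cast (show a ≠ 0 from h)
    refine ⟨(1 + |(b : ℝ)|) / |(a : ℝ)|, fun s hs => ?_⟩
    simp only [Bump.eval]
    rw [iteratedDeriv_rho_eq_zero j (lt_abs_affine ha hs), mul_zero]
  · have ha : (a : ℝ) ≠ 0 := by exact_mod_cast h.1
    have hl : (0 : ℝ) < l := by exact_mod_cast h.2
    refine ⟨((l + 1) + |(b : ℝ)|) / |(a : ℝ)|, fun s hs => ?_⟩
    simp only [Bump.eval]
    have h1 := lt_abs_affine ha hs
    rw [plateau_eq_zero hl.le, mul_zero]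
    rcases lt_abs.1 h1 with h2 | h2
    · exact Or.inr h2.le
    · exact Or.inl (by linarith)

theorem exists_window (R y₀ : ℝ) :
    ∃ S : Finset ℤ, ∀ y, |y - y₀| < 1 → ∀ m : ℤ, m ∉ S → R < |y + m| := by
  obtain ⟨N, hN⟩ := exists_nat_gt (R + |y₀| + 1)
  refine ⟨Finset.Icc (-(N : ℤ)) N, fun y hy m hm => ?_⟩
  have h1 : (N : ℤ) < |m| := by
    by_contra h
    exact hm (Finset.mem_Icc.2 (abs_le.1 (not_lt.1 h)))
  have h2 : (N : ℝ) < |(m : ℝ)| := by exact_mod_cast h1
  have h3 : |(m : ℝ)| ≤ |y + m| + |y| := by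
    have := abs_sub (y + m) y
    simpa using this
  have h4 : |y| ≤ |y - y₀| + |y₀| := by
    have := abs_add_le (y - y₀) y₀
    simpa using this
  linarith

theorem BddSupp.summable {g : ℝ → ℝ} (h : BddSupp g) (y : ℝ) :
    Summable fun m : ℤ => g (y + m) := by
  obtain ⟨R, hR⟩ := h
  obtain ⟨S, hS⟩ := exists_window R y
  exact summable_of_ne_finset_zero (s := S) fun m hm => hR _ (hS y (by simp) m hm)

theorem per_eventuallyEq {g : ℝ → ℝ} {R : ℝ} (hR : ∀ s, R < |s| → g s = 0) {y₀ : ℝ}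
    {S : Finset ℤ} (hS : ∀ y, |y - y₀| < 1 → ∀ m : ℤ, m ∉ S → R < |y + m|) :
    per g =ᶠ[𝓝 y₀] fun y => ∑ m ∈ S, g (y + m) := by
  have ho : IsOpen {y : ℝ | |y - y₀| < 1} :=
    isOpen_lt (continuous_id.sub continuous_const).abs continuous_const
  filter_upwards [ho.mem_nhds (show |y₀ - y₀| < 1 by simp)] with y hy
  unfold per
  exact tsum_eq_sum fun m hm => hR _ (hS y hy m hm)

theorem BddSupp.contDiff_per {g : ℝ → ℝ} (h : BddSupp g) (hg : ContDiff ℝ ∞ g) :
    ContDiff ℝ ∞ (per g) := by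
  obtain ⟨R, hR⟩ := h
  refine contDiff_iff_contDiffAt.2 fun y₀ => ?_
  obtain ⟨S, hS⟩ := exists_window R y₀
  refine ContDiffAt.congr_of_eventuallyEq ?_ (per_eventuallyEq hR hS)
  exact (ContDiff.sum fun m _ => hg.comp (contDiff_id.add contDiff_const)).contDiffAt

theorem BddSupp.hasDerivAt_per {g g' : ℝ → ℝ} (h : BddSupp g) (hg : ∀ s, HasDerivAt g (g' s) s)
    (y₀ : ℝ) : HasDerivAt (per g) (per g' y₀) y₀ := by
  obtain ⟨R, hR⟩ := h
  have hR' : ∀ s, R < |s| → g' s = 0 := by
    intro s hs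
    have h1 : g =ᶠ[𝓝 s] fun _ => (0 : ℝ) := by
      have ho : IsOpen {x : ℝ | R < |x|} := isOpen_lt continuous_const continuous_abs
      filter_upwards [ho.mem_nhds hs] with x hx
      exact hR x hx
    exact (hg s).unique ((hasDerivAt_const s (0 : ℝ)).congr_of_eventuallyEq h1)
  obtain ⟨S, hS⟩ := exists_window R y₀
  rw [(per_eventuallyEq hR' hS).eq_of_nhds]
  refine HasDerivAt.congr_of_eventuallyEq ?_ (per_eventuallyEq hR hS)
  exact HasDerivAt.fun_sum fun m _ => (hg (y₀ + m)).comp_add_const y₀ m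

theorem BddSupp.list_sum {ι : Type*} (L : List ι) (c : ι → ℝ) (f : ι → ℝ → ℝ)
    (h : ∀ p ∈ L, BddSupp (f p)) : BddSupp fun s => (L.map fun p => c p * f p s).sum := by
  induction L with
  | nil => exact ⟨0, fun s _ => by simp⟩
  | cons p L ih =>
    obtain ⟨R₁, h₁⟩ := h p (by simp)
    obtain ⟨R₂, h₂⟩ := ih fun q hq => h q (by simp [hq])
    refine ⟨max R₁ R₂, fun s hs => ?_⟩
    have e₁ := h₁ s ((le_max_left _ _).trans_lt hs)
    have e₂ := h₂ s ((le_max_right _ _).trans_lt hs)
    simp only [List.map_cons, List.sum_cons, e₁, mul_zero, zero_add]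
    exact e₂

theorem per_list_sum {ι : Type*} (L : List ι) (c : ι → ℝ) (f : ι → ℝ → ℝ)
    (h : ∀ p ∈ L, BddSupp (f p)) (y : ℝ) :
    per (fun s => (L.map fun p => c p * f p s).sum) y = (L.map fun p => c p * per (f p) y).sum := by
  induction L with
  | nil => simp [per]
  | cons p L ih =>
    have hL : ∀ q ∈ L, BddSupp (f q) := fun q hq => h q (by simp [hq])
    have s₁ := ((h p (by simp)).summable y).mul_left (c p)
    have s₂ := (BddSupp.list_sum L c f hL).summable y
    have e := ih hL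
    simp only [List.map_cons, List.sum_cons]
    rw [← e]
    unfold per
    rw [s₁.tsum_add s₂, tsum_mul_left]

theorem Bump.contDiff_per {g : Bump} (h : Bump.WF g) : ContDiff ℝ ∞ (per (Bump.eval g)) :=
  (Bump.bddSupp h).contDiff_per (Bump.contDiff g)

theorem Bump.hasDerivAt_per {g : Bump} (h : Bump.WF g) (s : ℝ) :
    HasDerivAt (per (Bump.eval g))
      (((Bump.D g).map fun p => (p.1 : ℝ) * per (Bump.eval p.2) s).sum) s := by
  have h1 := (Bump.bddSupp h).hasDerivAt_per (Bump.hasDerivAt g) s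
  rwa [per_list_sum (Bump.D g) (fun p => (p.1 : ℝ)) (fun p => Bump.eval p.2)
    (fun p hp => Bump.bddSupp (Bump.D_wf h p hp)) s] at h1

theorem per_add_int (g : ℝ → ℝ) (y : ℝ) (m : ℤ) : per g (y + m) = per g y := by
  unfold per
  rw [← (Equiv.addLeft m).tsum_eq fun k : ℤ => g (y + k)]
  refine tsum_congr fun k => ?_
  simp [add_assoc]

theorem exists_rep_eq (x : ℝ) : ∃ m : ℤ, rep (x : UnitAddCircle) = x + m := by
  refine ⟨-⌊x⌋, ?_⟩
  unfold rep
  rw [AddCircle.coe_equivIco_mk_apply]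
  simp [Int.fract, sub_eq_add_neg]

theorem per_rep (g : ℝ → ℝ) (x : ℝ) : per g (rep (x : UnitAddCircle)) = per g x := by
  obtain ⟨m, hm⟩ := exists_rep_eq x
  rw [hm, per_add_int]

theorem per_eq_self {g : ℝ → ℝ} {y : ℝ} (h : ∀ m : ℤ, m ≠ 0 → g (y + m) = 0) : per g y = g y := by
  unfold per
  rw [tsum_eq_single 0 h]
  simp

end Vale.Agent.N113
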