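import Vale.Agent.N113.Build
import Vale.Agent.N113.RatPrim

/-!
# P113: the compiler is primitive recursive
-/

namespace Vale.Agent.N113

open RatPrim

set_option synthInstance.maxSize 1024

/-- A synonym of `Primrec` used with `fun_prop`. -/
@[fun_prop]
structure PR {α β : Type} [Primcodable α] [Primcodable β] (f : α → β) : Prop where
  out : Primrec f

namespace PR

variable {α β γ δ : Type} [Primcodable α] [Primcodable β] [Primcodable γ] [Primcodable δ]

@[fun_prop] theorem id' : PR (fun a : α => a) :=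
  ⟨Primrec.id⟩
@[fun_prop] theorem const (b : β) : PR (fun _ : α => b) :=
  ⟨Primrec.const b⟩
@[fun_prop] theorem comp {f : β → γ} {g : α → β} (hf : PR f) (hg : PR g) :
    PR (fun a => f (g a)) :=
  ⟨Primrec.comp hf.out hg.out⟩
@[fun_prop] theorem pair {f : α → β} {g : α → γ} (hf : PR f) (hg : PR g) :
    PR (fun a => (f a, g a)) :=
  ⟨Primrec.pair hf.out hg.out⟩
@[fun_prop] theorem fst {f : α → β × γ} (hf : PR f) : PR (fun a => (f a).1) :=
  ⟨Primrec.fst.comp hf.out⟩
@[fun_prop] theorem snd {f : α → β × γ} (hf : PR f) : PR (fun a => (f a).2) :=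
  ⟨Primrec.snd.comp hf.out⟩
@[fun_prop] theorem inl {f : α → β} (hf : PR f) : PR (fun a => (Sum.inl (f a) : β ⊕ γ)) :=
  ⟨Primrec.sumInl.comp hf.out⟩
@[fun_prop] theorem inr {f : α → γ} (hf : PR f) : PR (fun a => (Sum.inr (f a) : β ⊕ γ)) :=
  ⟨Primrec.sumInr.comp hf.out⟩
@[fun_prop] theorem cons {f : α → β} {g : α → List β} (hf : PR f) (hg : PR g) :
    PR (fun a => f a :: g a) :=
  ⟨Primrec.list_cons.comp hf.out hg.out⟩
@[fun_prop] theorem append {f g : α → List β} (hf : PR f) (hg : PR g) :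
    PR (fun a => f a ++ g a) :=
  ⟨Primrec.list_append.comp hf.out hg.out⟩
@[fun_prop] theorem map {f : α → List β} {g : α → β → γ} (hf : PR f)
    (hg : PR (fun p : α × β => g p.1 p.2)) : PR (fun a => (f a).map (g a)) :=
  ⟨Primrec.list_map hf.out hg.out⟩
@[fun_prop] theorem flatMap {f : α → List β} {g : α → β → List γ} (hf : PR f)
    (hg : PR (fun p : α × β => g p.1 p.2)) : PR (fun a => (f a).flatMap (g a)) :=
  ⟨Primrec.list_flatMap hf.out hg.out⟩
@[fun_prop] theorem filter {f : α → List β} {g : α → β → Bool} (hf : PR f)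
    (hg : PR (fun p : α × β => g p.1 p.2)) : PR (fun a => (f a).filter (g a)) := by
  have h : Primrec fun a => (f a).filterMap (fun b => bif g a b then some b else none) :=
    Primrec.listFilterMap hf.out (Primrec.cond hg.out (Primrec.option_some.comp Primrec.snd)
      (Primrec.const none))
  refine ⟨h.of_eq fun a => ?_⟩
  rw [← List.filterMap_eq_filter]
  congr 1
  funext b
  cases h : g a b <;> simp [Option.guard, h]
@[fun_prop] theorem length {f : α → List β} (hf : PR f) : PR (fun a => (f a).length) :=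
  ⟨Primrec.list_length.comp hf.out⟩
@[fun_prop] theorem range {f : α → ℕ} (hf : PR f) : PR (fun a => List.range (f a)) :=
  ⟨Primrec.list_range.comp hf.out⟩
@[fun_prop] theorem getD {f : α → List β} {g : α → ℕ} (d : β) (hf : PR f) (hg : PR g) :
    PR (fun a => (f a).getD (g a) d) :=
  ⟨(Primrec.list_getD d).comp hf.out hg.out⟩
@[fun_prop] theorem nadd {f g : α → ℕ} (hf : PR f) (hg : PR g) : PR (fun a => f a + g a) :=
  ⟨Primrec.nat_add.comp hf.out hg.out⟩
@[fun_prop] theorem nsub {f g : α → ℕ} (hf : PR f) (hg : PR g) : PR (fun a => f a - g a) :=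
  ⟨Primrec.nat_sub.comp hf.out hg.out⟩
@[fun_prop] theorem nmul {f g : α → ℕ} (hf : PR f) (hg : PR g) : PR (fun a => f a * g a) :=
  ⟨Primrec.nat_mul.comp hf.out hg.out⟩
@[fun_prop] theorem ndiv {f g : α → ℕ} (hf : PR f) (hg : PR g) : PR (fun a => f a / g a) :=
  ⟨Primrec.nat_div.comp hf.out hg.out⟩
@[fun_prop] theorem nmod {f g : α → ℕ} (hf : PR f) (hg : PR g) : PR (fun a => f a % g a) :=
  ⟨Primrec.nat_mod.comp hf.out hg.out⟩
@[fun_prop] theorem zadd {f g : α → ℤ} (hf : PR f) (hg : PR g) : PR (fun a => f a + g a) :=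
  ⟨int_add.comp hf.out hg.out⟩
@[fun_prop] theorem zneg {f : α → ℤ} (hf : PR f) : PR (fun a => - f a) :=
  ⟨int_neg.comp hf.out⟩
@[fun_prop] theorem zcast {f : α → ℕ} (hf : PR f) : PR (fun a => (f a : ℤ)) :=
  ⟨int_natCast.comp hf.out⟩
@[fun_prop] theorem qadd {f g : α → ℚ} (hf : PR f) (hg : PR g) : PR (fun a => f a + g a) :=
  ⟨rat_add.comp hf.out hg.out⟩
@[fun_prop] theorem qsub {f g : α → ℚ} (hf : PR f) (hg : PR g) : PR (fun a => f a - g a) :=
  ⟨rat_sub.comp hf.out hg.out⟩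
@[fun_prop] theorem qmul {f g : α → ℚ} (hf : PR f) (hg : PR g) : PR (fun a => f a * g a) :=
  ⟨rat_mul.comp hf.out hg.out⟩
@[fun_prop] theorem qdiv {f g : α → ℚ} (hf : PR f) (hg : PR g) : PR (fun a => f a / g a) :=
  ⟨rat_div.comp hf.out hg.out⟩
@[fun_prop] theorem qneg {f : α → ℚ} (hf : PR f) : PR (fun a => - f a) :=
  ⟨rat_neg.comp hf.out⟩
@[fun_prop] theorem qcast {f : α → ℕ} (hf : PR f) : PR (fun a => (f a : ℚ)) :=
  ⟨rat_natCast.comp hf.out⟩
@[fun_prop] theorem qpow {f : α → ℚ} {g : α → ℕ} (hf : PR f) (hg : PR g) :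
    PR (fun a => f a ^ g a) :=
  ⟨rat_pow.comp hf.out hg.out⟩
@[fun_prop] theorem bnot {f : α → Bool} (hf : PR f) : PR (fun a => !f a) :=
  ⟨Primrec.not.comp hf.out⟩
@[fun_prop] theorem band {f g : α → Bool} (hf : PR f) (hg : PR g) : PR (fun a => f a && g a) :=
  ⟨Primrec.and.comp hf.out hg.out⟩
@[fun_prop] theorem bor {f g : α → Bool} (hf : PR f) (hg : PR g) : PR (fun a => f a || g a) :=
  ⟨Primrec.or.comp hf.out hg.out⟩
theorem dlt {f g : α → ℕ} (hf : PR f) (hg : PR g) : PR (fun a => decide (f a < g a)) :=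
  ⟨(Primrec.nat_lt.comp hf.out hg.out).decide⟩
theorem dne {f g : α → ℕ} (hf : PR f) (hg : PR g) : PR (fun a => decide (f a ≠ g a)) :=
  ⟨(PrimrecPred.not (Primrec.eq.comp hf.out hg.out)).decide⟩
theorem ite_eq {f g : α → ℕ} {u v : α → β} (hf : PR f) (hg : PR g) (hu : PR u) (hv : PR v) :
    PR (fun a => if f a = g a then u a else v a) :=
  ⟨Primrec.ite (Primrec.eq.comp hf.out hg.out) hu.out hv.out⟩
theorem ite_le {f g : α → ℕ} {u v : α → β} (hf : PR f) (hg : PR g) (hu : PR u) (hv : PR v) :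
    PR (fun a => if f a ≤ g a then u a else v a) :=
  ⟨Primrec.ite (Primrec.nat_le.comp hf.out hg.out) hu.out hv.out⟩
theorem app {n : ℕ} {f : α → Fin n → β} (hf : PR f) (i : Fin n) : PR (fun a => f a i) :=
  ⟨(Primrec.fin_curry.1 hf.out).comp Primrec.id (Primrec.const i)⟩
theorem pi {n : ℕ} {f : α → Fin n → β} (hf : ∀ i, PR (fun a => f a i)) : PR f :=
  ⟨Primrec.fin_curry.2 (Primrec.fin_curry₁.2 fun i => (hf i).out).swap⟩
theorem vec3 {f g h : α → β} (hf : PR f) (hg : PR g) (hh : PR h) :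
    PR (fun a => ![f a, g a, h a]) := by
  refine pi fun i => ?_
  fin_cases i
  · exact hf
  · exact hg
  · exact hh
theorem update {n : ℕ} {f : α → Fin n → β} {g : α → β} (j : Fin n) (hf : PR f) (hg : PR g) :
    PR (fun a => Function.update (f a) j (g a)) := by
  refine pi fun i => ?_
  by_cases h : i = j
  · subst h
    simpa using hg
  · simpa [Function.update_of_ne h] using app hf i


end PR

/-! ## Formal derivatives -/

@[fun_prop] theorem pr_bumpD : PR Bump.D := by
  have h1 : PR (fun p : Bump × (ℕ × ℕ × ℚ × ℚ) =>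
      ([((p.2.1 : ℚ), .inl (p.2.1 - 1, p.2.2.1, p.2.2.2.1, p.2.2.2.2)),
        (p.2.2.2.1, .inl (p.2.1, p.2.2.1 + 1, p.2.2.2.1, p.2.2.2.2))] : List (ℚ × Bump))) := by
    fun_prop
  have h2 : PR (fun p : Bump × (ℕ × ℚ × ℚ × ℚ) =>
      ([((p.2.1 : ℚ), .inr (p.2.1 - 1, p.2.2.1, p.2.2.2.1, p.2.2.2.2)),
        (p.2.2.2.1, .inl (p.2.1, 0, p.2.2.2.1, p.2.2.2.2)),
        (-p.2.2.2.1, .inl (p.2.1, 0, p.2.2.2.1, p.2.2.2.2 + p.2.2.1))] : List (ℚ × Bump))) := by
    fun_prop
  refine ⟨(Primrec.sumCasesOn Primrec.id (Primrec.to₂ h1.out) (Primrec.to₂ h2.out)).of_eq ?_⟩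
  rintro (⟨k, j, a, b⟩ | ⟨k, l, a, b⟩) <;> rfl

@[fun_prop] theorem pr_prodD : PR prodD := by
  have h : PR (fun q : List Bump × (Bump × List Bump × List (ℚ × List Bump)) =>
      (Bump.D q.2.1).map (fun p => (p.1, p.2 :: q.2.2.1)) ++
        (q.2.2.2).map (fun p => (p.1, q.2.1 :: p.2))) := by
    fun_prop
  refine ⟨(Primrec.list_rec Primrec.id (Primrec.const []) (Primrec.to₂ h.out)).of_eq fun l => ?_⟩
  induction l with
  | nil => rfl
  | cons g l ih => simp only [id] at ih ⊢; rw [prodD, ← ih]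

@[fun_prop] theorem pr_scaleC {α : Type} [Primcodable α] {f : α → ℚ}
    {g : α → ℚ × ℕ × ℤ × List ℚ} (hf : PR f) (hg : PR g) : PR (fun a => scaleC (f a) (g a)) := by
  unfold scaleC
  fun_prop

@[fun_prop] theorem pr_dT : PR Term.dT := by
  unfold Term.dT
  fun_prop

theorem pr_dX (j : Fin 3) : PR (Term.dX j) := by
  unfold Term.dX
  have h1 : PR (fun τ : Term => τ.2.2 j) := PR.app (by fun_prop) j
  refine PR.map (PR.comp pr_prodD h1) ?_
  refine PR.pair (by fun_prop) (PR.pair (by fun_prop) ?_)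
  exact PR.update j (by fun_prop) (by fun_prop)

@[fun_prop] theorem pr_negNu : PR Term.negNu := by
  unfold Term.negNu
  fun_prop

@[fun_prop] theorem pr_heat : PR Term.heat := by
  have hx : ∀ j : Fin 3, PR (fun τ : Term => (τ.dX j).flatMap (Term.dX j)) := fun j =>
    PR.flatMap (pr_dX j) (PR.comp (pr_dX j) (PR.snd PR.id'))
  have h : PR (fun τ : Term => τ.dT ++ (((τ.dX 0).flatMap (Term.dX 0) ++
      ((τ.dX 1).flatMap (Term.dX 1) ++ (τ.dX 2).flatMap (Term.dX 2))).map Term.negNu)) :=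
    PR.append pr_dT (PR.map (PR.append (hx 0) (PR.append (hx 1) (hx 2)))
      (PR.comp pr_negNu (PR.snd PR.id')))
  refine ⟨Primrec.of_eq h.out fun τ => ?_⟩
  simp [Term.heat]

@[fun_prop] theorem pr_forceOf : PR forceOf := by
  unfold forceOf
  fun_prop

/-! ## Words, cylinders, rules -/

section

variable {α : Type} [Primcodable α]

@[fun_prop] theorem pr_pushQ {N : α → ℕ} {u : α → List ℕ} {r : α → ℚ} (hN : PR N) (hu : PR u)
    (hr : PR r) : PR (fun a => pushQ (N a) (u a) (r a)) := by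
  have h : PR (fun p : α × (ℕ × ℚ) => (3 * (p.2.1 : ℚ) + 1 + p.2.2) / N p.1) := by fun_prop
  refine ⟨(Primrec.list_foldr hu.out hr.out (Primrec.to₂ h.out)).of_eq fun a => ?_⟩
  unfold pushQ
  induction u a with
  | nil => rfl
  | cons d l ih => simp at ih ⊢; rw [ih]

@[fun_prop] theorem pr_scQ {N : α → ℕ} {u : α → List ℕ} (hN : PR N) (hu : PR u) :
    PR (fun a => scQ (N a) (u a)) := by
  unfold scQ
  fun_prop

@[fun_prop] theorem pr_slQ {N : α → ℕ} {u v : α → List ℕ} (hN : PR N) (hu : PR u) (hv : PR v) :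
    PR (fun a => slQ (N a) (u a) (v a)) := by
  unfold slQ
  fun_prop

@[fun_prop] theorem pr_ofQ {N : α → ℕ} {u v : α → List ℕ} (hN : PR N) (hu : PR u) (hv : PR v) :
    PR (fun a => ofQ (N a) (u a) (v a)) := by
  unfold ofQ
  fun_prop

@[fun_prop] theorem pr_chi {N k : α → ℕ} {u : α → List ℕ} (hN : PR N) (hk : PR k) (hu : PR u) :
    PR (fun a => chi (N a) (k a) (u a)) := by
  unfold chi
  fun_prop

@[fun_prop] theorem pr_psi {A k i : α → ℕ} (hA : PR A) (hk : PR k) (hi : PR i) :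
    PR (fun a => psi (A a) (k a) (i a)) := by
  unfold psi
  fun_prop

@[fun_prop] theorem pr_pTerm (j m : ℕ) {q : α → ℚ} {hx hy hz : α → List Bump} (hq : PR q)
    (h1 : PR hx) (h2 : PR hy) (h3 : PR hz) :
    PR (fun a => pTerm j (q a) m (hx a) (hy a) (hz a)) := by
  unfold pTerm
  exact PR.pair (by fun_prop) (PR.pair (PR.const _) (PR.vec3 h1 h2 h3))

@[fun_prop] theorem pr_iTerm (j : ℕ) {q : α → ℚ} (hq : PR q) : PR (fun a => iTerm j (q a)) := by
  unfold iTerm
  exact PR.pair (by fun_prop) (PR.const _)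

@[fun_prop] theorem pr_lift1 {N A : α → ℕ} {r : α → Rule} (hN : PR N) (hA : PR A) (hr : PR r) :
    PR (fun a => lift1 (N a) (A a) (r a)) := by
  unfold lift1
  fun_prop

@[fun_prop] theorem pr_liftH {N s : α → ℕ} (hN : PR N) (hs : PR s) :
    PR (fun a => liftH (N a) (s a)) := by
  unfold liftH
  fun_prop

@[fun_prop] theorem pr_move2 {N A : α → ℕ} {r : α → Rule} (hN : PR N) (hA : PR A) (hr : PR r) :
    PR (fun a => move2 (N a) (A a) (r a)) := by
  unfold move2
  fun_prop

@[fun_prop] theorem pr_swap3 {N A : α → ℕ} (hN : PR N) (hA : PR A) :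
    PR (fun a => swap3 (N a) (A a)) := by
  unfold swap3
  fun_prop

@[fun_prop] theorem pr_move4 {N A : α → ℕ} {r : α → Rule} (hN : PR N) (hA : PR A) (hr : PR r) :
    PR (fun a => move4 (N a) (A a) (r a)) := by
  unfold move4
  fun_prop

@[fun_prop] theorem pr_drop5 {N A : α → ℕ} {r : α → Rule} (hN : PR N) (hA : PR A) (hr : PR r) :
    PR (fun a => drop5 (N a) (A a) (r a)) := by
  unfold drop5
  fun_prop

theorem pr_velP {N A : α → ℕ} {R : α → List Rule} {Hs : α → List ℕ} (hN : PR N) (hA : PR A)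
    (hR : PR R) (hH : PR Hs) : PR (fun a => velP (N a) (A a) (R a) (Hs a)) := by
  unfold velP
  exact PR.vec3 (by fun_prop) (by fun_prop) (by fun_prop)

theorem pr_velI {x y : α → ℚ} (hx : PR x) (hy : PR y) : PR (fun a => velI (x a) (y a)) := by
  unfold velI
  exact PR.vec3 (by fun_prop) (by fun_prop) (by fun_prop)

end

/-! ## The rules of a machine -/

namespace MachineCode

variable {α : Type} [Primcodable α]

@[fun_prop] theorem pr_nD : PR nD := by
  unfold nD
  fun_prop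

@[fun_prop] theorem pr_base : PR base := by
  unfold base
  fun_prop

@[fun_prop] theorem pr_nL : PR nL := by
  unfold nL
  fun_prop

@[fun_prop] theorem pr_vsc : PR vsc := by
  unfold vsc
  fun_prop

@[fun_prop] theorem pr_isH {c : α → MachineCode} {q : α → ℕ} (hc : PR c) (hq : PR q) :
    PR (fun a => isH (c a) (q a)) := by
  unfold isH
  fun_prop

@[fun_prop] theorem pr_tr {c : α → MachineCode} {q e : α → ℕ} (hc : PR c) (hq : PR q)
    (he : PR e) : PR (fun a => tr (c a) (q a) (e a)) := by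
  unfold tr
  fun_prop

@[fun_prop] theorem pr_src {s e : α → ℕ} (hs : PR s) (he : PR e) :
    PR (fun a => src (s a) (e a)) := by
  unfold src
  exact PR.ite_eq (by fun_prop) (by fun_prop) (by fun_prop) (by fun_prop)

@[fun_prop] theorem pr_tgt {c : α → MachineCode} {s e : α → ℕ} (hc : PR c) (hs : PR s)
    (he : PR e) : PR (fun a => tgt (c a) (s a) (e a)) := by
  unfold tgt
  refine PR.ite_le (by fun_prop) (by fun_prop) ?_ ?_
  · exact PR.ite_eq (by fun_prop) (by fun_prop) (by fun_prop) (by fun_prop)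
  · exact PR.ite_eq (by fun_prop) (by fun_prop) (by fun_prop) (by fun_prop)

@[fun_prop] theorem pr_ok {c : α → MachineCode} {s e : α → ℕ} (hc : PR c) (hs : PR s)
    (he : PR e) : PR (fun a => ok (c a) (s a) (e a)) := by
  unfold ok
  exact PR.band (by fun_prop) (PR.bor (PR.dlt (by fun_prop) (by fun_prop))
    (PR.dne (by fun_prop) (by fun_prop)))

@[fun_prop] theorem pr_rule {c : α → MachineCode} {i : α → ℕ} (hc : PR c) (hi : PR i) :
    PR (fun a => rule (c a) (i a)) := by
  unfold rule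
  fun_prop

@[fun_prop] theorem pr_rules : PR rules := by
  unfold rules
  fun_prop

@[fun_prop] theorem pr_halts : PR halts := by
  unfold halts
  fun_prop

@[fun_prop] theorem pr_eInf : PR eInf := by
  unfold eInf
  fun_prop

@[fun_prop] theorem pr_encS {c : α → MachineCode} {l : α → List ℕ} (hc : PR c) (hl : PR l) :
    PR (fun a => encS (c a) (l a)) := by
  unfold encS
  fun_prop

end MachineCode

theorem pr_vel (i : Fin 3) : PR (fun z : MachineCode × List ℕ => vel z.1 z.2 i) := by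
  unfold vel
  refine PR.append (PR.app (pr_velI ?_ ?_) i) (PR.app (pr_velP ?_ ?_ ?_ ?_) i) <;> fun_prop

theorem primrec_compile : Primrec compile :=
  (PR.pi fun i => PR.comp pr_forceOf (pr_vel i)).out

end Vale.Agent.N113
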