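import Mathlib

/-!
# P113: definitions used in the statement

Forced Navier-Stokes equations on the flat torus, particle trajectories, Turing machines,
admissible terms and force compilers.
-/

namespace Vale.Agent.N113

open MeasureTheory Set
open scoped ContDiff

noncomputable section

/-! ## The torus, classical solutions, trajectories -/

/-- Points (and vectors) of `ℝ³`. -/
abbrev R3 := Fin 3 → ℝ

/-- The flat torus `𝕋³ = (ℝ/ℤ)³`; its `volume` is the Haar probability measure. -/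
abbrev T3 := Fin 3 → UnitAddCircle

/-- The covering map `ℝ³ → 𝕋³`. -/
def proj (x : R3) : T3 := fun i => (x i : UnitAddCircle)

/-- The coordinate line through `x` in direction `i`, parametrised by arc length. -/
def line (x : T3) (i : Fin 3) (s : ℝ) : T3 := x + Pi.single i (s : UnitAddCircle)

/-- The partial derivative `∂_i F (x)` of a function on the torus. -/
def pd (i : Fin 3) (F : T3 → ℝ) (x : T3) : ℝ := deriv (fun s => F (line x i s)) 0

/-- `F` has a partial derivative in direction `i` at every point of the torus. -/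
def HasPd (i : Fin 3) (F : T3 → ℝ) : Prop :=
  ∀ x, DifferentiableAt ℝ (fun s => F (line x i s)) 0

/-- `G` is (jointly) continuous on `[0,T] × 𝕋³`. -/
def ContOn (T : ℝ) (G : ℝ → T3 → ℝ) : Prop :=
  ContinuousOn (fun z : ℝ × T3 => G z.1 z.2) (Icc 0 T ×ˢ univ)

/-- The time derivative on `[0,T]` (one-sided at the end points). -/
def dt (T : ℝ) (G : ℝ → T3 → ℝ) (t : ℝ) (x : T3) : ℝ := derivWithin (fun s => G s x) (Icc 0 T) t

/-- `(u, p)` is a classical solution on `[0,T] × 𝕋³` of
`∂_t u + (u·∇)u = -∇p + ν Δu + f`, `div u = 0`, `u(0,·) = 0`, with `p` of spatial mean zero.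
`u i` and `f i` are the components. -/
structure IsClassicalOn (ν : ℝ) (f : Fin 3 → ℝ → T3 → ℝ) (T : ℝ)
    (u : Fin 3 → ℝ → T3 → ℝ) (p : ℝ → T3 → ℝ) : Prop where
  cont_u : ∀ i, ContOn T (u i)
  diff_t : ∀ i, ∀ t ∈ Icc 0 T, ∀ x, DifferentiableWithinAt ℝ (fun s => u i s x) (Icc 0 T) t
  cont_dt : ∀ i, ContOn T (dt T (u i))
  diff_x : ∀ i j, ∀ t ∈ Icc 0 T, HasPd j (u i t)
  cont_dx : ∀ i j, ContOn T (fun t => pd j (u i t))
  diff_xx : ∀ i j k, ∀ t ∈ Icc 0 T, HasPd k (pd j (u i t))
  cont_dxx : ∀ i j k, ContOn T (fun t => pd k (pd j (u i t)))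
  cont_p : ContOn T p
  diff_p : ∀ j, ∀ t ∈ Icc 0 T, HasPd j (p t)
  cont_dp : ∀ j, ContOn T (fun t => pd j (p t))
  mean_p : ∀ t ∈ Icc 0 T, ∫ x, p t x = 0
  momentum : ∀ i, ∀ t ∈ Icc 0 T, ∀ x,
    dt T (u i) t x + ∑ j, u j t x * pd j (u i t) x
      = - pd i (p t) x + ν * ∑ j, pd j (pd j (u i t)) x + f i t x
  div_free : ∀ t ∈ Icc 0 T, ∀ x, ∑ j, pd j (u j t) x = 0
  init : ∀ i x, u i 0 x = 0

/-- `G` is `C^∞` on `[0,∞) × 𝕋³` (read in the covering coordinates). -/
def SmoothOnHalf (G : ℝ → T3 → ℝ) : Prop :=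
  ContDiffOn ℝ ∞ (fun z : ℝ × R3 => G z.1 (proj z.2)) (Ici 0 ×ˢ univ)

/-- `X : [0,∞) → ℝ³` is a lift to `ℝ³` of the trajectory of the point `proj a`:
`X' (t) = u (t, proj (X t))` for `t ≥ 0` and `X 0 = a`. -/
def IsTrajectory (u : Fin 3 → ℝ → T3 → ℝ) (a : R3) (X : ℝ → R3) : Prop :=
  X 0 = a ∧ ∀ t, 0 ≤ t → HasDerivWithinAt X (fun i => u i t (proj (X t))) (Ici 0) t

/-- The image in `𝕋³` of the open box with rational corners `lo`, `hi`. -/
def boxImage (lo hi : Fin 3 → ℚ) : Set T3 :=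
  proj '' {x | ∀ i, (lo i : ℝ) < x i ∧ x i < (hi i : ℝ)}

/-! ## Machines -/

/-- A deterministic one-tape Turing machine with states `Fin nQ` and tape alphabet `Fin nG`.
`step q a = (q', b, d)`: in state `q` reading `a`, write `b`, go to state `q'` and move
the head by `d - 1` cells (`d = 0` left, `d = 1` stay, `d = 2` right). -/
structure Machine where
  nQ : ℕ
  nG : ℕ
  start : Fin nQ
  blank : Fin nG
  halting : Fin nQ → Bool
  step : Fin nQ → Fin nG → Fin nQ × Fin nG × Fin 3

/-- A configuration: state, two-sided tape, head position. -/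
structure Machine.Cfg (M : Machine) where
  state : Fin M.nQ
  tape : ℤ → Fin M.nG
  head : ℤ

/-- One step of the machine (a halting state is never left). -/
def Machine.next (M : Machine) (c : M.Cfg) : M.Cfg :=
  if M.halting c.state then c else
    let r := M.step c.state (c.tape c.head)
    ⟨r.1, Function.update c.tape c.head r.2.1, c.head + ((r.2.2 : ℕ) : ℤ) - 1⟩

/-- The initial configuration on the input `w`: `w` on cells `0, 1, …`, blank elsewhere, head at `0`. -/
def Machine.initCfg (M : Machine) (w : List (Fin M.nG)) : M.Cfg :=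
  ⟨M.start, fun k => if 0 ≤ k then w.getD k.toNat M.blank else M.blank, 0⟩

/-- `M` halts on `w`: a halting state is reached after finitely many steps, possibly none. -/
def Machine.HaltsOn (M : Machine) (w : List (Fin M.nG)) : Prop :=
  ∃ n, M.halting (M.next^[n] (M.initCfg w)).state = true

/-- The type of finite descriptions of machines: number of states, number of symbols, start
state, blank, the list of halting flags, the transition table. -/
abbrev MachineCode := ℕ × ℕ × ℕ × ℕ × List Bool × List (List (ℕ × ℕ × ℕ))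

/-- The finite description of a machine. -/
def Machine.code (M : Machine) : MachineCode :=
  (M.nQ, M.nG, M.start, M.blank, List.ofFn M.halting,
    List.ofFn fun q => List.ofFn fun a =>
      (((M.step q a).1 : ℕ), ((M.step q a).2.1 : ℕ), ((M.step q a).2.2 : ℕ)))

/-! ## Admissible functions -/

/-- `ρ(s) = exp (-1/(1-s²))` for `|s| < 1`, and `0` otherwise. -/
def rho (s : ℝ) : ℝ := if |s| < 1 then Real.exp (-1 / (1 - s ^ 2)) else 0

/-- `κ = ∫ ρ`. -/
def kappa : ℝ := ∫ s, rho s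

/-- `σ(s) = ∫_{-∞}^s ρ`. -/
def sigma (s : ℝ) : ℝ := ∫ r in Iic s, rho r

/-- `π_ℓ(s) = σ(s) - σ(s - ℓ)`. -/
def plateau (l s : ℝ) : ℝ := sigma s - sigma (s - l)

/-- A bump: `inl (k, j, a, b)` stands for `s ↦ s^k ρ^{(j)}(a s - b)` and
`inr (k, ℓ, a, b)` for `s ↦ s^k π_ℓ(a s - b)`. -/
abbrev Bump := (ℕ × ℕ × ℚ × ℚ) ⊕ (ℕ × ℚ × ℚ × ℚ)

/-- The function a bump stands for. -/
def Bump.eval : Bump → ℝ → ℝ
  | .inl (k, j, a, b), s => s ^ k * iteratedDeriv j rho (a * s - b)
  | .inr (k, l, a, b), s => s ^ k * plateau l (a * s - b)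

/-- The side conditions `a ≠ 0` and `ℓ > 0`. -/
def Bump.WF : Bump → Prop
  | .inl (_, _, a, _) => a ≠ 0
  | .inr (_, l, a, _) => a ≠ 0 ∧ 0 < l

/-- The `1`-periodization `P[g](y) = ∑_{m ∈ ℤ} g (y + m)`. -/
def per (g : ℝ → ℝ) (y : ℝ) : ℝ := ∑' m : ℤ, g (y + m)

/-- The representative in `[0,1)` of a point of `ℝ/ℤ`. -/
def rep (y : UnitAddCircle) : ℝ := (AddCircle.equivIco 1 0 y : ℝ)

/-- A term `c θ(t) h₁(x₁) h₂(x₂) h₃(x₃)`, given by `((q, m, n, r), (A, B), H)`:
`c = q ν^m κ^n ∏_{r_i ∈ r} ln r_i`, `θ = ∏_{g ∈ A} g · ∏_{g ∈ B} P[g]` and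
`h_i = ∏_{g ∈ H i} P[g]` (an empty product is `1`). -/
abbrev Term := (ℚ × ℕ × ℤ × List ℚ) × (List Bump × List Bump) × (Fin 3 → List Bump)

/-- The constant `c` of a term. -/
def Term.coeff (ν : ℝ) (τ : Term) : ℝ :=
  (τ.1.1 : ℝ) * ν ^ τ.1.2.1 * kappa ^ τ.1.2.2.1 * (τ.1.2.2.2.map fun r : ℚ => Real.log (r : ℝ)).prod

/-- The time factor `θ` of a term. -/
def Term.time (τ : Term) (t : ℝ) : ℝ :=
  (τ.2.1.1.map fun g => Bump.eval g t).prod * (τ.2.1.2.map fun g => per (Bump.eval g) t).prod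

/-- The value of a term at `(t, x)`. -/
def Term.eval (ν : ℝ) (τ : Term) (t : ℝ) (x : T3) : ℝ :=
  τ.coeff ν * τ.time t * ∏ i, ((τ.2.2 i).map fun g => per (Bump.eval g) (rep (x i))).prod

/-- All `r_i` are positive and all bumps satisfy their side conditions. -/
def Term.WF (τ : Term) : Prop :=
  (∀ r ∈ τ.1.2.2.2, 0 < r) ∧ (∀ g ∈ τ.2.1.1, Bump.WF g) ∧ (∀ g ∈ τ.2.1.2, Bump.WF g) ∧
    ∀ i, ∀ g ∈ τ.2.2 i, Bump.WF g

/-- A term is periodic if `θ` is `1` or a product of periodizations only. -/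
def Term.periodic (τ : Term) : Bool := τ.2.1.1.isEmpty

/-- The sum of a list of terms. -/
def sumTerms (ν : ℝ) (L : List Term) (t : ℝ) (x : T3) : ℝ := (L.map fun τ => τ.eval ν t x).sum

/-- The input of the compiler: the description of `M` and the word `w`. -/
def inputCode (M : Machine) (w : List (Fin M.nG)) : MachineCode × List ℕ :=
  (M.code, w.map Fin.val)

/-- `C` is a force compiler (for the viscosity `ν`). -/
structure IsForceCompiler (ν : ℝ) (C : MachineCode × List ℕ → Fin 3 → List Term) : Prop where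
  computable : Computable C
  wf : ∀ M w i, ∀ τ ∈ C (inputCode M w) i, Term.WF τ
  vanish : ∃ T₀ : ℝ, ∀ M w i, ∀ τ ∈ C (inputCode M w) i, Term.periodic τ = false →
    ∀ t, T₀ ≤ t → ∀ x, Term.eval ν τ t x = 0
  periodic_part : ∀ M w w' i, (C (inputCode M w) i).filter Term.periodic
    = (C (inputCode M w') i).filter Term.periodic

/-- The force `f_{M,w}` produced by the compiler `C`. -/
def force (ν : ℝ) (C : MachineCode × List ℕ → Fin 3 → List Term) (M : Machine)
    (w : List (Fin M.nG)) : Fin 3 → ℝ → T3 → ℝ :=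
  fun i => sumTerms ν (C (inputCode M w) i)

/-- The statement Q1 for one viscosity `ν`: there are a rational point `a`, a nonempty open
rational box (with sides shorter than `1`) and a force compiler `C` such that for every machine
`M` and input `w` the system with force `f_{M,w}` has a global smooth solution `(u, p)`, unique
among classical solutions on each `[0,T]`, the trajectory of `a` exists, and it meets the image
of the box at some time `t ≥ 0` if and only if `M` halts on `w`. -/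
def Q1 (ν : ℝ) : Prop :=
  ∃ (a lo hi : Fin 3 → ℚ) (C : MachineCode × List ℕ → Fin 3 → List Term),
    (∀ i, lo i < hi i ∧ hi i < lo i + 1) ∧
    IsForceCompiler ν C ∧ ∀ (M : Machine) (w : List (Fin M.nG)),
      ∃ (u : Fin 3 → ℝ → T3 → ℝ) (p : ℝ → T3 → ℝ),
        (∀ i, SmoothOnHalf (u i)) ∧ SmoothOnHalf p ∧
        (∀ T, 0 < T → IsClassicalOn ν (force ν C M w) T u p) ∧
        (∀ T, 0 < T → ∀ v q, IsClassicalOn ν (force ν C M w) T v q →
          ∀ t ∈ Icc 0 T, ∀ x, (∀ i, v i t x = u i t x) ∧ q t x = p t x) ∧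
        (∃ X, IsTrajectory u (fun i => (a i : ℝ)) X) ∧
        ∀ X, IsTrajectory u (fun i => (a i : ℝ)) X →
          ((∃ t, 0 ≤ t ∧ proj (X t) ∈ boxImage lo hi) ↔ M.HaltsOn w)

end

end Vale.Agent.N113
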