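import Vale.Agent.N113.TermCalc

/-!
# P113: the compiler is a force compiler (given that it is primitive recursive)
-/

namespace Vale.Agent.N113

open Set

namespace FC

/-! ### The velocity terms -/

lemma slot_wf (j : ℕ) : Bump.WF (slot j) := by
  simp [slot, Bump.WF]

lemma chi_wf {N : ℕ} (hN : 0 < N) (k : ℕ) (u : List ℕ) : Bump.WF (chi N k u) := by
  have : (0 : ℚ) < scQ N u := by
    unfold scQ
    positivity
  exact ⟨by positivity, by norm_num⟩

lemma psi_wf {A : ℕ} (hA : 0 < A) (k i : ℕ) : Bump.WF (psi A k i) :=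
  ⟨by positivity, by norm_num⟩

lemma pTerm_wf (j : ℕ) (q : ℚ) (m : ℕ) {hx hy hz : List Bump} (h1 : ∀ g ∈ hx, Bump.WF g)
    (h2 : ∀ g ∈ hy, Bump.WF g) (h3 : ∀ g ∈ hz, Bump.WF g) : Term.WF (pTerm j q m hx hy hz) := by
  refine ⟨by simp [pTerm], by simp [pTerm], by simp [pTerm, slot_wf], fun i => ?_⟩
  fin_cases i
  · exact h1
  · exact h2
  · exact h3

lemma iTerm_wf (j : ℕ) (q : ℚ) : Term.WF (iTerm j q) := by
  refine ⟨by simp [iTerm], by simp [iTerm, slot_wf], by simp [iTerm], fun i => ?_⟩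
  fin_cases i <;> simp [iTerm]

lemma velP_spec {N A : ℕ} (hN : 0 < N) (hA : 0 < A) (R : List Rule) (Hs : List ℕ) (i : Fin 3) :
    ∀ τ ∈ velP N A R Hs i, Term.WF τ := by
  have c1 : ∀ k u, ∀ g ∈ [chi N k u], Bump.WF g := by simpa using chi_wf hN
  have c2 : ∀ k u, ∀ g ∈ [psi A k u], Bump.WF g := by simpa using psi_wf hA
  have c0 : ∀ g ∈ ([] : List Bump), Bump.WF g := by simp
  intro τ hτ
  fin_cases i
  · simp only [velP, move2, List.mem_flatMap, List.mem_cons, List.not_mem_nil, or_false,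
      Fin.zero_eta, Matrix.cons_val_zero] at hτ
    obtain ⟨r, -, rfl | rfl⟩ := hτ <;> exact pTerm_wf _ _ _ c0 c0 (c2 _ _)
  · simp only [velP, move4, List.mem_flatMap, List.mem_cons, List.not_mem_nil, or_false,
      Fin.mk_one, Matrix.cons_val_one, Matrix.cons_val_zero] at hτ
    obtain ⟨r, -, rfl | rfl⟩ := hτ <;> exact pTerm_wf _ _ _ c0 c0 (c2 _ _)
  · have hτ' : τ ∈ R.flatMap (lift1 N A) ++ Hs.map (liftH N) ++ swap3 N A
        ++ R.flatMap (drop5 N A) := hτ
    simp only [lift1, liftH, swap3, drop5, List.mem_append, List.mem_map, List.mem_flatMap,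
      List.mem_cons, List.not_mem_nil, or_false] at hτ'
    rcases hτ' with ((⟨r, -, rfl | rfl⟩ | ⟨s, -, rfl⟩) | rfl | rfl) | ⟨r, -, rfl | rfl⟩
    · exact pTerm_wf _ _ _ (c1 _ _) (c1 _ _) c0
    · exact pTerm_wf _ _ _ (c1 _ _) (c1 _ _) c0
    · exact pTerm_wf _ _ _ (c1 _ _) c0 c0
    · exact pTerm_wf _ _ _ c0 (c1 _ _) c0
    · exact pTerm_wf _ _ _ (c1 _ _) c0 c0
    · exact pTerm_wf _ _ _ (c1 _ _) (c1 _ _) c0
    · exact pTerm_wf _ _ _ (c1 _ _) (c1 _ _) c0

lemma velP_periodic (N A : ℕ) (R : List Rule) (Hs : List ℕ) (i : Fin 3) :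
    ∀ τ ∈ velP N A R Hs i, Term.periodic τ = true := by
  intro τ hτ
  fin_cases i
  · simp only [velP, move2, List.mem_flatMap, List.mem_cons, List.not_mem_nil, or_false,
      Fin.zero_eta, Matrix.cons_val_zero] at hτ
    obtain ⟨r, -, rfl | rfl⟩ := hτ <;> rfl
  · simp only [velP, move4, List.mem_flatMap, List.mem_cons, List.not_mem_nil, or_false,
      Fin.mk_one, Matrix.cons_val_one, Matrix.cons_val_zero] at hτ
    obtain ⟨r, -, rfl | rfl⟩ := hτ <;> rfl
  · have hτ' : τ ∈ R.flatMap (lift1 N A) ++ Hs.map (liftH N) ++ swap3 N A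
        ++ R.flatMap (drop5 N A) := hτ
    simp only [lift1, liftH, swap3, drop5, List.mem_append, List.mem_map, List.mem_flatMap,
      List.mem_cons, List.not_mem_nil, or_false] at hτ'
    rcases hτ' with ((⟨r, -, rfl | rfl⟩ | ⟨s, -, rfl⟩) | rfl | rfl) | ⟨r, -, rfl | rfl⟩ <;> rfl

lemma velI_spec (x₀ y₀ : ℚ) (i : Fin 3) :
    ∀ τ ∈ velI x₀ y₀ i, Term.WF τ ∧ Term.periodic τ = false ∧ τ.Late := by
  intro τ hτ
  fin_cases i
  · obtain rfl : τ = iTerm 0 x₀ := by simpa [velI] using hτ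
    exact ⟨iTerm_wf _ _, rfl, 0, 0, 16, _, List.mem_cons_self, by norm_num, by norm_num⟩
  · obtain rfl : τ = iTerm 1 y₀ := by simpa [velI] using hτ
    exact ⟨iTerm_wf _ _, rfl, 0, 0, 16, _, List.mem_cons_self, by norm_num, by norm_num⟩
  · simp [velI] at hτ

lemma base_code_pos (M : Machine) : 0 < MachineCode.base M.code := by
  have : 0 < M.nG := M.blank.pos
  unfold MachineCode.base MachineCode.nD
  have h : M.code.2.1 = M.nG := rfl
  rw [h]
  positivity

lemma vsc_pos (c : MachineCode) : 0 < MachineCode.vsc c := by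
  unfold MachineCode.vsc
  omega

theorem vel_wf (M : Machine) (w : List ℕ) (i : Fin 3) : ∀ τ ∈ vel M.code w i, Term.WF τ := by
  intro τ hτ
  rcases List.mem_append.1 hτ with h | h
  · exact (velI_spec _ _ i τ h).1
  · exact velP_spec (base_code_pos M) (vsc_pos _) _ _ i τ h

lemma forceOf_append (U V : List Term) : forceOf (U ++ V) = forceOf U ++ forceOf V :=
  List.flatMap_append

lemma filter_compile (c : MachineCode) (w : List ℕ) (i : Fin 3) :
    (compile (c, w) i).filter Term.periodic = forceOf (velP (MachineCode.base c) (MachineCode.vsc c)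
      (MachineCode.rules c) (MachineCode.halts c) i) := by
  simp only [compile, vel, forceOf_append, List.filter_append]
  rw [List.filter_eq_nil_iff.2, List.filter_eq_self.2, List.nil_append]
  · intro τ' h'
    obtain ⟨τ, hτ, h'⟩ := List.mem_flatMap.1 h'
    rw [heat_periodic h', velP_periodic _ _ _ _ i τ hτ]
  · intro τ' h'
    obtain ⟨τ, hτ, h'⟩ := List.mem_flatMap.1 h'
    rw [heat_periodic h', (velI_spec _ _ i τ hτ).2.1]
    exact Bool.false_ne_true

end FC

open FC

theorem isForceCompiler_of_primrec (hP : Primrec compile) (ν : ℝ) : IsForceCompiler ν compile where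
  computable := hP.to_comp
  wf := by
    intro M w i τ' h'
    obtain ⟨τ, hτ, h'⟩ := List.mem_flatMap.1 h'
    exact heat_wf (vel_wf M _ i τ hτ) h'
  vanish := by
    refine ⟨1, fun M w i τ' h' hp t ht x => ?_⟩
    obtain ⟨τ, hτ, h'⟩ := List.mem_flatMap.1 h'
    rcases List.mem_append.1 hτ with h | h
    · exact (heat_late (velI_spec _ _ i τ h).2.2 h').eval_eq_zero ν ht x
    · rw [heat_periodic h', velP_periodic _ _ _ _ i τ h] at hp
      exact absurd hp (by decide)
  periodic_part := fun M w w' i => (filter_compile M.code _ i).trans (filter_compile M.code _ i).symm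

end Vale.Agent.N113
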