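import Vale.Agent.N113.Bump

/-!
# P113: trajectories of a velocity field made of shears in successive time slots
-/

namespace Vale.Agent.N113

open Set

namespace Traj

/-- The fraction of the displacement of slot `k` done at time `t`. -/
noncomputable def frac (k : ℕ) (t : ℝ) : ℝ := sigma (16 * t - (2 * k + 1)) / kappa

theorem frac_mem (k : ℕ) (t : ℝ) : frac k t ∈ Icc (0 : ℝ) 1 :=
  ⟨div_nonneg (sigma_nonneg _) kappa_pos.le, (div_le_one kappa_pos).2 (sigma_le_kappa _)⟩

theorem frac_left (k : ℕ) : frac k ((k : ℝ) / 8) = 0 := by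
  unfold frac
  rw [sigma_of_le (by linarith), zero_div]

theorem frac_right (k : ℕ) : frac k (((k : ℝ) + 1) / 8) = 1 := by
  unfold frac
  rw [sigma_of_ge (by linarith), div_self kappa_pos.ne']

theorem hasDerivAt_frac (k : ℕ) (t : ℝ) :
    HasDerivAt (frac k) (16 / kappa * rho (16 * t - (2 * k + 1))) t := by
  have h1 : HasDerivAt (fun t : ℝ => 16 * t - (2 * (k : ℝ) + 1)) 16 t := by
    simpa using ((hasDerivAt_id t).const_mul (16 : ℝ)).sub_const (2 * (k : ℝ) + 1)
  have h2 := ((hasDerivAt_sigma (16 * t - (2 * k + 1))).comp t h1).div_const kappa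
  have h3 : rho (16 * t - (2 * k + 1)) * 16 / kappa = 16 / kappa * rho (16 * t - (2 * k + 1)) := by
    ring
  rw [h3] at h2
  exact h2

theorem proj_add_single (x : R3) (i : Fin 3) (s : ℝ) :
    proj (x + Pi.single i s) = line (proj x) i s := by
  funext j
  by_cases h : j = i
  · subst h
    simp [proj, line]
  · simp [proj, line, Pi.single_eq_of_ne h]

/-- A function with zero derivative on a closed interval is constant there. -/
theorem const_of_deriv_zero {f : ℝ → ℝ} {a b : ℝ}
    (h : ∀ t ∈ Icc a b, HasDerivWithinAt f 0 (Icc a b) t) : ∀ t ∈ Icc a b, f t = f a := by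
  have hc : ContinuousOn f (Icc a b) := fun t ht => (h t ht).continuousWithinAt
  refine constant_of_has_deriv_right_zero hc ?_
  intro t ht
  exact (h t (Ico_subset_Icc_self ht)).mono_of_mem_nhdsWithin (Icc_mem_nhdsGE_of_mem ht)

end Traj

open Traj

theorem slot_trajectory (u : Fin 3 → ℝ → T3 → ℝ) (a : R3) (dir : ℕ → Fin 3) (H : ℕ → T3 → ℝ)
    (hH : ∀ k x s, H k (line x (dir k) s) = H k x)
    (hu : ∀ (k : ℕ), ∀ t ∈ Icc ((k : ℝ) / 8) (((k : ℝ) + 1) / 8), ∀ i x,
      u i t x = if i = dir k then 16 / kappa * rho (16 * t - (2 * k + 1)) * H k x else 0)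
    (P : ℕ → R3) (hP0 : P 0 = a)
    (hP : ∀ k, P (k + 1) = P k + Pi.single (dir k) (H k (proj (P k)))) :
    (∃ X, IsTrajectory u a X) ∧ ∀ X, IsTrajectory u a X → ∀ k : ℕ,
      X ((k : ℝ) / 8) = P k ∧ ∀ t ∈ Icc ((k : ℝ) / 8) (((k : ℝ) + 1) / 8),
        ∃ θ ∈ Icc (0 : ℝ) 1, X t = P k + θ • (P (k + 1) - P k) := by
  -- the explicit motion in slot `k`
  let Y : ℕ → ℝ → R3 := fun k t => P k + Pi.single (dir k) (frac k t * H k (proj (P k)))
  have hYl : ∀ k : ℕ, Y k ((k : ℝ) / 8) = P k := by
    intro k
    simp [Y, frac_left]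
  have hYr : ∀ k : ℕ, Y k (((k : ℝ) + 1) / 8) = P (k + 1) := by
    intro k
    simp only [Y, frac_right, one_mul, hP k]
  have hYθ : ∀ (k : ℕ) (t : ℝ), Y k t = P k + frac k t • (P (k + 1) - P k) := by
    intro k t
    rw [hP k, add_sub_cancel_left, ← Pi.single_smul', smul_eq_mul]
  have hYd : ∀ k : ℕ, ∀ t ∈ Icc ((k : ℝ) / 8) (((k : ℝ) + 1) / 8),
      HasDerivAt (Y k) (fun i => u i t (proj (Y k t))) t := by
    intro k t ht
    rw [hasDerivAt_pi]
    intro i
    rw [hu k t ht]
    by_cases h : i = dir k
    · rw [if_pos h]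
      have h1 : H k (proj (Y k t)) = H k (proj (P k)) := by
        simp only [Y]
        rw [proj_add_single, hH]
      rw [h1]
      subst h
      simp only [Y, Pi.add_apply, Pi.single_eq_same]
      exact ((hasDerivAt_frac k t).mul_const _).const_add _
    · rw [if_neg h]
      simp only [Y, Pi.add_apply, Pi.single_eq_of_ne h]
      exact hasDerivAt_const _ _
  constructor
  · -- existence
    let X : ℝ → R3 := fun t => Y ⌊8 * t⌋₊ t
    have hX : ∀ k : ℕ, ∀ t ∈ Icc ((k : ℝ) / 8) (((k : ℝ) + 1) / 8), X t = Y k t := by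
      intro k t ht
      have hk : (0 : ℝ) ≤ k := Nat.cast_nonneg k
      rcases eq_or_lt_of_le ht.2 with h | h
      · have h1 : ⌊8 * t⌋₊ = k + 1 := by
          rw [h]
          have : (8 : ℝ) * (((k : ℝ) + 1) / 8) = ((k + 1 : ℕ) : ℝ) := by push_cast; ring
          rw [this, Nat.floor_natCast]
        simp only [X, h1]
        rw [h, hYr]
        have := hYl (k + 1)
        push_cast at this
        exact this
      · have h1 : ⌊8 * t⌋₊ = k := by
          rw [Nat.floor_eq_iff (by linarith [ht.1])]
          constructor <;> linarith [ht.1]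
        simp only [X, h1]
    have hXd : ∀ k : ℕ, ∀ t ∈ Icc ((k : ℝ) / 8) (((k : ℝ) + 1) / 8),
        HasDerivWithinAt X (fun i => u i t (proj (X t)))
          (Icc ((k : ℝ) / 8) (((k : ℝ) + 1) / 8)) t := by
      intro k t ht
      rw [hX k t ht]
      exact (hYd k t ht).hasDerivWithinAt.congr (fun s hs => hX k s hs) (hX k t ht)
    refine ⟨X, ?_, ?_⟩
    · have := hX 0 0 (by constructor <;> norm_num)
      rw [this, ← hP0]
      simpa using hYl 0
    · intro t ht
      have h8 : 0 ≤ 8 * t := by linarith
      have hl : ((⌊8 * t⌋₊ : ℕ) : ℝ) ≤ 8 * t := Nat.floor_le h8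
      have hr : 8 * t < ((⌊8 * t⌋₊ : ℕ) : ℝ) + 1 := Nat.lt_floor_add_one _
      generalize ⌊8 * t⌋₊ = k at hl hr
      have hmem : t ∈ Icc ((k : ℝ) / 8) (((k : ℝ) + 1) / 8) := by
        constructor <;> linarith
      rcases eq_or_lt_of_le hl with h | h
      · rcases k with _ | j
        · have ht0 : t = 0 := by
            simp only [Nat.cast_zero] at h
            linarith
          refine (hXd 0 t hmem).mono_of_mem_nhdsWithin ?_
          rw [ht0]
          simp only [Nat.cast_zero, zero_div]
          exact Icc_mem_nhdsGE (by norm_num)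
        · have hmem' : t ∈ Icc ((j : ℝ) / 8) (((j : ℝ) + 1) / 8) := by
            push_cast at h
            constructor <;> linarith
          have h2 := (hXd j t hmem').union (hXd (j + 1) t hmem)
          refine (h2.hasDerivAt ?_).hasDerivWithinAt
          push_cast at h ⊢
          rw [Icc_union_Icc_eq_Icc (by linarith) (by linarith)]
          exact Icc_mem_nhds (by linarith) (by linarith)
      · exact ((hXd k t hmem).hasDerivAt (Icc_mem_nhds (by linarith) (by linarith))).hasDerivWithinAt
  · -- uniqueness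
    intro X hX
    have key : ∀ k : ℕ, X ((k : ℝ) / 8) = P k →
        ∀ t ∈ Icc ((k : ℝ) / 8) (((k : ℝ) + 1) / 8), X t = Y k t := by
      intro k hk
      have hk0 : (0 : ℝ) ≤ (k : ℝ) / 8 := by positivity
      have hd : ∀ t ∈ Icc ((k : ℝ) / 8) (((k : ℝ) + 1) / 8), ∀ i,
          HasDerivWithinAt (fun s => X s i) (u i t (proj (X t)))
            (Icc ((k : ℝ) / 8) (((k : ℝ) + 1) / 8)) t := by
        intro t ht i
        have h1 := (hX.2 t (hk0.trans ht.1)).mono
          (show Icc ((k : ℝ) / 8) (((k : ℝ) + 1) / 8) ⊆ Ici 0 from fun s hs => hk0.trans hs.1)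
        exact hasDerivWithinAt_pi.1 h1 i
      have hother : ∀ i, i ≠ dir k → ∀ t ∈ Icc ((k : ℝ) / 8) (((k : ℝ) + 1) / 8),
          X t i = P k i := by
        intro i hi t ht
        rw [← hk]
        refine const_of_deriv_zero (f := fun s => X s i) ?_ t ht
        intro s hs
        have := hd s hs i
        rwa [hu k s hs, if_neg hi] at this
      have hline : ∀ t ∈ Icc ((k : ℝ) / 8) (((k : ℝ) + 1) / 8),
          H k (proj (X t)) = H k (proj (P k)) := by
        intro t ht
        have h1 : X t = P k + Pi.single (dir k) (X t (dir k) - P k (dir k)) := by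
          funext i
          by_cases h : i = dir k
          · subst h
            simp
          · simp [Pi.single_eq_of_ne h, hother i h t ht]
        rw [h1, proj_add_single, hH]
      intro t ht
      funext i
      by_cases h : i = dir k
      · subst h
        have h1 := const_of_deriv_zero
          (f := fun s => X s (dir k) - frac k s * H k (proj (P k))) ?_ t ht
        · simp only [frac_left, zero_mul, sub_zero, hk] at h1
          simp only [Y, Pi.add_apply, Pi.single_eq_same]
          linarith
        · intro s hs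
          have h2 := hd s hs (dir k)
          rw [hu k s hs, if_pos rfl, hline s hs] at h2
          have h3 := h2.sub ((hasDerivAt_frac k s).mul_const (H k (proj (P k)))).hasDerivWithinAt
          rwa [sub_self] at h3
      · simp [Y, Pi.single_eq_of_ne h, hother i h t ht]
    have hstart : ∀ k : ℕ, X ((k : ℝ) / 8) = P k := by
      intro k
      induction k with
      | zero => simpa [hP0] using hX.1
      | succ j ih =>
        have h1 := key j ih (((j : ℝ) + 1) / 8) (by constructor <;> linarith)
        rw [hYr] at h1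
        push_cast
        exact h1
    intro k
    refine ⟨hstart k, fun t ht => ⟨frac k t, frac_mem k t, ?_⟩⟩
    rw [key k (hstart k) t ht, hYθ]

end Vale.Agent.N113
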