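import Vale.Agent.N113.Box
import Vale.Agent.N113.Traj

/-!
# P113: the velocity field of a rule system, slot by slot
-/

namespace Vale.Agent.N113

open Set

/-! ## Time factors -/

theorem slot_eval (j : ℕ) (t : ℝ) : Bump.eval (slot j) t = rho (16 * t - (2 * j + 1)) := by
  simp only [slot, Bump.eval, pow_zero, one_mul, iteratedDeriv_zero]
  push_cast
  rfl

theorem rho_slot (j k : ℕ) {t : ℝ} (ht : t ∈ Icc ((k : ℝ) / 8) (((k : ℝ) + 1) / 8)) :
    rho (16 * t - (2 * j + 1)) = if k = j then rho (16 * t - (2 * k + 1)) else 0 := by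
  split_ifs with h
  · rw [h]
  · apply rho_eq_zero
    rcases lt_or_gt_of_ne h with h | h
    · have : (k : ℝ) + 1 ≤ j := by exact_mod_cast h
      rw [le_abs]
      right
      linarith [ht.2]
    · have : (j : ℝ) + 1 ≤ k := by exact_mod_cast h
      rw [le_abs]
      left
      linarith [ht.1]

theorem per_slot {j : ℕ} (hj : j < 8) (k : ℕ) {t : ℝ}
    (ht : t ∈ Icc ((k : ℝ) / 8) (((k : ℝ) + 1) / 8)) :
    per (Bump.eval (slot j)) t = if k % 8 = j then rho (16 * t - (2 * k + 1)) else 0 := by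
  have hk : (k : ℝ) = 8 * ((k / 8 : ℕ) : ℝ) + ((k % 8 : ℕ) : ℝ) := by
    exact_mod_cast (Nat.div_add_mod k 8).symm
  have h8 : ((k % 8 : ℕ) : ℝ) + 1 ≤ 8 := by exact_mod_cast Nat.mod_lt k (by norm_num)
  have h0 : (0 : ℝ) ≤ ((k % 8 : ℕ) : ℝ) := Nat.cast_nonneg _
  have hj' : (j : ℝ) + 1 ≤ 8 := by exact_mod_cast hj
  have hj0 : (0 : ℝ) ≤ j := Nat.cast_nonneg _
  set m : ℕ := k / 8
  have ht' : t - m ∈ Icc (((k % 8 : ℕ) : ℝ) / 8) ((((k % 8 : ℕ) : ℝ) + 1) / 8) :=
    ⟨by linarith [ht.1], by linarith [ht.2]⟩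
  have e : t = (t - m) + ((m : ℤ) : ℝ) := by push_cast; ring
  rw [e, per_add_int, per_eq_self, slot_eval, rho_slot j (k % 8) ht']
  · split_ifs
    · congr 1
      push_cast
      linarith
    · rfl
  · intro m' hm'
    rw [slot_eval]
    apply rho_eq_zero
    rw [le_abs]
    rcases lt_or_gt_of_ne hm' with h | h
    · right
      have : (m' : ℝ) ≤ -1 := by exact_mod_cast Int.le_sub_one_of_lt h
      linarith [ht'.2]
    · left
      have : (1 : ℝ) ≤ m' := by exact_mod_cast h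
      linarith [ht'.1]

theorem exists_slot {t : ℝ} (ht : 0 ≤ t) : ∃ k : ℕ, t ∈ Icc ((k : ℝ) / 8) (((k : ℝ) + 1) / 8) := by
  refine ⟨⌊8 * t⌋₊, ?_, ?_⟩
  · have := Nat.floor_le (show 0 ≤ 8 * t by linarith)
    linarith
  · have := Nat.lt_floor_add_one (8 * t)
    linarith

/-- All terms of `L` are periodic terms of slot `j`, well formed, independent of `x_i`. -/
def InSlot (j : ℕ) (i : Fin 3) (L : List Term) : Prop :=
  ∀ τ ∈ L, τ.2.1 = ([], [slot j]) ∧ τ.2.2 i = [] ∧ Term.WF τ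

theorem InSlot.append {j : ℕ} {i : Fin 3} {L L' : List Term} (h : InSlot j i L)
    (h' : InSlot j i L') : InSlot j i (L ++ L') := fun τ hτ =>
  (List.mem_append.1 hτ).elim (h τ) (h' τ)

theorem InSlot.flatMap {α : Type*} {j : ℕ} {i : Fin 3} {F : α → List Term} {R : List α}
    (h : ∀ r ∈ R, InSlot j i (F r)) : InSlot j i (R.flatMap F) := fun τ hτ => by
  obtain ⟨r, hr, hτ⟩ := List.mem_flatMap.1 hτ
  exact h r hr τ hτ

theorem eval_eq_space (ν : ℝ) (τ : Term) (t : ℝ) (x : T3) :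
    τ.eval ν t x = 16 / kappa * τ.time t * τ.space ν x := by
  have := kappa_pos.ne'
  unfold Term.eval Term.space
  field_simp

theorem time_of_slot {τ : Term} {j : ℕ} (h : τ.2.1 = ([], [slot j])) (t : ℝ) :
    τ.time t = per (Bump.eval (slot j)) t := by
  simp [Term.time, h]

theorem sumTerms_append (ν : ℝ) (L L' : List Term) (t : ℝ) (x : T3) :
    sumTerms ν (L ++ L') t x = sumTerms ν L t x + sumTerms ν L' t x := by
  simp [sumTerms]

theorem InSlot.sumTerms_eq {j : ℕ} {i : Fin 3} {L : List Term} (h : InSlot j i L) (ν t : ℝ)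
    (x : T3) :
    sumTerms ν L t x = 16 / kappa * per (Bump.eval (slot j)) t * spaceSum ν L x := by
  induction L with
  | nil => simp [sumTerms, spaceSum]
  | cons τ L ih =>
    have ih' := ih fun σ hσ => h σ (List.mem_cons_of_mem _ hσ)
    have e : sumTerms ν (τ :: L) t x = τ.eval ν t x + sumTerms ν L t x := by simp [sumTerms]
    rw [e, ih', spaceSum_cons, eval_eq_space, time_of_slot (h τ List.mem_cons_self).1]
    ring

theorem space_line (ν : ℝ) {τ : Term} {i : Fin 3} (h : τ.2.2 i = []) (x : T3) (s : ℝ) :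
    τ.space ν (line x i s) = τ.space ν x := by
  unfold Term.space
  congr 1
  refine Finset.prod_congr rfl fun j _ => ?_
  by_cases hj : j = i
  · subst hj
    simp [h]
  · simp [line, Pi.single_eq_of_ne hj]

theorem InSlot.spaceSum_line {j : ℕ} {i : Fin 3} {L : List Term} (h : InSlot j i L) (ν : ℝ)
    (x : T3) (s : ℝ) : spaceSum ν L (line x i s) = spaceSum ν L x := by
  unfold spaceSum
  congr 1
  exact List.map_congr_left fun τ hτ => space_line ν (h τ hτ).2.1 x s

theorem slot_wf (j : ℕ) : Bump.WF (slot j) := by simp [slot, Bump.WF]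

theorem chi_wf {N : ℕ} (hN : 0 < N) (k : ℕ) (u : List ℕ) : Bump.WF (chi N k u) := by
  have := (scQ_pos hN u).ne'
  simp [chi, Bump.WF, this]

theorem psi_wf {A : ℕ} (hA : 0 < A) (k i : ℕ) : Bump.WF (psi A k i) := by
  simp [psi, Bump.WF, hA.ne']

theorem pTerm_wf (j : ℕ) (q : ℚ) (m : ℕ) {hx hy hz : List Bump} (h1 : ∀ g ∈ hx, Bump.WF g)
    (h2 : ∀ g ∈ hy, Bump.WF g) (h3 : ∀ g ∈ hz, Bump.WF g) : Term.WF (pTerm j q m hx hy hz) := by
  refine ⟨by simp [pTerm], by simp [pTerm], by simp [pTerm, slot_wf], fun i => ?_⟩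
  fin_cases i
  · exact h1
  · exact h2
  · exact h3

theorem iTerm_wf (j : ℕ) (q : ℚ) : Term.WF (iTerm j q) := by
  refine ⟨by simp [iTerm], by simp [iTerm, slot_wf], by simp [iTerm], fun i => ?_⟩
  fin_cases i <;> simp [iTerm]

section Lists
variable {N A : ℕ} (hN : 0 < N) (hA : 0 < A) (R : List Rule) (Hs : List ℕ)

/-- The terms of slot 2. -/
def L2 (N A : ℕ) (R : List Rule) (Hs : List ℕ) : List Term :=
  R.flatMap (lift1 N A) ++ Hs.map (liftH N)

include hN in
theorem inSlot2 : InSlot 2 2 (L2 N A R Hs) := by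
  refine InSlot.append (InSlot.flatMap fun r _ τ hτ => ?_) fun τ hτ => ?_
  · simp only [lift1, List.mem_cons, List.not_mem_nil, or_false] at hτ
    rcases hτ with rfl | rfl <;>
      exact ⟨rfl, rfl, pTerm_wf _ _ _ (by simp [chi_wf hN]) (by simp [chi_wf hN]) (by simp)⟩
  · obtain ⟨s, -, rfl⟩ := List.mem_map.1 hτ
    exact ⟨rfl, rfl, pTerm_wf _ _ _ (by simp [chi_wf hN]) (by simp) (by simp)⟩

include hA in
theorem inSlot3 : InSlot 3 0 (R.flatMap (move2 N A)) := by
  refine InSlot.flatMap fun r _ τ hτ => ?_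
  simp only [move2, List.mem_cons, List.not_mem_nil, or_false] at hτ
  rcases hτ with rfl | rfl <;>
    exact ⟨rfl, rfl, pTerm_wf _ _ _ (by simp) (by simp) (by simp [psi_wf hA])⟩

include hN in
theorem inSlot4 : InSlot 4 2 (swap3 N A) := by
  intro τ hτ
  simp only [swap3, List.mem_cons, List.not_mem_nil, or_false] at hτ
  rcases hτ with rfl | rfl <;>
    exact ⟨rfl, rfl, pTerm_wf _ _ _ (by simp [chi_wf hN]) (by simp [chi_wf hN]) (by simp)⟩

include hA in
theorem inSlot5 : InSlot 5 1 (R.flatMap (move4 N A)) := by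
  refine InSlot.flatMap fun r _ τ hτ => ?_
  simp only [move4, List.mem_cons, List.not_mem_nil, or_false] at hτ
  rcases hτ with rfl | rfl <;>
    exact ⟨rfl, rfl, pTerm_wf _ _ _ (by simp) (by simp) (by simp [psi_wf hA])⟩

include hN in
theorem inSlot6 : InSlot 6 2 (R.flatMap (drop5 N A)) := by
  refine InSlot.flatMap fun r _ τ hτ => ?_
  simp only [drop5, List.mem_cons, List.not_mem_nil, or_false] at hτ
  rcases hτ with rfl | rfl <;>
    exact ⟨rfl, rfl, pTerm_wf _ _ _ (by simp [chi_wf hN]) (by simp [chi_wf hN]) (by simp)⟩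

end Lists

/-! ## The velocity, the directions and the displacements -/

/-- The velocity terms of a rule system with a starting point. -/
def velG (N A : ℕ) (R : List Rule) (Hs : List ℕ) (x₀ y₀ : ℚ) (i : Fin 3) : List Term :=
  velI x₀ y₀ i ++ velP N A R Hs i

/-- The direction of the motion in slot `k`. -/
def dirK (k : ℕ) : Fin 3 :=
  if k = 0 then 0 else if k = 1 then 1 else if k % 8 = 3 then 0 else if k % 8 = 5 then 1 else 2

/-- The displacement in slot `k`. -/
noncomputable def dispK (ν : ℝ) (N A : ℕ) (R : List Rule) (Hs : List ℕ) (x₀ y₀ : ℚ) (k : ℕ)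
    (x : T3) : ℝ :=
  if k = 0 then x₀ else if k = 1 then y₀
  else if k % 8 = 3 then spaceSum ν (R.flatMap (move2 N A)) x
  else if k % 8 = 5 then spaceSum ν (R.flatMap (move4 N A)) x
  else if k % 8 = 2 then spaceSum ν (L2 N A R Hs) x
  else if k % 8 = 4 then spaceSum ν (swap3 N A) x
  else if k % 8 = 6 then spaceSum ν (R.flatMap (drop5 N A)) x else 0

theorem time_iTerm (j : ℕ) (q : ℚ) (t : ℝ) : (iTerm j q).time t = rho (16 * t - (2 * j + 1)) := by
  simp [Term.time, iTerm, slot_eval]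

theorem sumTerms_iTerm (ν : ℝ) (j : ℕ) (q : ℚ) (t : ℝ) (x : T3) :
    sumTerms ν [iTerm j q] t x = 16 / kappa * rho (16 * t - (2 * j + 1)) * q := by
  have := kappa_pos.ne'
  simp only [sumTerms, List.map_cons, List.map_nil, List.sum_cons, List.sum_nil, add_zero,
    Term.eval, time_iTerm]
  simp only [Term.coeff, iTerm, Fin.prod_univ_three, Matrix.cons_val_zero, Matrix.cons_val_one,
    Matrix.cons_val_two, Matrix.head_cons, Matrix.tail_cons, List.map_nil, List.prod_nil,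
    pow_zero, mul_one, zpow_neg, zpow_one]
  push_cast
  field_simp

theorem velG_zero (N A : ℕ) (R : List Rule) (Hs : List ℕ) (x₀ y₀ : ℚ) :
    velG N A R Hs x₀ y₀ 0 = [iTerm 0 x₀] ++ R.flatMap (move2 N A) := rfl

theorem velG_one (N A : ℕ) (R : List Rule) (Hs : List ℕ) (x₀ y₀ : ℚ) :
    velG N A R Hs x₀ y₀ 1 = [iTerm 1 y₀] ++ R.flatMap (move4 N A) := rfl

theorem velG_two (N A : ℕ) (R : List Rule) (Hs : List ℕ) (x₀ y₀ : ℚ) :
    velG N A R Hs x₀ y₀ 2 = L2 N A R Hs ++ swap3 N A ++ R.flatMap (drop5 N A) := rfl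

section Field
variable {N A : ℕ} (hN : 0 < N) (hA : 0 < A) (R : List Rule) (Hs : List ℕ) (x₀ y₀ : ℚ)
include hN hA

theorem dispK_line (ν : ℝ) (k : ℕ) (x : T3) (s : ℝ) :
    dispK ν N A R Hs x₀ y₀ k (line x (dirK k) s) = dispK ν N A R Hs x₀ y₀ k x := by
  unfold dispK dirK
  split_ifs
  · rfl
  · rfl
  · exact (inSlot3 hA R).spaceSum_line ν x s
  · exact (inSlot5 hA R).spaceSum_line ν x s
  · exact (inSlot2 hN R Hs).spaceSum_line ν x s
  · exact (inSlot4 hN).spaceSum_line ν x s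
  · exact (inSlot6 hN R).spaceSum_line ν x s
  · rfl

theorem velG_slot (ν : ℝ) (k : ℕ) (t : ℝ) (ht : t ∈ Icc ((k : ℝ) / 8) (((k : ℝ) + 1) / 8))
    (i : Fin 3) (x : T3) :
    sumTerms ν (velG N A R Hs x₀ y₀ i) t x = if i = dirK k then
      16 / kappa * rho (16 * t - (2 * k + 1)) * dispK ν N A R Hs x₀ y₀ k x else 0 := by
  have h8 : k % 8 < 8 := Nat.mod_lt k (by norm_num)
  fin_cases i
  · change sumTerms ν (velG N A R Hs x₀ y₀ 0) t x = if (0 : Fin 3) = dirK k then _ else _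
    rw [velG_zero, sumTerms_append, sumTerms_iTerm, (inSlot3 hA R).sumTerms_eq,
      per_slot (by norm_num) k ht, rho_slot 0 k ht]
    unfold dispK dirK
    split_ifs <;> first | omega | simp_all
  · change sumTerms ν (velG N A R Hs x₀ y₀ 1) t x = if (1 : Fin 3) = dirK k then _ else _
    rw [velG_one, sumTerms_append, sumTerms_iTerm, (inSlot5 hA R).sumTerms_eq,
      per_slot (by norm_num) k ht, rho_slot 1 k ht]
    unfold dispK dirK
    split_ifs <;> first | omega | simp_all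
  · change sumTerms ν (velG N A R Hs x₀ y₀ 2) t x = if (2 : Fin 3) = dirK k then _ else _
    rw [velG_two, sumTerms_append, sumTerms_append, (inSlot2 hN R Hs).sumTerms_eq,
      (inSlot4 hN).sumTerms_eq, (inSlot6 hN R).sumTerms_eq,
      per_slot (by norm_num) k ht, per_slot (by norm_num) k ht, per_slot (by norm_num) k ht]
    unfold dispK dirK
    split_ifs <;> first | omega | simp_all

theorem velG_term (i : Fin 3) : ∀ τ ∈ velG N A R Hs x₀ y₀ i, Term.WF τ ∧ τ.2.2 i = [] ∧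
    ∀ (k : ℕ), ∀ t ∈ Icc ((k : ℝ) / 8) (((k : ℝ) + 1) / 8),
      τ.time t = 0 ∨ (i = dirK k ∧ τ.time t = rho (16 * t - (2 * k + 1))) := by
  have key : ∀ (j : ℕ) (i : Fin 3) (L : List Term), InSlot j i L → j < 8 →
      (∀ k, k % 8 = j → i = dirK k) → ∀ τ ∈ L, Term.WF τ ∧ τ.2.2 i = [] ∧
      ∀ (k : ℕ), ∀ t ∈ Icc ((k : ℝ) / 8) (((k : ℝ) + 1) / 8),
        τ.time t = 0 ∨ (i = dirK k ∧ τ.time t = rho (16 * t - (2 * k + 1))) := by
    intro j i L hL hj hd τ hτ
    refine ⟨(hL τ hτ).2.2, (hL τ hτ).2.1, fun k t ht => ?_⟩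
    rw [time_of_slot (hL τ hτ).1, per_slot hj k ht]
    split_ifs with h
    · exact Or.inr ⟨hd k h, rfl⟩
    · exact Or.inl rfl
  have keyI : ∀ (j : ℕ) (q : ℚ) (i : Fin 3), i = dirK j → Term.WF (iTerm j q) ∧
      (iTerm j q).2.2 i = [] ∧ ∀ (k : ℕ), ∀ t ∈ Icc ((k : ℝ) / 8) (((k : ℝ) + 1) / 8),
        (iTerm j q).time t = 0 ∨
          (i = dirK k ∧ (iTerm j q).time t = rho (16 * t - (2 * k + 1))) := by
    intro j q i hi
    refine ⟨iTerm_wf j q, by fin_cases i <;> rfl, fun k t ht => ?_⟩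
    rw [time_iTerm, rho_slot j k ht]
    split_ifs with h
    · exact Or.inr ⟨h ▸ hi, rfl⟩
    · exact Or.inl rfl
  intro τ hτ
  fin_cases i
  · change τ ∈ velG N A R Hs x₀ y₀ 0 at hτ
    rw [velG_zero] at hτ
    rcases List.mem_append.1 hτ with h | h
    · obtain rfl := List.mem_singleton.1 h
      exact keyI 0 x₀ 0 rfl
    · refine key 3 0 _ (inSlot3 hA R) (by norm_num) (fun k hk => ?_) τ h
      unfold dirK
      split_ifs <;> first | rfl | omega
  · change τ ∈ velG N A R Hs x₀ y₀ 1 at hτ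
    rw [velG_one] at hτ
    rcases List.mem_append.1 hτ with h | h
    · obtain rfl := List.mem_singleton.1 h
      exact keyI 1 y₀ 1 rfl
    · refine key 5 1 _ (inSlot5 hA R) (by norm_num) (fun k hk => ?_) τ h
      unfold dirK
      split_ifs <;> first | rfl | omega
  · change τ ∈ velG N A R Hs x₀ y₀ 2 at hτ
    rw [velG_two] at hτ
    rcases List.mem_append.1 hτ with h | h
    · rcases List.mem_append.1 h with h | h
      · refine key 2 2 _ (inSlot2 hN R Hs) (by norm_num) (fun k hk => ?_) τ h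
        unfold dirK
        split_ifs <;> first | rfl | omega
      · refine key 4 2 _ (inSlot4 hN) (by norm_num) (fun k hk => ?_) τ h
        unfold dirK
        split_ifs <;> first | rfl | omega
    · refine key 6 2 _ (inSlot6 hN R) (by norm_num) (fun k hk => ?_) τ h
      unfold dirK
      split_ifs <;> first | rfl | omega

theorem velG_disj (i j : Fin 3) (hij : i ≠ j) : ∀ τ ∈ velG N A R Hs x₀ y₀ i,
    ∀ τ' ∈ velG N A R Hs x₀ y₀ j, ∀ t, 0 ≤ t → τ.time t = 0 ∨ τ'.time t = 0 := by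
  intro τ hτ τ' hτ' t ht
  obtain ⟨k, hk⟩ := exists_slot ht
  rcases (velG_term hN hA R Hs x₀ y₀ i τ hτ).2.2 k t hk with h | h
  · exact Or.inl h
  · rcases (velG_term hN hA R Hs x₀ y₀ j τ' hτ').2.2 k t hk with h' | h'
    · exact Or.inr h'
    · exact absurd (h.1.trans h'.1.symm) hij

theorem velG_time_zero (i : Fin 3) : ∀ τ ∈ velG N A R Hs x₀ y₀ i, τ.time 0 = 0 := by
  intro τ hτ
  rcases (velG_term hN hA R Hs x₀ y₀ i τ hτ).2.2 0 0 (by constructor <;> norm_num) with h | h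
  · exact h
  · rw [h.2]
    apply rho_eq_zero
    norm_num

end Field

end Vale.Agent.N113
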