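import Vale.Agent.N113.Build

/-!
# P113: interface definitions shared by the proof files
-/

namespace Vale.Agent.N113

open Set

noncomputable section

/-- Two words differ at a common position. -/
def Incomp : List ℕ → List ℕ → Prop
  | a :: u, b :: v => a ≠ b ∨ Incomp u v
  | _, _ => False

/-- Well-formed rule systems. -/
structure GoodSys (n N A : ℕ) (R : List Rule) (Hs : List ℕ) : Prop where
  n_pos : 0 < n
  base : N = 3 * n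
  A_ge : 8 ≤ A
  level : ∀ r ∈ R, 6 * r.1 + 8 ≤ A
  dig_u : ∀ r ∈ R, ∀ d ∈ r.2.1.1, d < n
  dig_v : ∀ r ∈ R, ∀ d ∈ r.2.1.2, d < n
  dig_u' : ∀ r ∈ R, ∀ d ∈ r.2.2.1, d < n
  dig_v' : ∀ r ∈ R, ∀ d ∈ r.2.2.2, d < n
  dig_H : ∀ s ∈ Hs, s < n
  nodup : R.Nodup
  nodup_H : Hs.Nodup
  lev_ne : ∀ r ∈ R, ∀ r' ∈ R, r ≠ r' → r.1 ≠ r'.1
  src_ne : ∀ r ∈ R, ∀ r' ∈ R, r ≠ r' → Incomp r.2.1.1 r'.2.1.1 ∨ Incomp r.2.1.2 r'.2.1.2
  tgt_ne : ∀ r ∈ R, ∀ r' ∈ R, r ≠ r' → Incomp r.2.2.1 r'.2.2.1 ∨ Incomp r.2.2.2 r'.2.2.2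
  src_H : ∀ r ∈ R, ∀ s ∈ Hs, Incomp r.2.1.1 [s] ∧ Incomp [s] r.2.1.1

/-- One application of a rule to a pair of stack codes. -/
def Step (N : ℕ) (R : List Rule) (z z' : ℚ × ℚ) : Prop :=
  ∃ r ∈ R, ∃ ξ η : ℚ, 0 ≤ ξ ∧ ξ ≤ 1 ∧ 0 ≤ η ∧ η ≤ 1 ∧
    z = (pushQ N r.2.1.1 ξ, pushQ N r.2.1.2 η) ∧ z' = (pushQ N r.2.2.1 ξ, pushQ N r.2.2.2 η)

/-- The pair of stack codes shows a halting state. -/
def Halt (N : ℕ) (Hs : List ℕ) (z : ℚ × ℚ) : Prop :=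
  ∃ s ∈ Hs, ∃ ξ : ℚ, 0 ≤ ξ ∧ ξ ≤ 1 ∧ z.1 = pushQ N [s] ξ ∧ 0 ≤ z.2 ∧ z.2 ≤ 1

/-- The initial pair of stack codes. -/
def startPt (c : MachineCode) (w : List ℕ) : ℚ × ℚ :=
  (MachineCode.encS c [3 * c.2.2.1 + 2], MachineCode.encS c w)

/-- The spatial factor of a term, normalised so that `eval = 16 / κ * time * space`. -/
def Term.space (ν : ℝ) (τ : Term) (x : T3) : ℝ :=
  τ.coeff ν * kappa / 16 * ∏ i, ((τ.2.2 i).map fun g => per (Bump.eval g) (rep (x i))).prod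

/-- The displacement produced by a list of terms that all live in one time slot. -/
def spaceSum (ν : ℝ) (L : List Term) (x : T3) : ℝ := (L.map fun τ => τ.space ν x).sum

/-- A term with a time factor that vanishes for `t ≥ 1`. -/
def Term.Late (τ : Term) : Prop :=
  ∃ (k j : ℕ) (a b : ℚ), (Sum.inl (k, j, a, b) : Bump) ∈ τ.2.1.1 ∧ 0 < a ∧ b + 1 < a

end

end Vale.Agent.N113
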