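import Vale.Agent.N113.Iface

/-!
# P113: an injective two-stack machine that simulates a given Turing machine

A state of the two-stack machine is `(s, L, R)`: `s = 3 q + d` is the state digit (`d = 0`: the
scanned cell is the first real cell of `L`; `d = 1, 2`: it is the first real cell of `R`), and
`L`, `R` are lists of digits, followed by infinitely many implicit blanks.  Digits below `nG`
are tape symbols (real cells); the others are garbage cells that record the history and are
skipped when read.
-/

namespace Vale.Agent.N113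

namespace Sim

/-- The transition table entry of a machine code. -/
def tbl (c : MachineCode) (q a : ℕ) : ℕ × ℕ × ℕ := (c.2.2.2.2.2.getD q []).getD a (0, 0, 0)

/-- The number of state digits. -/
def nS (c : MachineCode) : ℕ := 3 * c.1

/-- The number of digits. -/
def nD (c : MachineCode) : ℕ := c.2.1 * (3 * c.1 + 1)

/-- The halting flag of the state digit `s`. -/
def haltS (c : MachineCode) (s : ℕ) : Bool := c.2.2.2.2.1.getD (s / 3) false

/-- The new state digit after reading `e` in state digit `s`. -/
def newS (c : MachineCode) (s e : ℕ) : ℕ :=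
  if e < c.2.1 then 3 * (tbl c (s / 3) e).1 + (tbl c (s / 3) e).2.2 else s

/-- The digits pushed after reading `e` in state digit `s`. -/
def payload (c : MachineCode) (s e : ℕ) : List ℕ :=
  if e < c.2.1 then [(tbl c (s / 3) e).2.1, c.2.1 + (s * c.2.1 + e)] else [e]

/-- The source prefixes of the rule `(s, e)`. -/
def src (s e : ℕ) : List ℕ × List ℕ := if s % 3 = 0 then ([s, e], []) else ([s], [e])

/-- The target prefixes of the rule `(s, e)`. -/
def tgt (c : MachineCode) (s e : ℕ) : List ℕ × List ℕ :=
  if newS c s e % 3 = 2 then (newS c s e :: payload c s e, []) else ([newS c s e], payload c s e)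

/-- States of the two-stack machine. -/
abbrev GState := ℕ × List ℕ × List ℕ

/-- The digit that is read. -/
def readG (c : MachineCode) (g : GState) : ℕ :=
  if g.1 % 3 = 0 then g.2.1.headD c.2.2.2.1 else g.2.2.headD c.2.2.2.1

/-- The left stack after reading. -/
def restL (g : GState) : List ℕ := if g.1 % 3 = 0 then g.2.1.tail else g.2.1

/-- The right stack after reading. -/
def restR (g : GState) : List ℕ := if g.1 % 3 = 0 then g.2.2 else g.2.2.tail

/-- One step of the two-stack machine. -/
def gstep (c : MachineCode) (g : GState) : GState :=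
  if newS c g.1 (readG c g) % 3 = 2 then
    (newS c g.1 (readG c g), payload c g.1 (readG c g) ++ restL g, restR g)
  else (newS c g.1 (readG c g), restL g, payload c g.1 (readG c g) ++ restR g)

/-- The initial state on the input `w`. -/
def ginit (c : MachineCode) (w : List ℕ) : GState := (3 * c.2.2.1 + 2, [], w)

/-- Two words are compatible if one is an initial segment of the other. -/
def Compat (v v' : List ℕ) : Prop := v <+: v' ∨ v' <+: v

/-- All digits of the state are in range. -/
def Bnd (c : MachineCode) (g : GState) : Prop :=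
  g.1 < nS c ∧ (∀ d ∈ g.2.1, d < nD c) ∧ ∀ d ∈ g.2.2, d < nD c

/-! ### The rules are applied correctly -/

lemma gstep_fst (c : MachineCode) (g : GState) :
    (gstep c g).1 :: (gstep c g).2.1 = (tgt c g.1 (readG c g)).1 ++ restL g := by
  unfold gstep tgt
  split_ifs <;> simp

lemma gstep_snd (c : MachineCode) (g : GState) :
    (gstep c g).2.2 = (tgt c g.1 (readG c g)).2 ++ restR g := by
  unfold gstep tgt
  split_ifs <;> simp

/-- For every fold whose base point is fixed by the blank digit, the left stack (with the state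
digit on top) is the source prefix on top of the rest. -/
lemma foldr_src_fst {α : Type*} (c : MachineCode) (g : GState) (φ : ℕ → α → α) (r : α)
    (hr : φ c.2.2.2.1 r = r) :
    (g.1 :: g.2.1).foldr φ r = (src g.1 (readG c g)).1.foldr φ ((restL g).foldr φ r) := by
  obtain ⟨s, L, R⟩ := g
  unfold src readG restL
  by_cases h : s % 3 = 0
  · cases L <;> simp [h, hr]
  · simp [h]

lemma foldr_src_snd {α : Type*} (c : MachineCode) (g : GState) (φ : ℕ → α → α) (r : α)
    (hr : φ c.2.2.2.1 r = r) :
    g.2.2.foldr φ r = (src g.1 (readG c g)).2.foldr φ ((restR g).foldr φ r) := by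
  obtain ⟨s, L, R⟩ := g
  unfold src readG restR
  by_cases h : s % 3 = 0
  · simp [h]
  · cases R <;> simp [h, hr]

lemma foldr_tgt_fst {α : Type*} (c : MachineCode) (g : GState) (φ : ℕ → α → α) (r : α) :
    ((gstep c g).1 :: (gstep c g).2.1).foldr φ r
      = (tgt c g.1 (readG c g)).1.foldr φ ((restL g).foldr φ r) := by
  rw [gstep_fst, List.foldr_append]

lemma foldr_tgt_snd {α : Type*} (c : MachineCode) (g : GState) (φ : ℕ → α → α) (r : α) :
    (gstep c g).2.2.foldr φ r = (tgt c g.1 (readG c g)).2.foldr φ ((restR g).foldr φ r) := by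
  rw [gstep_snd, List.foldr_append]

/-! ### Sources and targets are pairwise incompatible -/

lemma Compat.symm {v v' : List ℕ} (h : Compat v v') : Compat v' v := Or.symm h

lemma compat_cons {a b : ℕ} {v v' : List ℕ} : Compat (a :: v) (b :: v') ↔ a = b ∧ Compat v v' := by
  unfold Compat
  simp only [List.cons_prefix_cons]
  constructor
  · rintro (⟨h1, h2⟩ | ⟨h1, h2⟩)
    · exact ⟨h1, Or.inl h2⟩
    · exact ⟨h1.symm, Or.inr h2⟩
  · rintro ⟨h1, h2 | h2⟩
    · exact Or.inl ⟨h1, h2⟩
    · exact Or.inr ⟨h1.symm, h2⟩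

lemma src_inj {s e s' e' : ℕ} (h1 : Compat (src s e).1 (src s' e').1)
    (h2 : Compat (src s e).2 (src s' e').2) : s = s' ∧ e = e' := by
  have hs : s = s' := by
    unfold src at h1
    split_ifs at h1 <;> exact (compat_cons.1 h1).1
  subst hs
  unfold src at h1 h2
  split_ifs at h1 h2
  · exact ⟨rfl, (compat_cons.1 (compat_cons.1 h1).2).1⟩
  · exact ⟨rfl, (compat_cons.1 h2).1⟩

lemma tbl_code (M : Machine) (q : Fin M.nQ) (a : Fin M.nG) :
    tbl M.code q a = (((M.step q a).1 : ℕ), ((M.step q a).2.1 : ℕ), ((M.step q a).2.2 : ℕ)) := by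
  simp [tbl, Machine.code, List.getD_eq_getElem?_getD]

lemma haltS_code (M : Machine) (q : Fin M.nQ) {s : ℕ} (hs : s / 3 = q) :
    haltS M.code s = M.halting q := by
  simp [haltS, Machine.code, List.getD_eq_getElem?_getD, hs]

lemma tbl_lt (M : Machine) {s e : ℕ} (hs : s < nS M.code) (he : e < M.nG) :
    (tbl M.code (s / 3) e).1 < M.nQ ∧ (tbl M.code (s / 3) e).2.1 < M.nG ∧
      (tbl M.code (s / 3) e).2.2 < 3 := by
  have hq : s / 3 < M.nQ := by
    simp only [nS, Machine.code] at hs
    omega
  have := tbl_code M ⟨s / 3, hq⟩ ⟨e, he⟩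
  simp only at this
  rw [this]
  exact ⟨Fin.isLt _, Fin.isLt _, Fin.isLt _⟩

lemma code_nG (M : Machine) : M.code.2.1 = M.nG := rfl

lemma code_nQ (M : Machine) : M.code.1 = M.nQ := rfl

lemma code_blank (M : Machine) : M.code.2.2.2.1 = M.blank := rfl

lemma code_start (M : Machine) : M.code.2.2.1 = M.start := rfl

lemma payload_inj (M : Machine) {s e s' e' : ℕ} (hs : s < nS M.code) (hs' : s' < nS M.code)
    (h0 : newS M.code s e = newS M.code s' e')
    (h : Compat (payload M.code s e) (payload M.code s' e')) : s = s' ∧ e = e' := by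
  unfold payload at h
  unfold newS at h0
  rw [code_nG] at h h0
  by_cases he : e < M.nG <;> by_cases he' : e' < M.nG <;> simp only [he, he', if_true, if_false] at h h0
  · have h1 := (compat_cons.1 (compat_cons.1 h).2).1
    have h2 : s * M.nG + e = s' * M.nG + e' := by omega
    have h3 : s = s' := by
      have a1 : (s * M.nG + e) / M.nG = s := by
        rw [add_comm, Nat.add_mul_div_right _ _ (by omega), Nat.div_eq_of_lt he, zero_add]
      have a2 : (s' * M.nG + e') / M.nG = s' := by
        rw [add_comm, Nat.add_mul_div_right _ _ (by omega), Nat.div_eq_of_lt he', zero_add]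
      rw [← a1, h2, a2]
    subst h3
    exact ⟨rfl, by omega⟩
  · have h1 := (compat_cons.1 h).1
    have := (tbl_lt M hs he).2.1
    omega
  · have h1 := (compat_cons.1 h).1
    have := (tbl_lt M hs' he').2.1
    omega
  · exact ⟨h0, (compat_cons.1 h).1⟩

lemma tgt_inj (M : Machine) {s e s' e' : ℕ} (hs : s < nS M.code) (hs' : s' < nS M.code)
    (h1 : Compat (tgt M.code s e).1 (tgt M.code s' e').1)
    (h2 : Compat (tgt M.code s e).2 (tgt M.code s' e').2) : s = s' ∧ e = e' := by
  have h0 : newS M.code s e = newS M.code s' e' := by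
    unfold tgt at h1
    split_ifs at h1 <;> exact (compat_cons.1 h1).1
  refine payload_inj M hs hs' h0 ?_
  unfold tgt at h1 h2
  rw [← h0] at h1 h2
  split_ifs at h1 h2
  · exact (compat_cons.1 h1).2
  · exact h2

/-! ### Digit bounds -/

lemma nG_pos (M : Machine) : 0 < M.nG := M.blank.pos

lemma nG_le_nD (M : Machine) : M.nG ≤ nD M.code := by
  unfold nD
  rw [code_nG]
  exact Nat.le_mul_of_pos_right _ (by omega)

lemma nS_lt_nD (M : Machine) : nS M.code < nD M.code := by
  unfold nD nS
  rw [code_nG]
  have := nG_pos M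
  nlinarith

lemma blank_lt (M : Machine) : M.code.2.2.2.1 < nD M.code :=
  lt_of_lt_of_le M.blank.isLt (nG_le_nD M)

lemma newS_lt (M : Machine) {s : ℕ} (e : ℕ) (hs : s < nS M.code) : newS M.code s e < nS M.code := by
  unfold newS
  rw [code_nG]
  split_ifs with he
  · have := tbl_lt M hs he
    unfold nS
    rw [code_nQ]
    omega
  · exact hs

lemma payload_lt (M : Machine) {s e : ℕ} (hs : s < nS M.code) (he : e < nD M.code) :
    ∀ d ∈ payload M.code s e, d < nD M.code := by
  unfold payload
  rw [code_nG]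
  split_ifs with h
  · intro d hd
    simp only [List.mem_cons, List.not_mem_nil, or_false] at hd
    rcases hd with rfl | rfl
    · exact lt_of_lt_of_le (tbl_lt M hs h).2.1 (nG_le_nD M)
    · unfold nD
      unfold nS at hs
      rw [code_nG]
      nlinarith
  · simpa using he

lemma src_lt (M : Machine) {s e : ℕ} (hs : s < nS M.code) (he : e < nD M.code) :
    (∀ d ∈ (src s e).1, d < nD M.code) ∧ ∀ d ∈ (src s e).2, d < nD M.code := by
  have := nS_lt_nD M
  unfold src
  split_ifs <;> simp <;> omega

lemma tgt_lt (M : Machine) {s e : ℕ} (hs : s < nS M.code) (he : e < nD M.code) :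
    (∀ d ∈ (tgt M.code s e).1, d < nD M.code) ∧ ∀ d ∈ (tgt M.code s e).2, d < nD M.code := by
  have h1 := (newS_lt M e hs).trans (nS_lt_nD M)
  have h2 := payload_lt M hs he
  unfold tgt
  split_ifs
  · simpa using ⟨h1, h2⟩
  · simpa using ⟨h1, h2⟩

lemma Bnd.readG_lt (M : Machine) {g : GState} (h : Bnd M.code g) : readG M.code g < nD M.code := by
  obtain ⟨s, L, R⟩ := g
  unfold readG
  split_ifs
  · cases L with
    | nil => exact blank_lt M
    | cons a L => exact h.2.1 a (by simp)
  · cases R with
    | nil => exact blank_lt M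
    | cons a R => exact h.2.2 a (by simp)

lemma Bnd.restL_lt {c : MachineCode} {g : GState} (h : Bnd c g) : ∀ d ∈ restL g, d < nD c := by
  unfold restL
  split_ifs
  · exact fun d hd => h.2.1 d (List.mem_of_mem_tail hd)
  · exact h.2.1

lemma Bnd.restR_lt {c : MachineCode} {g : GState} (h : Bnd c g) : ∀ d ∈ restR g, d < nD c := by
  unfold restR
  split_ifs
  · exact h.2.2
  · exact fun d hd => h.2.2 d (List.mem_of_mem_tail hd)

lemma Bnd.gstep (M : Machine) {g : GState} (h : Bnd M.code g) : Bnd M.code (gstep M.code g) := by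
  have h1 := newS_lt M (readG M.code g) h.1
  have h2 := payload_lt M h.1 (h.readG_lt M)
  have h3 := h.restL_lt
  have h4 := h.restR_lt
  unfold Sim.gstep
  split_ifs
  · exact ⟨h1, fun d hd => (List.mem_append.1 hd).elim (h2 d) (h3 d), h4⟩
  · exact ⟨h1, h3, fun d hd => (List.mem_append.1 hd).elim (h2 d) (h4 d)⟩

lemma bnd_ginit (M : Machine) (w : List (Fin M.nG)) :
    Bnd M.code (ginit M.code (w.map Fin.val)) := by
  refine ⟨?_, by simp [ginit], ?_⟩
  · have := M.start.isLt
    simp only [ginit, nS, code_start, code_nQ]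
    omega
  · intro d hd
    simp only [ginit, List.mem_map] at hd
    obtain ⟨a, _, rfl⟩ := hd
    exact lt_of_lt_of_le a.isLt (nG_le_nD M)

lemma bnd_iterate (M : Machine) (w : List (Fin M.nG)) (n : ℕ) :
    Bnd M.code ((gstep M.code)^[n] (ginit M.code (w.map Fin.val))) := by
  induction n with
  | zero => exact bnd_ginit M w
  | succ n ih =>
    rw [Function.iterate_succ_apply']
    exact ih.gstep M

/-! ### The simulation -/

/-- The `k`-th real cell of a stack. -/
def cell (M : Machine) (L : List ℕ) (k : ℕ) : ℕ :=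
  (L.filter fun d => d < M.nG).getD k M.blank

lemma cell_nil (M : Machine) (k : ℕ) : cell M [] k = M.blank := by simp [cell]

lemma cell_cons_garbage (M : Machine) {e : ℕ} (he : ¬ e < M.nG) (L : List ℕ) (k : ℕ) :
    cell M (e :: L) k = cell M L k := by
  simp [cell, he]

lemma cell_cons_zero (M : Machine) {e : ℕ} (he : e < M.nG) (L : List ℕ) :
    cell M (e :: L) 0 = e := by
  simp [cell, he]

lemma cell_cons_succ (M : Machine) {e : ℕ} (he : e < M.nG) (L : List ℕ) (k : ℕ) :
    cell M (e :: L) (k + 1) = cell M L k := by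
  simp [cell, he]

lemma cell_head_real (M : Machine) {L : List ℕ} (h : L.headD M.blank < M.nG) :
    cell M L 0 = L.headD M.blank ∧ ∀ k, cell M L (k + 1) = cell M L.tail k := by
  cases L with
  | nil => simp [cell_nil]
  | cons e L => exact ⟨cell_cons_zero M h L, cell_cons_succ M h L⟩

lemma cell_head_garbage (M : Machine) {L : List ℕ} (h : ¬ L.headD M.blank < M.nG) :
    L.tail.length < L.length ∧ ∀ k, cell M L k = cell M L.tail k := by
  cases L with
  | nil => exact absurd M.blank.isLt h
  | cons e L => exact ⟨by simp, cell_cons_garbage M h L⟩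

/-- The position of the boundary between the two stacks: `L` holds the cells to the left. -/
def cut (M : Machine) (cfg : M.Cfg) (s : ℕ) : ℤ := if s % 3 = 0 then cfg.head + 1 else cfg.head

/-- The state `g` of the two-stack machine represents the configuration `cfg`. -/
structure Rep (M : Machine) (cfg : M.Cfg) (g : GState) : Prop where
  state : g.1 / 3 = cfg.state
  left : ∀ k : ℕ, (cfg.tape (cut M cfg g.1 - 1 - k) : ℕ) = cell M g.2.1 k
  right : ∀ k : ℕ, (cfg.tape (cut M cfg g.1 + k) : ℕ) = cell M g.2.2 k
  stay : g.1 % 3 = 1 → g.2.2.headD M.blank < M.nG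

/-- The length of the stack that is read. -/
def readLen (g : GState) : ℕ := if g.1 % 3 = 0 then g.2.1.length else g.2.2.length

lemma Rep.skip {M : Machine} {cfg : M.Cfg} {g : GState} (h : Rep M cfg g)
    (he : ¬ readG M.code g < M.nG) :
    Rep M cfg (gstep M.code g) ∧ readLen (gstep M.code g) < readLen g := by
  obtain ⟨s, L, R⟩ := g
  have hn : newS M.code s (readG M.code (s, L, R)) = s := by simp [newS, code_nG, he]
  have hp : payload M.code s (readG M.code (s, L, R)) = [readG M.code (s, L, R)] := by
    simp [payload, code_nG, he]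
  have hst := h.state
  have hl := h.left
  have hr := h.right
  have hsy := h.stay
  simp only at hst hl hr hsy
  unfold gstep
  simp only [hn, hp]
  have h3 : s % 3 = 0 ∨ s % 3 = 1 ∨ s % 3 = 2 := by omega
  rcases h3 with h3 | h3 | h3
  · have he' : ¬ L.headD M.blank < M.nG := by simpa [readG, h3, code_blank] using he
    have := cell_head_garbage M he'
    simp only [h3, restL, restR, readLen, if_true, OfNat.zero_ne_ofNat, if_false]
    refine ⟨⟨hst, fun k => ?_, fun k => ?_, fun h => ?_⟩, this.1⟩
    · rw [hl k, this.2]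
    · rw [hr k]
      exact (cell_cons_garbage M he R k).symm
    · simp only at h
      omega
  · exact absurd (by simpa [readG, h3, code_blank] using hsy h3) he
  · have he' : ¬ R.headD M.blank < M.nG := by simpa [readG, h3, code_blank] using he
    have := cell_head_garbage M he'
    simp only [h3, restL, restR, readLen, if_true, OfNat.ofNat_ne_zero, if_false]
    refine ⟨⟨hst, fun k => ?_, fun k => ?_, fun h => ?_⟩, this.1⟩
    · rw [hl k]
      exact (cell_cons_garbage M he L k).symm
    · rw [hr k, this.2]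
    · simp only at h
      omega

lemma Rep.rest {M : Machine} {cfg : M.Cfg} {g : GState} (h : Rep M cfg g)
    (he : readG M.code g < M.nG) :
    (cfg.tape cfg.head : ℕ) = readG M.code g ∧
      (∀ k : ℕ, (cfg.tape (cfg.head - 1 - k) : ℕ) = cell M (restL g) k) ∧
      ∀ k : ℕ, (cfg.tape (cfg.head + 1 + k) : ℕ) = cell M (restR g) k := by
  obtain ⟨s, L, R⟩ := g
  have hl := h.left
  have hr := h.right
  simp only [cut] at hl hr
  by_cases h3 : s % 3 = 0
  · simp only [h3, if_true] at hl hr
    have he' : L.headD M.blank < M.nG := by simpa [readG, h3, code_blank] using he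
    have := cell_head_real M he'
    simp only [readG, restL, restR, h3, if_true, code_blank]
    refine ⟨?_, fun k => ?_, hr⟩
    · rw [← this.1, ← hl 0]
      congr 2
      simp
    · rw [← this.2, ← hl (k + 1)]
      congr 2
      push_cast
      ring
  · simp only [h3, if_false] at hl hr
    have he' : R.headD M.blank < M.nG := by simpa [readG, h3, code_blank] using he
    have := cell_head_real M he'
    simp only [readG, restL, restR, h3, if_false, code_blank]
    refine ⟨?_, hl, fun k => ?_⟩
    · rw [← this.1, ← hr 0]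
      congr 2
      simp
    · rw [← this.2, ← hr (k + 1)]
      congr 2
      push_cast
      ring

lemma Rep.real {M : Machine} {cfg : M.Cfg} {g : GState} (h : Rep M cfg g)
    (he : readG M.code g < M.nG) (hh : M.halting cfg.state = false) :
    Rep M (M.next cfg) (gstep M.code g) := by
  obtain ⟨h0, hL, hR⟩ := h.rest he
  have hst := h.state
  set r := M.step cfg.state (cfg.tape cfg.head) with hr
  have ht : tbl M.code (g.1 / 3) (readG M.code g) = ((r.1 : ℕ), (r.2.1 : ℕ), (r.2.2 : ℕ)) := by
    rw [hst, ← h0, tbl_code]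
  have hn : newS M.code g.1 (readG M.code g) = 3 * r.1 + r.2.2 := by
    simp [newS, code_nG, he, ht]
  have hp : payload M.code g.1 (readG M.code g)
      = [(r.2.1 : ℕ), M.nG + (g.1 * M.nG + readG M.code g)] := by
    simp [payload, code_nG, he, ht]
  have hnext : M.next cfg
      = ⟨r.1, Function.update cfg.tape cfg.head r.2.1, cfg.head + ((r.2.2 : ℕ) : ℤ) - 1⟩ := by
    simp [Machine.next, hh, hr]
  have hd := r.2.2.isLt
  have hb := r.2.1.isLt
  have hg : ¬ M.nG + (g.1 * M.nG + readG M.code g) < M.nG := by omega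
  have hmod : (3 * (r.1 : ℕ) + r.2.2) % 3 = r.2.2 := by omega
  have hdiv : (3 * (r.1 : ℕ) + r.2.2) / 3 = r.1 := by omega
  have hpush : ∀ (S : List ℕ) (k : ℕ),
      cell M ([(r.2.1 : ℕ), M.nG + (g.1 * M.nG + readG M.code g)] ++ S) (k + 1) = cell M S k := by
    intro S k
    simp only [List.cons_append, List.nil_append]
    rw [cell_cons_succ M hb, cell_cons_garbage M hg]
  have hpush0 : ∀ S : List ℕ,
      cell M ([(r.2.1 : ℕ), M.nG + (g.1 * M.nG + readG M.code g)] ++ S) 0 = r.2.1 := by
    intro S
    simp only [List.cons_append]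
    exact cell_cons_zero M hb _
  rw [hnext]
  unfold gstep
  simp only [hn, hp, hmod]
  by_cases h2 : (r.2.2 : ℕ) = 2
  · simp only [h2, if_true]
    have hcut : ∀ T : ℤ → Fin M.nG,
        cut M ⟨r.1, T, cfg.head + ((2 : ℕ) : ℤ) - 1⟩ (3 * r.1 + 2) = cfg.head + 1 := by
      intro T
      have : ¬ (3 * (r.1 : ℕ) + 2) % 3 = 0 := by omega
      simp only [cut, this, if_false]
      push_cast
      ring
    refine ⟨by simp only; omega, fun k => ?_, fun k => ?_, fun h => by simp only at h; omega⟩
    · simp only [hcut]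
      cases k with
      | zero => rw [hpush0]; simp
      | succ k =>
        rw [hpush, ← hL k, Function.update_of_ne (by push_cast; omega)]
        congr 2
        push_cast
        ring
    · simp only [hcut]
      rw [← hR k, Function.update_of_ne (by omega)]
  · simp only [h2, if_false]
    have hcut : ∀ T : ℤ → Fin M.nG,
        cut M ⟨r.1, T, cfg.head + ((r.2.2 : ℕ) : ℤ) - 1⟩ (3 * r.1 + r.2.2) = cfg.head := by
      intro T
      simp only [cut, hmod]
      split_ifs <;> omega
    refine ⟨hdiv, fun k => ?_, fun k => ?_, fun _ => ?_⟩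
    · simp only [hcut]
      rw [← hL k, Function.update_of_ne (by omega)]
    · simp only [hcut]
      cases k with
      | zero => rw [hpush0]; simp
      | succ k =>
        rw [hpush, ← hR k, Function.update_of_ne (by push_cast; omega)]
        congr 2
        push_cast
        ring
    · exact hb

lemma rep_init (M : Machine) (w : List (Fin M.nG)) :
    Rep M (M.initCfg w) (ginit M.code (w.map Fin.val)) := by
  have h3 : ¬ (3 * (M.start : ℕ) + 2) % 3 = 0 := by omega
  have hf : (w.map Fin.val).filter (fun d => d < M.nG) = w.map Fin.val := by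
    rw [List.filter_eq_self]
    intro d hd
    obtain ⟨a, _, rfl⟩ := List.mem_map.1 hd
    exact decide_eq_true a.isLt
  refine ⟨?_, fun k => ?_, fun k => ?_, fun h => ?_⟩
  · simp only [ginit, code_start, Machine.initCfg]
    omega
  · simp only [ginit, code_start, Machine.initCfg, cut, h3, if_false, cell_nil]
    rw [if_neg (by omega)]
  · simp only [ginit, code_start, Machine.initCfg, cut, h3, if_false, cell, hf]
    rw [if_pos (by omega)]
    simp only [zero_add, Int.toNat_natCast, List.getD_eq_getElem?_getD, List.getElem?_map]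
    cases w[k]? <;> simp
  · simp only [ginit, code_start] at h
    omega

lemma Rep.haltS {M : Machine} {cfg : M.Cfg} {g : GState} (h : Rep M cfg g) :
    haltS M.code g.1 = M.halting cfg.state := haltS_code M cfg.state h.state

/-! ### The rule system of `Build` -/

lemma incomp_of_not_compat : ∀ {u v : List ℕ}, ¬ Compat u v → Incomp u v
  | [], _, h => absurd (Or.inl List.nil_prefix) h
  | _ :: _, [], h => absurd (Or.inr List.nil_prefix) h
  | a :: u, b :: v, h => by
    by_cases hab : a = b
    · exact Or.inr (incomp_of_not_compat fun hc => h (compat_cons.2 ⟨hab, hc⟩))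
    · exact Or.inl hab

lemma isH_eq (M : Machine) {s : ℕ} (hs : s < nS M.code) :
    MachineCode.isH M.code (s / 3) = haltS M.code s := by
  have hq : s / 3 < M.nQ := by
    simp only [nS, code_nQ] at hs
    omega
  simp [MachineCode.isH, haltS, Machine.code, List.getD_eq_getElem?_getD, hq]

lemma tgt_eq (M : Machine) {s e : ℕ} (hs : s < nS M.code)
    (hok : e < M.nG ∨ s % 3 ≠ 1) : MachineCode.tgt M.code s e = tgt M.code s e := by
  have htr : MachineCode.tr M.code (s / 3) e = tbl M.code (s / 3) e := rfl
  unfold MachineCode.tgt tgt newS payload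
  rw [htr, code_nG]
  by_cases he : e < M.nG
  · have h3 := (tbl_lt M hs he).2.2
    have hg : M.nG * (s + 1) + e = M.nG + (s * M.nG + e) := by ring
    have hm : (3 * (tbl M.code (s / 3) e).1 + (tbl M.code (s / 3) e).2.2) % 3
        = (tbl M.code (s / 3) e).2.2 := by omega
    simp only [he, not_le.2 he, if_true, if_false, hg, hm]
    split_ifs with h2
    · rw [h2]
    · rfl
  · simp only [he, not_lt.1 he, if_true, if_false]
    by_cases h0 : s % 3 = 0
    · simp [h0]
    · have h2 : s % 3 = 2 := by omega
      simp [h2]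

lemma ok_iff (M : Machine) {s e : ℕ} (hs : s < nS M.code) :
    MachineCode.ok M.code s e = true ↔ haltS M.code s = false ∧ (e < M.nG ∨ s % 3 ≠ 1) := by
  simp only [MachineCode.ok, isH_eq M hs, Bool.and_eq_true, Bool.not_eq_true',
    Bool.or_eq_true, decide_eq_true_eq]
  rfl

lemma nD_pos (M : Machine) : 0 < nD M.code := lt_of_le_of_lt (Nat.zero_le _) (nS_lt_nD M)

lemma mem_rules (M : Machine) {r : Rule} :
    r ∈ MachineCode.rules M.code ↔ ∃ s e, s < nS M.code ∧ e < nD M.code ∧
      haltS M.code s = false ∧ (e < M.nG ∨ s % 3 ≠ 1) ∧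
      r = (s * nD M.code + e, src s e, tgt M.code s e) := by
  have hn := nD_pos M
  have hD : MachineCode.nD M.code = nD M.code := rfl
  have hL : MachineCode.nL M.code = nS M.code * nD M.code := rfl
  have hsrc : MachineCode.src = src := rfl
  simp only [MachineCode.rules, List.mem_map, List.mem_filter, List.mem_range, hD, hL,
    MachineCode.rule, hsrc]
  constructor
  · rintro ⟨i, ⟨hi, hok⟩, rfl⟩
    have hs : i / nD M.code < nS M.code := (Nat.div_lt_iff_lt_mul hn).2 hi
    obtain ⟨h1, h2⟩ := (ok_iff M hs).1 hok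
    refine ⟨_, _, hs, Nat.mod_lt _ hn, h1, h2, ?_⟩
    rw [tgt_eq M hs h2, Nat.div_add_mod']
  · rintro ⟨s, e, hs, he, h1, h2, rfl⟩
    have e1 : (s * nD M.code + e) / nD M.code = s := by
      rw [add_comm, Nat.add_mul_div_right _ _ hn, Nat.div_eq_of_lt he, zero_add]
    have e2 : (s * nD M.code + e) % nD M.code = e := by
      rw [add_comm, Nat.add_mul_mod_self_right, Nat.mod_eq_of_lt he]
    refine ⟨s * nD M.code + e, ⟨by nlinarith, ?_⟩, ?_⟩
    · rw [e1, e2]
      exact (ok_iff M hs).2 ⟨h1, h2⟩
    · rw [e1, e2, tgt_eq M hs h2]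

lemma mem_halts (M : Machine) {s : ℕ} :
    s ∈ MachineCode.halts M.code ↔ s < nS M.code ∧ haltS M.code s = true := by
  simp only [MachineCode.halts, List.mem_filter, List.mem_range]
  exact and_congr_right fun hs => by rw [isH_eq M hs]

lemma src_fst (s e : ℕ) : ∃ u, (src s e).1 = s :: u := by
  unfold src
  split_ifs
  · exact ⟨_, rfl⟩
  · exact ⟨_, rfl⟩

lemma pushQ_mem' {n : ℕ} (hn : 0 < n) {u : List ℕ} (hu : ∀ d ∈ u, d < n) {ξ : ℚ}
    (h0 : 0 ≤ ξ) (h1 : ξ ≤ 1) : 0 ≤ pushQ (3 * n) u ξ ∧ pushQ (3 * n) u ξ ≤ 1 := by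
  induction u with
  | nil => exact ⟨h0, h1⟩
  | cons d u ih =>
    obtain ⟨a0, a1⟩ := ih fun x hx => hu x (List.mem_cons_of_mem _ hx)
    have hd : (d : ℚ) + 1 ≤ n := by exact_mod_cast hu d List.mem_cons_self
    have hN : (0 : ℚ) < ((3 * n : ℕ) : ℚ) := by positivity
    have hd0 : (0 : ℚ) ≤ d := by positivity
    have e : pushQ (3 * n) (d :: u) ξ = (3 * (d : ℚ) + 1 + pushQ (3 * n) u ξ) / (3 * n : ℕ) := rfl
    rw [e]
    refine ⟨by positivity, (div_le_one hN).2 ?_⟩
    push_cast
    linarith

lemma base_eq (c : MachineCode) : MachineCode.base c = 3 * nD c := rfl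

lemma eInf_mem (M : Machine) : 0 ≤ MachineCode.eInf M.code ∧ MachineCode.eInf M.code ≤ 1 := by
  have hb : (M.code.2.2.2.1 : ℚ) + 1 ≤ nD M.code := by exact_mod_cast blank_lt M
  have hb0 : (0 : ℚ) ≤ M.code.2.2.2.1 := by positivity
  unfold MachineCode.eInf
  rw [base_eq]
  push_cast
  have : (0 : ℚ) < 3 * (nD M.code : ℚ) - 1 := by linarith
  exact ⟨by positivity, (div_le_one this).2 (by linarith)⟩

lemma eInf_fixed (M : Machine) :
    (3 * (M.code.2.2.2.1 : ℚ) + 1 + MachineCode.eInf M.code) / (MachineCode.base M.code : ℕ)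
      = MachineCode.eInf M.code := by
  have hn : (1 : ℚ) ≤ nD M.code := by exact_mod_cast nD_pos M
  unfold MachineCode.eInf
  rw [base_eq]
  push_cast
  have h1 : 3 * (nD M.code : ℚ) - 1 ≠ 0 := by linarith
  have h2 : 3 * (nD M.code : ℚ) ≠ 0 := by linarith
  field_simp
  ring

lemma encS_mem (M : Machine) {l : List ℕ} (hl : ∀ d ∈ l, d < nD M.code) :
    0 ≤ MachineCode.encS M.code l ∧ MachineCode.encS M.code l ≤ 1 :=
  pushQ_mem' (nD_pos M) hl (eInf_mem M).1 (eInf_mem M).2

lemma pushQ_eq_foldr (N : ℕ) (u : List ℕ) (r : ℚ) :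
    pushQ N u r = List.foldr (fun (d : ℕ) (s : ℚ) => (3 * (d : ℚ) + 1 + s) / N) r u := by
  induction u with
  | nil => rfl
  | cons d u ih =>
    rw [List.foldr_cons, ← ih]
    rfl

/-- The pair of stack codes of a state of the two-stack machine. -/
def enc (c : MachineCode) (g : GState) : ℚ × ℚ :=
  (MachineCode.encS c (g.1 :: g.2.1), MachineCode.encS c g.2.2)

lemma step_enc (M : Machine) {g : GState} (hB : Bnd M.code g) (hh : haltS M.code g.1 = false)
    (hok : readG M.code g < M.nG ∨ g.1 % 3 ≠ 1) :
    Step (MachineCode.base M.code) (MachineCode.rules M.code) (enc M.code g)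
      (enc M.code (gstep M.code g)) := by
  have hL := encS_mem M hB.restL_lt
  have hR := encS_mem M hB.restR_lt
  refine ⟨_, (mem_rules M).2 ⟨g.1, readG M.code g, hB.1, hB.readG_lt M, hh, hok, rfl⟩,
    MachineCode.encS M.code (restL g), MachineCode.encS M.code (restR g),
    hL.1, hL.2, hR.1, hR.2, ?_, ?_⟩
  · have h1 := foldr_src_fst M.code g
      (fun d s => (3 * (d : ℚ) + 1 + s) / (MachineCode.base M.code : ℕ)) _ (eInf_fixed M)
    have h2 := foldr_src_snd M.code g
      (fun d s => (3 * (d : ℚ) + 1 + s) / (MachineCode.base M.code : ℕ)) _ (eInf_fixed M)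
    simp only [enc, MachineCode.encS, pushQ_eq_foldr]
    exact Prod.ext h1 h2
  · have h1 := foldr_tgt_fst M.code g
      (fun d s => (3 * (d : ℚ) + 1 + s) / (MachineCode.base M.code : ℕ)) (MachineCode.eInf M.code)
    have h2 := foldr_tgt_snd M.code g
      (fun d s => (3 * (d : ℚ) + 1 + s) / (MachineCode.base M.code : ℕ)) (MachineCode.eInf M.code)
    simp only [enc, MachineCode.encS, pushQ_eq_foldr]
    exact Prod.ext h1 h2

lemma Rep.step {M : Machine} {cfg : M.Cfg} {g : GState} (h : Rep M cfg g) (hB : Bnd M.code g)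
    (hh : M.halting cfg.state = false) :
    Step (MachineCode.base M.code) (MachineCode.rules M.code) (enc M.code g)
      (enc M.code (gstep M.code g)) := by
  refine step_enc M hB (by rw [h.haltS, hh]) ?_
  by_cases h1 : g.1 % 3 = 1
  · left
    have := h.stay h1
    simpa [readG, h1, code_blank] using this
  · exact Or.inr h1

lemma Rep.exists_next {M : Machine} {cfg : M.Cfg} (hh : M.halting cfg.state = false) (m : ℕ) :
    ∀ {g : GState}, Rep M cfg g → Bnd M.code g → readLen g < m →
      ∃ g', Rep M (M.next cfg) g' ∧ Bnd M.code g' ∧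
        Relation.ReflTransGen (Step (MachineCode.base M.code) (MachineCode.rules M.code))
          (enc M.code g) (enc M.code g') := by
  induction m with
  | zero => exact fun _ _ h => absurd h (Nat.not_lt_zero _)
  | succ m ih =>
    intro g h hB hm
    by_cases he : readG M.code g < M.nG
    · exact ⟨_, h.real he hh, hB.gstep M, Relation.ReflTransGen.single (h.step hB hh)⟩
    · obtain ⟨h1, h2⟩ := h.skip he
      obtain ⟨g', a1, a2, a3⟩ := ih h1 (hB.gstep M) (by omega)
      exact ⟨g', a1, a2, Relation.ReflTransGen.head (h.step hB hh) a3⟩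

/-- The list coercion that the elaborator inserts is the map of `Fin.val`. -/
lemma map_coe_eq {n : ℕ} (w : List (Fin n)) : (w.map fun a => (a : ℕ)) = w.map Fin.val := by
  induction w with
  | nil => rfl
  | cons a w ih => simpa using ih

end Sim

open Sim

open MachineCode in
theorem goodSys_code (M : Machine) :
    GoodSys (MachineCode.nD M.code) (base M.code) (vsc M.code) (rules M.code) (halts M.code) where
  n_pos := nD_pos M
  base := rfl
  A_ge := by unfold vsc; omega
  level := by
    intro r hr
    obtain ⟨s, e, hs, he, -, -, rfl⟩ := (mem_rules M).1 hr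
    have hL : nL M.code = nS M.code * Sim.nD M.code := rfl
    have : s * Sim.nD M.code + e ≤ nL M.code := by
      rw [hL]
      nlinarith
    unfold vsc
    simp only
    omega
  dig_u := by
    intro r hr
    obtain ⟨s, e, hs, he, -, -, rfl⟩ := (mem_rules M).1 hr
    exact (src_lt M hs he).1
  dig_v := by
    intro r hr
    obtain ⟨s, e, hs, he, -, -, rfl⟩ := (mem_rules M).1 hr
    exact (src_lt M hs he).2
  dig_u' := by
    intro r hr
    obtain ⟨s, e, hs, he, -, -, rfl⟩ := (mem_rules M).1 hr
    exact (tgt_lt M hs he).1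
  dig_v' := by
    intro r hr
    obtain ⟨s, e, hs, he, -, -, rfl⟩ := (mem_rules M).1 hr
    exact (tgt_lt M hs he).2
  dig_H := fun s hs => ((mem_halts M).1 hs).1.trans (nS_lt_nD M)
  nodup := (List.nodup_range.filter _).map fun _ _ h => congrArg Prod.fst h
  nodup_H := List.nodup_range.filter _
  lev_ne := by
    intro r hr r' hr' hne h
    obtain ⟨i, -, rfl⟩ := List.mem_map.1 hr
    obtain ⟨i', -, rfl⟩ := List.mem_map.1 hr'
    exact hne (congrArg (rule M.code) h)
  src_ne := by
    intro r hr r' hr' hne
    obtain ⟨s, e, -, -, -, -, rfl⟩ := (mem_rules M).1 hr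
    obtain ⟨s', e', -, -, -, -, rfl⟩ := (mem_rules M).1 hr'
    by_contra hc
    rw [not_or] at hc
    obtain ⟨rfl, rfl⟩ := src_inj (by_contra fun h => hc.1 (incomp_of_not_compat h))
      (by_contra fun h => hc.2 (incomp_of_not_compat h))
    exact hne rfl
  tgt_ne := by
    intro r hr r' hr' hne
    obtain ⟨s, e, hs, -, -, -, rfl⟩ := (mem_rules M).1 hr
    obtain ⟨s', e', hs', -, -, -, rfl⟩ := (mem_rules M).1 hr'
    by_contra hc
    rw [not_or] at hc
    obtain ⟨rfl, rfl⟩ := tgt_inj M hs hs' (by_contra fun h => hc.1 (incomp_of_not_compat h))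
      (by_contra fun h => hc.2 (incomp_of_not_compat h))
    exact hne rfl
  src_H := by
    intro r hr s' hs'
    obtain ⟨s, e, -, -, hh, -, rfl⟩ := (mem_rules M).1 hr
    have hh' := ((mem_halts M).1 hs').2
    have hne : s ≠ s' := by
      rintro rfl
      rw [hh] at hh'
      exact Bool.false_ne_true hh'
    obtain ⟨u, hu⟩ := src_fst s e
    simp only [hu]
    exact ⟨Or.inl hne, Or.inl hne.symm⟩

theorem startPt_eq (M : Machine) (w : List ℕ) :
    startPt M.code w = enc M.code (ginit M.code w) := rfl

theorem startPt_mem (M : Machine) (w : List (Fin M.nG)) :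
    let z := startPt M.code (w.map Fin.val)
    0 ≤ z.1 ∧ z.1 ≤ 1 ∧ 0 ≤ z.2 ∧ z.2 ≤ 1 := by
  have hB := bnd_ginit M w
  have h1 := encS_mem M (l := (ginit M.code (w.map Fin.val)).1 :: []) (by
    intro d hd
    rw [List.mem_singleton.1 hd]
    exact hB.1.trans (nS_lt_nD M))
  have h2 := encS_mem M hB.2.2
  exact ⟨h1.1, h1.2, h2.1, h2.2⟩

open MachineCode in
theorem sim_not_halts (M : Machine) (w : List (Fin M.nG)) (h : ¬ M.HaltsOn w) :
    ∃ S : Set (ℚ × ℚ), startPt M.code (w.map Fin.val) ∈ S ∧
      ∀ z ∈ S, ∃ z' ∈ S, Step (base M.code) (rules M.code) z z' := by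
  have hnh : ∀ k, M.halting (M.next^[k] (M.initCfg w)).state = false := fun k =>
    Bool.eq_false_iff.2 fun hk => h ⟨k, hk⟩
  refine ⟨{z | ∃ g k, Rep M (M.next^[k] (M.initCfg w)) g ∧ Bnd M.code g ∧ z = enc M.code g},
    ⟨_, 0, rep_init M w, bnd_ginit M w, rfl⟩, ?_⟩
  rintro z ⟨g, k, hR, hB, rfl⟩
  refine ⟨_, ?_, hR.step hB (hnh k)⟩
  by_cases he : readG M.code g < M.nG
  · exact ⟨_, k + 1, by rw [Function.iterate_succ_apply']; exact hR.real he (hnh k),
      hB.gstep M, rfl⟩
  · exact ⟨_, k, (hR.skip he).1, hB.gstep M, rfl⟩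

open MachineCode in
theorem sim_halts (M : Machine) (w : List (Fin M.nG)) (h : M.HaltsOn w) :
    ∃ z, Relation.ReflTransGen (Step (base M.code) (rules M.code))
      (startPt M.code (w.map Fin.val)) z ∧ Halt (base M.code) (halts M.code) z := by
  obtain ⟨k, hk⟩ := h
  have key : ∀ k, ∃ g, Rep M (M.next^[k] (M.initCfg w)) g ∧ Bnd M.code g ∧
      Relation.ReflTransGen (Step (base M.code) (rules M.code))
        (startPt M.code (w.map Fin.val)) (enc M.code g) := by
    intro k
    induction k with
    | zero => exact ⟨_, rep_init M w, bnd_ginit M w, Relation.ReflTransGen.refl⟩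
    | succ k ih =>
      obtain ⟨g, hR, hB, hS⟩ := ih
      rw [Function.iterate_succ_apply']
      cases hh : M.halting (M.next^[k] (M.initCfg w)).state with
      | true => exact ⟨g, by rwa [Machine.next, if_pos hh], hB, hS⟩
      | false =>
        obtain ⟨g', a1, a2, a3⟩ := Rep.exists_next hh _ hR hB (Nat.lt_succ_self _)
        exact ⟨g', a1, a2, hS.trans a3⟩
  obtain ⟨g, hR, hB, hS⟩ := key k
  have hL := encS_mem M hB.2.1
  have hRR := encS_mem M hB.2.2
  exact ⟨_, hS, g.1, (mem_halts M).2 ⟨hB.1, by rw [hR.haltS, hk]⟩, encS M.code g.2.1,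
    hL.1, hL.2, rfl, hRR.1, hRR.2⟩

end Vale.Agent.N113
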