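import Vale.Agent.N113.Bump

/-!
# P113: calculus of admissible terms; shear flows are classical solutions
-/

namespace Vale.Agent.N113

open Set MeasureTheory
open scoped ContDiff

namespace TermCalc

/-! ### The formal product rule -/

theorem hasDerivAt_prod (F : Bump → ℝ → ℝ) (s : ℝ) (l : List Bump)
    (hF : ∀ g ∈ l, HasDerivAt (F g) (((Bump.D g).map fun p => (p.1 : ℝ) * F p.2 s).sum) s) :
    HasDerivAt (fun y => (l.map fun g => F g y).prod)
      (((prodD l).map fun p => (p.1 : ℝ) * (p.2.map fun g => F g s).prod).sum) s := by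
  induction l with
  | nil => simpa [prodD] using hasDerivAt_const s (1 : ℝ)
  | cons g l ih =>
    have h1 := hF g List.mem_cons_self
    have h2 := ih fun g' hg' => hF g' (List.mem_cons_of_mem _ hg')
    have h3 := h1.mul h2
    simp only [List.map_cons, List.prod_cons]
    refine HasDerivAt.congr_deriv h3 (Eq.symm ?_)
    simp only [prodD, List.map_append, List.map_map, List.sum_append, Function.comp_def,
      List.map_cons, List.prod_cons]
    congr 1
    · rw [← List.sum_map_mul_right]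
      congr 2
      funext p
      ring
    · rw [← List.sum_map_mul_left]
      congr 2
      funext p
      ring

theorem prodD_wf {l : List Bump} (h : ∀ g ∈ l, Bump.WF g) :
    ∀ p ∈ prodD l, ∀ g ∈ p.2, Bump.WF g := by
  induction l with
  | nil => simp [prodD]
  | cons g l ih =>
    intro p hp g' hg'
    simp only [prodD, List.mem_append, List.mem_map] at hp
    rcases hp with ⟨q, hq, rfl⟩ | ⟨q, hq, rfl⟩
    · rcases List.mem_cons.1 hg' with rfl | h'
      · exact Bump.D_wf (h g List.mem_cons_self) q hq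
      · exact h g' (List.mem_cons_of_mem _ h')
    · rcases List.mem_cons.1 hg' with rfl | h'
      · exact h _ List.mem_cons_self
      · exact ih (fun g hg => h g (List.mem_cons_of_mem _ hg)) q hq g' h'

theorem prodD_isEmpty {l : List Bump} {p : ℚ × List Bump} (hp : p ∈ prodD l) :
    p.2.isEmpty = l.isEmpty := by
  cases l with
  | nil => simp [prodD] at hp
  | cons g l =>
    simp only [prodD, List.mem_append, List.mem_map] at hp
    rcases hp with ⟨q, _, rfl⟩ | ⟨q, _, rfl⟩ <;> rfl

theorem prodD_late {l : List Bump} {p : ℚ × List Bump} (hp : p ∈ prodD l) {k j : ℕ} {a b : ℚ}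
    (h : (Sum.inl (k, j, a, b) : Bump) ∈ l) :
    ∃ k' j' : ℕ, (Sum.inl (k', j', a, b) : Bump) ∈ p.2 := by
  induction l generalizing p with
  | nil => simp at h
  | cons g l ih =>
    simp only [prodD, List.mem_append, List.mem_map] at hp
    rcases hp with ⟨q, hq, rfl⟩ | ⟨q, hq, rfl⟩
    · rcases List.mem_cons.1 h with rfl | h'
      · simp only [Bump.D, List.mem_cons, List.not_mem_nil, or_false] at hq
        rcases hq with rfl | rfl
        · exact ⟨_, _, List.mem_cons_self⟩
        · exact ⟨_, _, List.mem_cons_self⟩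
      · exact ⟨k, j, List.mem_cons_of_mem _ h'⟩
    · rcases List.mem_cons.1 h with rfl | h'
      · exact ⟨k, j, List.mem_cons_self⟩
      · obtain ⟨k', j', h''⟩ := ih hq h'
        exact ⟨k', j', List.mem_cons_of_mem _ h''⟩

/-! ### Membership in the derived lists -/

theorem dT_wf {τ τ' : Term} (h : Term.WF τ) (h' : τ' ∈ τ.dT) : Term.WF τ' := by
  simp only [Term.dT, List.mem_append, List.mem_map] at h'
  rcases h' with ⟨p, hp, rfl⟩ | ⟨p, hp, rfl⟩
  · exact ⟨h.1, prodD_wf h.2.1 p hp, h.2.2.1, h.2.2.2⟩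
  · exact ⟨h.1, h.2.1, prodD_wf h.2.2.1 p hp, h.2.2.2⟩

theorem dX_wf {τ τ' : Term} {j : Fin 3} (h : Term.WF τ) (h' : τ' ∈ τ.dX j) : Term.WF τ' := by
  simp only [Term.dX, List.mem_map] at h'
  obtain ⟨p, hp, rfl⟩ := h'
  refine ⟨h.1, h.2.1, h.2.2.1, fun i => ?_⟩
  by_cases hi : i = j
  · subst hi
    simpa using prodD_wf (h.2.2.2 i) p hp
  · simpa [Function.update_of_ne hi] using h.2.2.2 i

theorem dX_time {τ τ' : Term} {j : Fin 3} (h' : τ' ∈ τ.dX j) : τ'.2.1 = τ.2.1 := by
  simp only [Term.dX, List.mem_map] at h'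
  obtain ⟨p, _, rfl⟩ := h'
  rfl

theorem mem_heat {τ τ' : Term} (h' : τ' ∈ τ.heat) :
    τ' ∈ τ.dT ∨ ∃ (j : Fin 3) (τ₁ τ₂ : Term), τ₁ ∈ τ.dX j ∧ τ₂ ∈ τ₁.dX j ∧ τ' = τ₂.negNu := by
  simp only [Term.heat, List.mem_append, List.mem_map, List.mem_flatMap] at h'
  rcases h' with h' | ⟨τ₂, ⟨j, _, τ₁, h1, h2⟩, rfl⟩
  · exact Or.inl h'
  · exact Or.inr ⟨j, τ₁, τ₂, h1, h2, rfl⟩

theorem flatMap_dT_wf {L : List Term} (h : ∀ τ ∈ L, Term.WF τ) :
    ∀ τ ∈ L.flatMap Term.dT, Term.WF τ := by
  intro τ hτ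
  obtain ⟨τ₀, h0, h1⟩ := List.mem_flatMap.1 hτ
  exact dT_wf (h τ₀ h0) h1

theorem flatMap_dX_wf {L : List Term} (j : Fin 3) (h : ∀ τ ∈ L, Term.WF τ) :
    ∀ τ ∈ L.flatMap (Term.dX j), Term.WF τ := by
  intro τ hτ
  obtain ⟨τ₀, h0, h1⟩ := List.mem_flatMap.1 hτ
  exact dX_wf (h τ₀ h0) h1

/-! ### Sums of terms -/

theorem sumTerms_nil (ν : ℝ) (t : ℝ) (x : T3) : sumTerms ν [] t x = 0 := rfl

theorem sumTerms_cons (ν : ℝ) (τ : Term) (L : List Term) (t : ℝ) (x : T3) :
    sumTerms ν (τ :: L) t x = τ.eval ν t x + sumTerms ν L t x := by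
  simp [sumTerms]

theorem sumTerms_append (ν : ℝ) (L L' : List Term) (t : ℝ) (x : T3) :
    sumTerms ν (L ++ L') t x = sumTerms ν L t x + sumTerms ν L' t x := by
  simp [sumTerms]

theorem sumTerms_eq_zero (ν : ℝ) {L : List Term} {t : ℝ} (h : ∀ τ ∈ L, τ.time t = 0) (x : T3) :
    sumTerms ν L t x = 0 := by
  induction L with
  | nil => rfl
  | cons τ L ih =>
    rw [sumTerms_cons, ih fun τ' h' => h τ' (List.mem_cons_of_mem _ h'), Term.eval,
      h τ List.mem_cons_self]
    ring

theorem coeff_scaleC (ν : ℝ) (q : ℚ) (τ : Term)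
    (r : (List Bump × List Bump) × (Fin 3 → List Bump)) :
    Term.coeff ν (scaleC q τ.1, r) = q * τ.coeff ν := by
  simp only [Term.coeff, scaleC]
  push_cast
  ring

theorem eval_negNu (ν : ℝ) (τ : Term) (t : ℝ) (x : T3) :
    τ.negNu.eval ν t x = -ν * τ.eval ν t x := by
  simp only [Term.eval, Term.negNu, Term.coeff, Term.time]
  push_cast
  ring

theorem sumTerms_negNu (ν : ℝ) (L : List Term) (t : ℝ) (x : T3) :
    sumTerms ν (L.map Term.negNu) t x = -ν * sumTerms ν L t x := by
  induction L with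
  | nil => simp [sumTerms]
  | cons τ L ih =>
    rw [List.map_cons, sumTerms_cons, sumTerms_cons, ih, eval_negNu]
    ring

theorem sumTerms_forceOf (ν : ℝ) (L : List Term) (t : ℝ) (x : T3) :
    sumTerms ν (forceOf L) t x = sumTerms ν (L.flatMap Term.dT) t x
      - ν * ∑ j, sumTerms ν ((L.flatMap (Term.dX j)).flatMap (Term.dX j)) t x := by
  induction L with
  | nil => simp [forceOf, sumTerms]
  | cons τ L ih =>
    unfold forceOf at ih ⊢
    simp only [List.flatMap_cons, List.flatMap_append, sumTerms_append, ih, Term.heat,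
      sumTerms_negNu, List.flatMap_nil, List.append_nil, Fin.sum_univ_three]
    ring

/-! ### Derivatives of terms -/

theorem coe_rep (y : UnitAddCircle) : ((rep y : ℝ) : UnitAddCircle) = y :=
  (AddCircle.equivIco 1 0).symm_apply_apply y

theorem per_rep_add (g : ℝ → ℝ) (y : UnitAddCircle) (s : ℝ) :
    per g (rep (y + (s : UnitAddCircle))) = per g (rep y + s) := by
  rw [← per_rep g (rep y + s), AddCircle.coe_add, coe_rep]

theorem hasDerivAt_time {τ : Term} (h : Term.WF τ) (ν : ℝ) (t : ℝ) (x : T3) :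
    HasDerivAt (fun s => τ.eval ν s x) (sumTerms ν τ.dT t x) t := by
  have h1 := hasDerivAt_prod Bump.eval t τ.2.1.1 fun g _ => Bump.hasDerivAt g t
  have h2 := hasDerivAt_prod (fun g => per (Bump.eval g)) t τ.2.1.2
    fun g hg => Bump.hasDerivAt_per (h.2.2.1 g hg) t
  have h3 := ((h1.mul h2).const_mul (τ.coeff ν)).mul_const
    (∏ i, ((τ.2.2 i).map fun g => per (Bump.eval g) (rep (x i))).prod)
  refine HasDerivAt.congr_deriv h3 (Eq.symm ?_)
  simp only [Term.dT, sumTerms, List.map_append, List.map_map, List.sum_append, Function.comp_def,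
    Term.eval, coeff_scaleC, Term.time]
  rw [mul_add, add_mul]
  congr 1
  · rw [← List.sum_map_mul_right, ← List.sum_map_mul_left, ← List.sum_map_mul_right]
    congr 2
    funext p
    ring
  · rw [← List.sum_map_mul_left, ← List.sum_map_mul_left, ← List.sum_map_mul_right]
    congr 2
    funext p
    ring

theorem hasDerivAt_space {τ : Term} (h : Term.WF τ) (ν : ℝ) (t : ℝ) (x : T3) (j : Fin 3) :
    HasDerivAt (fun s => τ.eval ν t (line x j s)) (sumTerms ν (τ.dX j) t x) 0 := by
  have h1 := hasDerivAt_prod (fun g => per (Bump.eval g)) (rep (x j)) (τ.2.2 j)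
    fun g hg => Bump.hasDerivAt_per (h.2.2.2 j g hg) _
  have h2 : HasDerivAt (fun s : ℝ => rep (x j) + s) 1 0 := (hasDerivAt_id (0 : ℝ)).const_add _
  have h3 := HasDerivAt.comp_of_eq (0 : ℝ) h1 h2 (by simp)
  have h4 := (h3.mul_const
    (∏ i ∈ Finset.univ.erase j, ((τ.2.2 i).map fun g => per (Bump.eval g) (rep (x i))).prod)).const_mul
    (τ.coeff ν * τ.time t)
  refine HasDerivAt.congr_deriv (h4.congr_of_eventuallyEq (Filter.Eventually.of_forall ?_))
    (Eq.symm ?_)
  · intro s
    simp only [Term.eval, Function.comp_def]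
    congr 1
    rw [← Finset.mul_prod_erase Finset.univ _ (Finset.mem_univ j)]
    congr 1
    · simp only [line, Pi.add_apply, Pi.single_eq_same, per_rep_add]
    · refine Finset.prod_congr rfl fun i hi => ?_
      simp only [line, Pi.add_apply, Pi.single_eq_of_ne (Finset.ne_of_mem_erase hi), add_zero]
  · simp only [Term.dX, sumTerms, List.map_map, Function.comp_def, Term.eval, coeff_scaleC, mul_one]
    rw [← List.sum_map_mul_right, ← List.sum_map_mul_left]
    congr 2
    funext p
    rw [← Finset.mul_prod_erase Finset.univ _ (Finset.mem_univ j)]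
    have h5 : ∏ i ∈ Finset.univ.erase j,
        ((Function.update τ.2.2 j p.2 i).map fun g => per (Bump.eval g) (rep (x i))).prod
        = ∏ i ∈ Finset.univ.erase j, ((τ.2.2 i).map fun g => per (Bump.eval g) (rep (x i))).prod :=
      Finset.prod_congr rfl fun i hi => by rw [Function.update_of_ne (Finset.ne_of_mem_erase hi)]
    rw [h5, Function.update_self]
    simp only [Term.time]
    ring

theorem hasDerivAt_sum_time {L : List Term} (h : ∀ τ ∈ L, Term.WF τ) (ν : ℝ) (t : ℝ) (x : T3) :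
    HasDerivAt (fun s => sumTerms ν L s x) (sumTerms ν (L.flatMap Term.dT) t x) t := by
  induction L with
  | nil => simpa [sumTerms] using hasDerivAt_const t (0 : ℝ)
  | cons τ L ih =>
    simp only [sumTerms_cons, List.flatMap_cons, sumTerms_append]
    exact (hasDerivAt_time (h τ List.mem_cons_self) ν t x).add
      (ih fun τ' h' => h τ' (List.mem_cons_of_mem _ h'))

theorem hasDerivAt_sum_space {L : List Term} (h : ∀ τ ∈ L, Term.WF τ) (ν : ℝ) (t : ℝ) (x : T3)
    (j : Fin 3) :
    HasDerivAt (fun s => sumTerms ν L t (line x j s)) (sumTerms ν (L.flatMap (Term.dX j)) t x) 0 := by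
  induction L with
  | nil => simpa [sumTerms] using hasDerivAt_const (0 : ℝ) (0 : ℝ)
  | cons τ L ih =>
    simp only [sumTerms_cons, List.flatMap_cons, sumTerms_append]
    exact (hasDerivAt_space (h τ List.mem_cons_self) ν t x j).add
      (ih fun τ' h' => h τ' (List.mem_cons_of_mem _ h'))

theorem pd_sumTerms {L : List Term} (h : ∀ τ ∈ L, Term.WF τ) (ν : ℝ) (t : ℝ) (j : Fin 3) :
    pd j (sumTerms ν L t) = sumTerms ν (L.flatMap (Term.dX j)) t :=
  funext fun x => (hasDerivAt_sum_space h ν t x j).deriv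

theorem hasPd_sumTerms {L : List Term} (h : ∀ τ ∈ L, Term.WF τ) (ν : ℝ) (t : ℝ) (j : Fin 3) :
    HasPd j (sumTerms ν L t) :=
  fun x => (hasDerivAt_sum_space h ν t x j).differentiableAt

theorem dt_sumTerms {L : List Term} (h : ∀ τ ∈ L, Term.WF τ) (ν : ℝ) {T t : ℝ} (hT : 0 < T)
    (ht : t ∈ Icc 0 T) (x : T3) :
    dt T (sumTerms ν L) t x = sumTerms ν (L.flatMap Term.dT) t x :=
  (hasDerivAt_sum_time h ν t x).hasDerivWithinAt.derivWithin (uniqueDiffOn_Icc hT t ht)

/-! ### Continuity and smoothness -/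

theorem continuous_per_rep {g : ℝ → ℝ} (hg : Continuous (per g)) :
    Continuous fun y : UnitAddCircle => per g (rep y) := by
  rw [(QuotientAddGroup.isQuotientMap_mk (AddSubgroup.zmultiples (1 : ℝ))).continuous_iff]
  convert hg using 1
  funext s
  exact per_rep g s

theorem continuous_time {τ : Term} (h : Term.WF τ) : ContDiff ℝ ∞ τ.time := by
  unfold Term.time
  refine ContDiff.mul ?_ ?_
  · generalize τ.2.1.1 = l
    induction l with
    | nil => simpa using contDiff_const
    | cons g l ih => simpa using (Bump.contDiff g).mul ih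
  · have h' := h.2.2.1
    revert h'
    generalize τ.2.1.2 = l
    intro h'
    induction l with
    | nil => simpa using contDiff_const
    | cons g l ih =>
      simpa using (Bump.contDiff_per (h' g List.mem_cons_self)).mul
        (ih fun g' hg' => h' g' (List.mem_cons_of_mem _ hg'))

theorem contDiff_prod_per {l : List Bump} (h : ∀ g ∈ l, Bump.WF g) :
    ContDiff ℝ ∞ fun s => (l.map fun g => per (Bump.eval g) s).prod := by
  induction l with
  | nil => simpa using contDiff_const
  | cons g l ih =>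
    simpa using (Bump.contDiff_per (h g List.mem_cons_self)).mul
      (ih fun g' hg' => h g' (List.mem_cons_of_mem _ hg'))

theorem continuous_prod_per_rep {l : List Bump} (h : ∀ g ∈ l, Bump.WF g) :
    Continuous fun y : UnitAddCircle => (l.map fun g => per (Bump.eval g) (rep y)).prod :=
  continuous_list_prod l fun g hg => continuous_per_rep (Bump.contDiff_per (h g hg)).continuous

theorem continuous_eval {τ : Term} (h : Term.WF τ) (ν : ℝ) :
    Continuous fun z : ℝ × T3 => τ.eval ν z.1 z.2 := by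
  unfold Term.eval
  refine (continuous_const.mul ((continuous_time h).continuous.comp continuous_fst)).mul ?_
  refine continuous_finsetProd _ fun i _ => ?_
  exact (continuous_prod_per_rep (h.2.2.2 i)).comp ((continuous_apply i).comp continuous_snd)

theorem contDiff_eval {τ : Term} (h : Term.WF τ) (ν : ℝ) :
    ContDiff ℝ ∞ fun z : ℝ × R3 => τ.eval ν z.1 (proj z.2) := by
  simp only [Term.eval, proj, per_rep]
  refine (contDiff_const.mul ((continuous_time h).comp contDiff_fst)).mul ?_
  refine contDiff_prod fun i _ => ?_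
  exact (contDiff_prod_per (h.2.2.2 i)).comp ((contDiff_apply ℝ ℝ i).comp contDiff_snd)

theorem contOn_sumTerms {L : List Term} (h : ∀ τ ∈ L, Term.WF τ) (ν T : ℝ) :
    ContOn T (sumTerms ν L) :=
  (continuous_list_sum L fun τ hτ => continuous_eval (h τ hτ) ν).continuousOn

theorem contDiff_sumTerms {L : List Term} (h : ∀ τ ∈ L, Term.WF τ) (ν : ℝ) :
    ContDiff ℝ ∞ fun z : ℝ × R3 => sumTerms ν L z.1 (proj z.2) := by
  induction L with
  | nil => simpa [sumTerms] using contDiff_const
  | cons τ L ih =>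
    simp only [sumTerms_cons]
    exact (contDiff_eval (h τ List.mem_cons_self) ν).add
      (ih fun τ' h' => h τ' (List.mem_cons_of_mem _ h'))

theorem flatMap_dX_eq_nil {L : List Term} {i : Fin 3} (h : ∀ τ ∈ L, τ.2.2 i = []) :
    L.flatMap (Term.dX i) = [] := by
  rw [List.flatMap_eq_nil_iff]
  intro τ hτ
  simp [Term.dX, h τ hτ, prodD]

end TermCalc

open TermCalc

theorem heat_solution (ν : ℝ) (U : Fin 3 → List Term) (hwf : ∀ i, ∀ τ ∈ U i, Term.WF τ)
    (hind : ∀ i, ∀ τ ∈ U i, τ.2.2 i = [])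
    (hdisj : ∀ i j, i ≠ j → ∀ τ ∈ U i, ∀ τ' ∈ U j, ∀ t, 0 ≤ t → τ.time t = 0 ∨ τ'.time t = 0)
    (h0 : ∀ i, ∀ τ ∈ U i, τ.time 0 = 0) :
    (∀ i, SmoothOnHalf (sumTerms ν (U i))) ∧ ∀ T, 0 < T →
      IsClassicalOn ν (fun i => sumTerms ν (forceOf (U i))) T (fun i => sumTerms ν (U i))
        (fun _ _ => 0) := by
  refine ⟨fun i => (contDiff_sumTerms (hwf i) ν).contDiffOn, fun T hT => ?_⟩
  have hpd0 : ∀ j, pd j (fun _ : T3 => (0 : ℝ)) = fun _ => 0 := by
    intro j
    funext x
    simp [pd]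
  have hdiag : ∀ i t x, pd i (sumTerms ν (U i) t) x = 0 := by
    intro i t x
    rw [pd_sumTerms (hwf i), flatMap_dX_eq_nil (hind i), sumTerms_nil]
  refine
    { cont_u := fun i => contOn_sumTerms (hwf i) ν T
      diff_t := fun i t _ x =>
        (hasDerivAt_sum_time (hwf i) ν t x).differentiableAt.differentiableWithinAt
      cont_dt := fun i => ?_
      diff_x := fun i j t _ => hasPd_sumTerms (hwf i) ν t j
      cont_dx := fun i j => ?_
      diff_xx := fun i j k t _ => ?_
      cont_dxx := fun i j k => ?_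
      cont_p := continuousOn_const
      diff_p := fun j t _ x => differentiableAt_const _
      cont_dp := fun j => ?_
      mean_p := fun t _ => by simp
      momentum := fun i t ht x => ?_
      div_free := fun t _ x => ?_
      init := fun i x => sumTerms_eq_zero ν (h0 i) x }
  · refine (contOn_sumTerms (flatMap_dT_wf (hwf i)) ν T).congr ?_
    intro z hz
    exact dt_sumTerms (hwf i) ν hT hz.1 z.2
  · simp only [pd_sumTerms (hwf i)]
    exact contOn_sumTerms (flatMap_dX_wf j (hwf i)) ν T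
  · rw [pd_sumTerms (hwf i)]
    exact hasPd_sumTerms (flatMap_dX_wf j (hwf i)) ν t k
  · simp only [pd_sumTerms (hwf i), pd_sumTerms (flatMap_dX_wf j (hwf i))]
    exact contOn_sumTerms (flatMap_dX_wf k (flatMap_dX_wf j (hwf i))) ν T
  · simp only [hpd0]
    exact continuousOn_const
  · have hconv : ∑ j, sumTerms ν (U j) t x * pd j (sumTerms ν (U i) t) x = 0 := by
      refine Finset.sum_eq_zero fun j _ => ?_
      by_cases hij : j = i
      · rw [hij, hdiag, mul_zero]
      · by_cases hall : ∀ τ' ∈ U j, τ'.time t = 0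
        · rw [sumTerms_eq_zero ν hall, zero_mul]
        · push Not at hall
          obtain ⟨τ', hτ', hne⟩ := hall
          rw [pd_sumTerms (hwf i), sumTerms_eq_zero ν (L := (U i).flatMap (Term.dX j)), mul_zero]
          intro τ₁ hτ₁
          obtain ⟨τ, hτ, h1⟩ := List.mem_flatMap.1 hτ₁
          have h2 : τ₁.time t = τ.time t := by
            unfold Term.time
            rw [dX_time h1]
          rw [h2]
          exact (hdisj j i hij τ' hτ' τ hτ t ht.1).resolve_left hne
    have hlap : ∀ j, pd j (pd j (sumTerms ν (U i) t)) x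
        = sumTerms ν (((U i).flatMap (Term.dX j)).flatMap (Term.dX j)) t x := by
      intro j
      rw [pd_sumTerms (hwf i), pd_sumTerms (flatMap_dX_wf j (hwf i))]
    simp only [hlap, hpd0]
    rw [hconv, dt_sumTerms (hwf i) ν hT ht, sumTerms_forceOf]
    ring
  · exact Finset.sum_eq_zero fun j _ => hdiag j t x

theorem heat_wf {τ τ' : Term} (h : Term.WF τ) (h' : τ' ∈ τ.heat) : Term.WF τ' := by
  rcases mem_heat h' with h1 | ⟨j, τ₁, τ₂, h1, h2, rfl⟩
  · exact dT_wf h h1
  · exact (dX_wf (dX_wf h h1) h2 : Term.WF τ₂)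

theorem heat_periodic {τ τ' : Term} (h' : τ' ∈ τ.heat) : τ'.periodic = τ.periodic := by
  rcases mem_heat h' with h1 | ⟨j, τ₁, τ₂, h1, h2, rfl⟩
  · simp only [Term.dT, List.mem_append, List.mem_map] at h1
    rcases h1 with ⟨p, hp, rfl⟩ | ⟨p, _, rfl⟩
    · exact prodD_isEmpty hp
    · rfl
  · show τ₂.2.1.1.isEmpty = τ.2.1.1.isEmpty
    rw [dX_time h2, dX_time h1]

theorem heat_late {τ τ' : Term} (h : τ.Late) (h' : τ' ∈ τ.heat) : τ'.Late := by
  obtain ⟨k, j, a, b, hm, ha, hb⟩ := h
  rcases mem_heat h' with h1 | ⟨i, τ₁, τ₂, h1, h2, rfl⟩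
  · simp only [Term.dT, List.mem_append, List.mem_map] at h1
    rcases h1 with ⟨p, hp, rfl⟩ | ⟨p, _, rfl⟩
    · obtain ⟨k', j', h''⟩ := prodD_late hp hm
      exact ⟨k', j', a, b, h'', ha, hb⟩
    · exact ⟨k, j, a, b, hm, ha, hb⟩
  · refine ⟨k, j, a, b, ?_, ha, hb⟩
    show _ ∈ τ₂.2.1.1
    rw [dX_time h2, dX_time h1]
    exact hm

theorem Term.Late.eval_eq_zero {τ : Term} (h : τ.Late) (ν : ℝ) {t : ℝ} (ht : 1 ≤ t) (x : T3) :
    τ.eval ν t x = 0 := by
  obtain ⟨k, j, a, b, hm, ha, hb⟩ := h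
  have ha' : (0 : ℝ) < a := by exact_mod_cast ha
  have hb' : (b : ℝ) + 1 < a := by exact_mod_cast hb
  have h1 : Bump.eval (Sum.inl (k, j, a, b)) t = 0 := by
    have h2 : 1 < (a : ℝ) * t - b := by nlinarith
    simp only [Bump.eval]
    rw [iteratedDeriv_rho_eq_zero j (h2.trans_le (le_abs_self _)), mul_zero]
  have h3 : (τ.2.1.1.map fun g => Bump.eval g t).prod = 0 :=
    List.prod_eq_zero (List.mem_map.2 ⟨_, hm, h1⟩)
  simp only [Term.eval, Term.time, h3, zero_mul, mul_zero]

end Vale.Agent.N113
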