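import Mathlib

/-!
Uniqueness of classical solutions of the forced Navier-Stokes system on the flat three-torus
(energy estimate and Gronwall argument).
-/

open MeasureTheory Set Filter Topology

namespace Vale.Agent.N113.Uniq

/-- The flat torus. -/
abbrev T3 := Fin 3 → UnitAddCircle

/-- `g'` is the partial derivative of `g` in the direction `i`, at every point. -/
def IsPD (i : Fin 3) (g g' : T3 → ℝ) : Prop :=
  ∀ x, HasDerivAt (fun s : ℝ => g (x + Pi.single i (s : UnitAddCircle))) (g' x) 0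

lemma single_coe_add (i : Fin 3) (a b : ℝ) :
    (Pi.single i ((a + b : ℝ) : UnitAddCircle) : T3) =
      Pi.single i (a : UnitAddCircle) + Pi.single i (b : UnitAddCircle) := by
  rw [← Pi.single_add]
  rfl

lemma single_coe_zero (i : Fin 3) : (Pi.single i ((0 : ℝ) : UnitAddCircle) : T3) = 0 := by
  simp

lemma continuous_single (i : Fin 3) :
    Continuous fun s : ℝ => (Pi.single i (s : UnitAddCircle) : T3) := by
  refine continuous_pi fun j => ?_
  by_cases h : j = i
  · subst h
    simp only [Pi.single_eq_same]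
    exact QuotientAddGroup.continuous_mk
  · simp only [Pi.single_eq_of_ne h]
    exact continuous_const

lemma IsPD.hasDerivAt {i : Fin 3} {g g' : T3 → ℝ} (h : IsPD i g g') (x : T3) (s₀ : ℝ) :
    HasDerivAt (fun s : ℝ => g (x + Pi.single i (s : UnitAddCircle)))
      (g' (x + Pi.single i (s₀ : UnitAddCircle))) s₀ := by
  have h1 := h (x + Pi.single i (s₀ : UnitAddCircle))
  have h2 : HasDerivAt (fun s : ℝ => s - s₀) 1 s₀ := (hasDerivAt_id s₀).sub_const s₀
  have h3 := HasDerivAt.comp_of_eq s₀ h1 h2 (by simp)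
  simp only [mul_one] at h3
  refine h3.congr_of_eventuallyEq (Eventually.of_forall fun s => ?_)
  simp only [Function.comp]
  rw [add_assoc, ← single_coe_add]
  congr 4
  ring

lemma IsPD.add {i : Fin 3} {g g' h h' : T3 → ℝ} (hg : IsPD i g g') (hh : IsPD i h h') :
    IsPD i (fun x => g x + h x) (fun x => g' x + h' x) := fun x => (hg x).add (hh x)

lemma IsPD.sub {i : Fin 3} {g g' h h' : T3 → ℝ} (hg : IsPD i g g') (hh : IsPD i h h') :
    IsPD i (fun x => g x - h x) (fun x => g' x - h' x) := fun x => (hg x).sub (hh x)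

lemma IsPD.mul {i : Fin 3} {g g' h h' : T3 → ℝ} (hg : IsPD i g g') (hh : IsPD i h h') :
    IsPD i (fun x => g x * h x) (fun x => g' x * h x + g x * h' x) := fun x => by
  have := (hg x).fun_mul (hh x)
  simpa only [single_coe_zero, add_zero] using this

lemma IsPD.const_mul {i : Fin 3} {g g' : T3 → ℝ} (c : ℝ) (hg : IsPD i g g') :
    IsPD i (fun x => c * g x) (fun x => c * g' x) := fun x => (hg x).const_mul c

lemma IsPD.sum {i : Fin 3} {g g' : Fin 3 → T3 → ℝ} (hg : ∀ k, IsPD i (g k) (g' k)) :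
    IsPD i (fun x => ∑ k, g k x) (fun x => ∑ k, g' k x) := fun x =>
  HasDerivAt.fun_sum fun k _ => hg k x

lemma IsPD.unique {i : Fin 3} {g g' g'' : T3 → ℝ} (h1 : IsPD i g g') (h2 : IsPD i g g'') :
    g' = g'' := funext fun x => (h1 x).unique (h2 x)

lemma integrable_of_continuous {g : T3 → ℝ} (hg : Continuous g) : Integrable g :=
  hg.integrable_of_hasCompactSupport (HasCompactSupport.of_compactSpace g)

/-- Integration by parts on the torus: the mean of a partial derivative vanishes. -/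
lemma IsPD.integral_eq_zero {i : Fin 3} {g g' : T3 → ℝ} (h : IsPD i g g') (hg : Continuous g)
    (hg' : Continuous g') : ∫ x, g' x = 0 := by
  obtain ⟨C, hC⟩ : ∃ C, ∀ x, ‖g' x‖ ≤ C := by
    obtain ⟨C, hC⟩ := isCompact_univ.exists_bound_of_continuousOn hg'.continuousOn
    exact ⟨C, fun x => hC x (mem_univ x)⟩
  have hc : ∀ {g : T3 → ℝ}, Continuous g → ∀ a : T3, Continuous fun x => g (x + a) :=
    fun hg a => hg.comp (continuous_add_const a)
  have key := hasDerivAt_integral_of_dominated_loc_of_deriv_le (μ := (volume : Measure T3))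
    (F := fun (s : ℝ) (x : T3) => g (x + Pi.single i (s : UnitAddCircle)))
    (F' := fun (s : ℝ) (x : T3) => g' (x + Pi.single i (s : UnitAddCircle)))
    (x₀ := (0 : ℝ)) (s := univ) (bound := fun _ => C) univ_mem
    (Eventually.of_forall fun s => (hc hg _).aestronglyMeasurable)
    (integrable_of_continuous (hc hg _))
    (hc hg' _).aestronglyMeasurable
    (Eventually.of_forall fun x s _ => hC _) (integrable_const C)
    (Eventually.of_forall fun x s _ => h.hasDerivAt x s)
  have h2 : (fun s : ℝ => ∫ x : T3, g (x + Pi.single i (s : UnitAddCircle))) =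
      fun _ => ∫ x, g x := by
    funext s
    exact integral_add_right_eq_self g _
  have h3 := key.2
  rw [h2] at h3
  have h4 := h3.unique (hasDerivAt_const (0 : ℝ) (∫ x, g x))
  simpa using h4

/-- A function all of whose partial derivatives vanish is constant. -/
lemma const_of_pd_zero {g : T3 → ℝ} (h : ∀ i, IsPD i g (fun _ => 0)) (x : T3) : g x = g 0 := by
  have h1 : ∀ i (y : T3) (s : ℝ), g (y + Pi.single i (s : UnitAddCircle)) = g y := by
    intro i y s
    have hd : ∀ s₀ : ℝ, HasDerivAt (fun s : ℝ => g (y + Pi.single i (s : UnitAddCircle))) 0 s₀ :=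
      fun s₀ => (h i).hasDerivAt y s₀
    have := is_const_of_deriv_eq_zero (fun s₀ => (hd s₀).differentiableAt)
      (fun s₀ => (hd s₀).deriv) s 0
    simpa using this
  have h2 : ∀ i (y : T3) (a : UnitAddCircle), g (y + Pi.single i a) = g y := by
    intro i y a
    obtain ⟨s, rfl⟩ := QuotientAddGroup.mk_surjective a
    exact h1 i y s
  have hx : x = (0 : T3) + (Pi.single 0 (x 0) : T3) + (Pi.single 1 (x 1) : T3)
      + (Pi.single 2 (x 2) : T3) := by
    funext j
    fin_cases j <;> simp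
  rw [hx, h2, h2, h2]

/-- Classical solution on `[0,T]`, with all derivatives given as explicit data:
`ut` is the time derivative, `ux j` the derivative in direction `j`, `uxx j` the pure second
derivative in direction `j`, `px k` the derivative of the pressure in direction `k`. -/
structure Cl (ν T : ℝ) (f u : ℝ → T3 → Fin 3 → ℝ) (p : ℝ → T3 → ℝ) (ut : ℝ → T3 → Fin 3 → ℝ)
    (ux uxx : Fin 3 → ℝ → T3 → Fin 3 → ℝ) (px : Fin 3 → ℝ → T3 → ℝ) : Prop where
  dt : ∀ t ∈ Icc 0 T, ∀ x k, HasDerivWithinAt (fun s => u s x k) (ut t x k) (Icc 0 T) t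
  dx : ∀ t ∈ Icc 0 T, ∀ j k, IsPD j (fun x => u t x k) (fun x => ux j t x k)
  dxx : ∀ t ∈ Icc 0 T, ∀ j k, IsPD j (fun x => ux j t x k) (fun x => uxx j t x k)
  dp : ∀ t ∈ Icc 0 T, ∀ k, IsPD k (p t) (px k t)
  cu : ∀ k, ContinuousOn (fun z : ℝ × T3 => u z.1 z.2 k) (Icc 0 T ×ˢ univ)
  cut : ∀ k, ContinuousOn (fun z : ℝ × T3 => ut z.1 z.2 k) (Icc 0 T ×ˢ univ)
  cux : ∀ j k, ContinuousOn (fun z : ℝ × T3 => ux j z.1 z.2 k) (Icc 0 T ×ˢ univ)
  cuxx : ∀ t ∈ Icc 0 T, ∀ j k, Continuous fun x => uxx j t x k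
  cp : ∀ t ∈ Icc 0 T, Continuous (p t)
  cpx : ∀ t ∈ Icc 0 T, ∀ k, Continuous (px k t)
  eqn : ∀ t ∈ Icc 0 T, ∀ x k, ut t x k + ∑ j, u t x j * ux j t x k =
    - px k t x + ν * ∑ j, uxx j t x k + f t x k
  div : ∀ t ∈ Icc 0 T, ∀ x, ∑ j, ux j t x j = 0
  init : ∀ x k, u 0 x k = 0
  mean : ∀ t ∈ Icc 0 T, ∫ x, p t x = 0

lemma cont_slice {T : ℝ} {g : ℝ × T3 → ℝ} (hg : ContinuousOn g (Icc 0 T ×ˢ univ)) {t : ℝ}
    (ht : t ∈ Icc 0 T) : Continuous fun x => g (t, x) :=
  hg.comp_continuous (Continuous.prodMk_right t) fun x => ⟨ht, mem_univ x⟩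

lemma bound_of_contOn {T : ℝ} {g : ℝ × T3 → ℝ} (hg : ContinuousOn g (Icc 0 T ×ˢ univ)) :
    ∃ C, ∀ t ∈ Icc 0 T, ∀ x, |g (t, x)| ≤ C := by
  obtain ⟨C, hC⟩ := (isCompact_Icc.prod isCompact_univ).exists_bound_of_continuousOn hg
  exact ⟨C, fun t ht x => hC (t, x) ⟨ht, mem_univ x⟩⟩

lemma contOn_integral {T : ℝ} {g : ℝ × T3 → ℝ} (hg : ContinuousOn g (Icc 0 T ×ˢ univ)) :
    ContinuousOn (fun t => ∫ x, g (t, x)) (Icc 0 T) := by
  rw [continuousOn_iff_continuous_domRestrict]
  have h1 : Continuous (Function.uncurry fun (t : Icc 0 T) (x : T3) => g (t.1, x)) :=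
    hg.comp_continuous (by fun_prop) fun z => ⟨z.1.2, mem_univ _⟩
  have h2 := continuous_parametric_integral_of_continuous (μ := (volume : Measure T3)) h1
    isCompact_univ
  simp only [Measure.restrict_univ] at h2
  exact h2

lemma hasDerivAt_integral {T : ℝ} {g g' : ℝ × T3 → ℝ} (hg : ContinuousOn g (Icc 0 T ×ˢ univ))
    (hg' : ContinuousOn g' (Icc 0 T ×ˢ univ))
    (hd : ∀ t ∈ Icc 0 T, ∀ x, HasDerivWithinAt (fun s => g (s, x)) (g' (t, x)) (Icc 0 T) t)
    {t : ℝ} (ht : t ∈ Ioo 0 T) :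
    HasDerivAt (fun s => ∫ x, g (s, x)) (∫ x, g' (t, x)) t := by
  obtain ⟨C, hC⟩ := bound_of_contOn hg'
  have hn : Ioo 0 T ∈ 𝓝 t := isOpen_Ioo.mem_nhds ht
  exact (hasDerivAt_integral_of_dominated_loc_of_deriv_le (μ := (volume : Measure T3))
    (F := fun s x => g (s, x)) (F' := fun s x => g' (s, x)) (x₀ := t) (s := Ioo 0 T)
    (bound := fun _ => C) hn
    (Filter.mem_of_superset hn fun s hs =>
      (cont_slice hg (Ioo_subset_Icc_self hs)).aestronglyMeasurable)
    (integrable_of_continuous (cont_slice hg (Ioo_subset_Icc_self ht)))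
    (cont_slice hg' (Ioo_subset_Icc_self ht)).aestronglyMeasurable
    (Eventually.of_forall fun x s hs => hC s (Ioo_subset_Icc_self hs) x) (integrable_const C)
    (Eventually.of_forall fun x s hs =>
      (hd s (Ioo_subset_Icc_self hs) x).hasDerivAt (Icc_mem_nhds hs.1 hs.2))).2

/-- The pointwise algebraic inequality behind the energy estimate. -/
lemma quad_bound {w : Fin 3 → ℝ} {a : Fin 3 → Fin 3 → ℝ} {C : ℝ} (ha : ∀ j k, |a j k| ≤ C) :
    - ∑ k, w k * ∑ j, w j * a j k ≤ 3 * C * ∑ k, w k * w k := by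
  have h : ∀ j k, -(w k * (w j * a j k)) ≤ C * (w k * w k + w j * w j) / 2 := by
    intro j k
    have h1 := abs_le.1 (ha j k)
    nlinarith [mul_nonneg (sub_nonneg.2 h1.2) (sq_nonneg (w k - w j)),
      mul_nonneg (sub_nonneg.2 h1.1) (sq_nonneg (w k + w j))]
  simp only [Fin.sum_univ_three]
  nlinarith [h 0 0, h 0 1, h 0 2, h 1 0, h 1 1, h 1 2, h 2 0, h 2 1, h 2 2]

section main

variable {ν T : ℝ} {f u v : ℝ → T3 → Fin 3 → ℝ} {p q : ℝ → T3 → ℝ}
  {ut vt : ℝ → T3 → Fin 3 → ℝ} {ux uxx vx vxx : Fin 3 → ℝ → T3 → Fin 3 → ℝ}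
  {px qx : Fin 3 → ℝ → T3 → ℝ}

/-- The energy inequality at a fixed time. -/
lemma energy_ineq (hν : 0 ≤ ν) (hu : Cl ν T f u p ut ux uxx px) (hv : Cl ν T f v q vt vx vxx qx)
    {C : ℝ} {t : ℝ} (ht : t ∈ Icc 0 T) (hC : ∀ x j k, |ux j t x k| ≤ C) :
    ∫ x, ∑ k, (u t x k - v t x k) * (ut t x k - vt t x k) ≤
      3 * C * ∫ x, ∑ k, (u t x k - v t x k) * (u t x k - v t x k) := by
  have cu := fun k => cont_slice (hu.cu k) ht
  have cv := fun k => cont_slice (hv.cu k) ht
  have cut := fun k => cont_slice (hu.cut k) ht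
  have cvt := fun k => cont_slice (hv.cut k) ht
  have cux := fun j k => cont_slice (hu.cux j k) ht
  have cvx := fun j k => cont_slice (hv.cux j k) ht
  have cuxx := hu.cuxx t ht
  have cvxx := hv.cuxx t ht
  have cp := hu.cp t ht
  have cq := hv.cp t ht
  have cpx := hu.cpx t ht
  have cqx := hv.cpx t ht
  simp only at cu cv cut cvt cux cvx
  set w : T3 → Fin 3 → ℝ := fun x k => u t x k - v t x k with hw
  set wx : Fin 3 → T3 → Fin 3 → ℝ := fun j x k => ux j t x k - vx j t x k with hwx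
  set wxx : Fin 3 → T3 → Fin 3 → ℝ := fun j x k => uxx j t x k - vxx j t x k with hwxx
  set r : T3 → ℝ := fun x => p t x - q t x with hr
  set rx : Fin 3 → T3 → ℝ := fun k x => px k t x - qx k t x with hrx
  have cw : ∀ k, Continuous fun x => w x k := fun k => (cu k).sub (cv k)
  have cwx : ∀ j k, Continuous fun x => wx j x k := fun j k => (cux j k).sub (cvx j k)
  have cwxx : ∀ j k, Continuous fun x => wxx j x k := fun j k => (cuxx j k).sub (cvxx j k)
  have cr : Continuous r := cp.sub cq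
  have crx : ∀ k, Continuous (rx k) := fun k => (cpx k).sub (cqx k)
  have dw : ∀ j k, IsPD j (fun x => w x k) (fun x => wx j x k) :=
    fun j k => (hu.dx t ht j k).sub (hv.dx t ht j k)
  have dwx : ∀ j k, IsPD j (fun x => wx j x k) (fun x => wxx j x k) :=
    fun j k => (hu.dxx t ht j k).sub (hv.dxx t ht j k)
  have dr : ∀ k, IsPD k r (rx k) := fun k => (hu.dp t ht k).sub (hv.dp t ht k)
  -- the flux and its derivative
  set G : Fin 3 → T3 → ℝ := fun j x =>
    (-(1 / 2) : ℝ) * (v t x j * ∑ k, w x k * w x k) - w x j * r x + ν * ∑ k, w x k * wx j x k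
    with hG
  set G' : Fin 3 → T3 → ℝ := fun j x =>
    (-(1 / 2) : ℝ) * (vx j t x j * ∑ k, w x k * w x k
        + v t x j * ∑ k, (wx j x k * w x k + w x k * wx j x k))
      - (wx j x j * r x + w x j * rx j x)
      + ν * ∑ k, (wx j x k * wx j x k + w x k * wxx j x k) with hG'
  have dG : ∀ j, IsPD j (G j) (G' j) := fun j =>
    ((((hv.dx t ht j j).mul (IsPD.sum fun k => (dw j k).mul (dw j k))).const_mul _).sub
      ((dw j j).mul (dr j))).add ((IsPD.sum fun k => (dw j k).mul (dwx j k)).const_mul ν)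
  have cG : ∀ j, Continuous (G j) := fun j => by
    simp only [hG]
    have := cv j
    have := cwx j
    fun_prop
  have cG' : ∀ j, Continuous (G' j) := fun j => by
    simp only [hG']
    have := cv j
    have := cvx j j
    have := cwx j
    have := cwxx j
    have := crx j
    fun_prop
  have iG : ∀ j, ∫ x, G' j x = 0 := fun j => (dG j).integral_eq_zero (cG j) (cG' j)
  have hpt : ∀ x, ∑ k, w x k * (ut t x k - vt t x k) ≤
      3 * C * ∑ k, w x k * w x k + ∑ j, G' j x := by
    intro x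
    have e1 : ∀ k, ut t x k - vt t x k = - ∑ j, w x j * ux j t x k - ∑ j, v t x j * wx j x k
        - rx k x + ν * ∑ j, wxx j x k := by
      intro k
      have a1 := hu.eqn t ht x k
      have a2 := hv.eqn t ht x k
      simp only [hw, hwx, hwxx, hrx, Fin.sum_univ_three] at a1 a2 ⊢
      linarith
    have d1 := hv.div t ht x
    have d2 : ∑ j, wx j x j = 0 := by
      simp only [hwx, Finset.sum_sub_distrib, hu.div t ht x, d1, sub_zero]
    have q1 := quad_bound (w := w x) (a := fun j k => ux j t x k) (hC x)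
    have e2 : ∑ k, w x k * (ut t x k - vt t x k) = - ∑ k, w x k * ∑ j, w x j * ux j t x k
        + ∑ j, G' j x - ν * ∑ j, ∑ k, wx j x k * wx j x k := by
      simp only [e1, hG']
      simp only [Fin.sum_univ_three] at d1 d2 ⊢
      linear_combination (1 / 2 : ℝ) * (w x 0 * w x 0 + w x 1 * w x 1 + w x 2 * w x 2) * d1
        + r x * d2
    have q2 : 0 ≤ ν * ∑ j, ∑ k, wx j x k * wx j x k :=
      mul_nonneg hν (Finset.sum_nonneg fun j _ => Finset.sum_nonneg fun k _ => mul_self_nonneg _)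
    linarith
  have i1 : Integrable fun x => ∑ k, w x k * (ut t x k - vt t x k) :=
    integrable_of_continuous (by fun_prop)
  have i2 : Integrable fun x => ∑ k, w x k * w x k := integrable_of_continuous (by fun_prop)
  have i3 : ∀ j, Integrable (G' j) := fun j => integrable_of_continuous (cG' j)
  calc ∫ x, ∑ k, w x k * (ut t x k - vt t x k)
      ≤ ∫ x, (3 * C * ∑ k, w x k * w x k + ∑ j, G' j x) :=
        integral_mono i1 ((i2.const_mul _).add (integrable_finsetSum _ fun j _ => i3 j)) hpt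
    _ = 3 * C * ∫ x, ∑ k, w x k * w x k := by
        rw [integral_add (i2.const_mul _) (integrable_finsetSum _ fun j _ => i3 j),
          integral_finsetSum _ fun j _ => i3 j, integral_const_mul]
        simp [iG]

/-- Uniqueness of the velocity. -/
theorem velocity_unique (hν : 0 ≤ ν) (hu : Cl ν T f u p ut ux uxx px)
    (hv : Cl ν T f v q vt vx vxx qx) {t : ℝ} (ht : t ∈ Icc 0 T) : u t = v t := by
  obtain ⟨C, hC⟩ : ∃ C, ∀ s ∈ Icc 0 T, ∀ x j k, |ux j s x k| ≤ C := by
    choose C hC using fun j k => bound_of_contOn (hu.cux j k)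
    refine ⟨∑ j, ∑ k, |C j k|, fun s hs x j k => (hC j k s hs x).trans ((le_abs_self _).trans ?_)⟩
    calc |C j k| ≤ ∑ k, |C j k| :=
          Finset.single_le_sum (f := fun k => |C j k|) (fun _ _ => abs_nonneg _) (Finset.mem_univ k)
      _ ≤ ∑ j, ∑ k, |C j k| :=
          Finset.single_le_sum (f := fun j => ∑ k, |C j k|)
            (fun _ _ => Finset.sum_nonneg fun _ _ => abs_nonneg _) (Finset.mem_univ j)
  set g : ℝ × T3 → ℝ := fun z => ∑ k, (u z.1 z.2 k - v z.1 z.2 k) * (u z.1 z.2 k - v z.1 z.2 k)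
    with hg
  set g' : ℝ × T3 → ℝ := fun z =>
    2 * ∑ k, (u z.1 z.2 k - v z.1 z.2 k) * (ut z.1 z.2 k - vt z.1 z.2 k) with hg'
  have cg : ContinuousOn g (Icc 0 T ×ˢ univ) :=
    continuousOn_finsetSum _ fun k _ => ((hu.cu k).sub (hv.cu k)).mul ((hu.cu k).sub (hv.cu k))
  have cg' : ContinuousOn g' (Icc 0 T ×ˢ univ) :=
    continuousOn_const.mul (continuousOn_finsetSum _ fun k _ =>
      ((hu.cu k).sub (hv.cu k)).mul ((hu.cut k).sub (hv.cut k)))
  have dg : ∀ s ∈ Icc 0 T, ∀ x, HasDerivWithinAt (fun s => g (s, x)) (g' (s, x)) (Icc 0 T) s := by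
    intro s hs x
    have h1 := fun k => (hu.dt s hs x k).fun_sub (hv.dt s hs x k)
    have h2 := HasDerivWithinAt.fun_sum (u := Finset.univ) fun k _ => (h1 k).fun_mul (h1 k)
    refine h2.congr_deriv ?_
    simp only [hg', Finset.mul_sum]
    refine Finset.sum_congr rfl fun k _ => ?_
    ring
  set E : ℝ → ℝ := fun s => ∫ x, g (s, x) with hE
  have cE : ContinuousOn E (Icc 0 T) := contOn_integral cg
  have dE : ∀ s ∈ Ioo 0 T, HasDerivAt E (∫ x, g' (s, x)) s :=
    fun s hs => hasDerivAt_integral cg cg' dg hs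
  have bE : ∀ s ∈ Ioo 0 T, ∫ x, g' (s, x) ≤ 6 * C * E s := by
    intro s hs
    have := energy_ineq hν hu hv (Ioo_subset_Icc_self hs) (hC s (Ioo_subset_Icc_self hs))
    simp only [hg', hE, hg, integral_const_mul]
    linarith
  have dφ : ∀ s ∈ Ioo 0 T, HasDerivAt (fun s => E s * Real.exp (-(6 * C) * s))
      ((∫ x, g' (s, x)) * Real.exp (-(6 * C) * s)
        + E s * (Real.exp (-(6 * C) * s) * (-(6 * C)))) s := by
    intro s hs
    have h1 : HasDerivAt (fun s => -(6 * C) * s) (-(6 * C)) s := by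
      simpa using (hasDerivAt_id s).const_mul (-(6 * C))
    exact (dE s hs).fun_mul h1.exp
  have anti : AntitoneOn (fun s => E s * Real.exp (-(6 * C) * s)) (Icc 0 T) := by
    refine antitoneOn_of_deriv_nonpos (convex_Icc 0 T) (cE.mul (by fun_prop)) ?_ ?_
    · rw [interior_Icc]
      exact fun s hs => (dφ s hs).differentiableAt.differentiableWithinAt
    · rw [interior_Icc]
      intro s hs
      rw [(dφ s hs).deriv]
      have := bE s hs
      nlinarith [Real.exp_pos (-(6 * C) * s)]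
  have E0 : E 0 = 0 := by simp [hE, hg, hu.init, hv.init]
  have h0 : (0 : ℝ) ∈ Icc 0 T := ⟨le_rfl, ht.1.trans ht.2⟩
  have hle := anti h0 ht ht.1
  simp only [E0, zero_mul] at hle
  have gnn : ∀ x, 0 ≤ g (t, x) := fun x => Finset.sum_nonneg fun k _ => mul_self_nonneg _
  have Enn : 0 ≤ E t := integral_nonneg gnn
  have Et : E t = 0 := by
    have := Real.exp_pos (-(6 * C) * t)
    nlinarith
  have cgt := cont_slice cg ht
  have hae := (integral_eq_zero_iff_of_nonneg gnn (integrable_of_continuous cgt)).1 Et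
  have hz := (Continuous.ae_eq_iff_eq volume cgt continuous_const).1 hae
  funext x k
  have hx : g (t, x) = 0 := congrFun hz x
  have := (Finset.sum_eq_zero_iff_of_nonneg fun k _ => mul_self_nonneg _).1 hx k
    (Finset.mem_univ k)
  exact sub_eq_zero.1 (mul_self_eq_zero.1 this)

/-- Uniqueness of the pressure. -/
theorem pressure_unique (hν : 0 ≤ ν) (hT : 0 < T) (hu : Cl ν T f u p ut ux uxx px)
    (hv : Cl ν T f v q vt vx vxx qx) {t : ℝ} (ht : t ∈ Icc 0 T) : p t = q t := by
  have huv : ∀ s ∈ Icc 0 T, u s = v s := fun s hs => velocity_unique hν hu hv hs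
  have e1 : ∀ x k, ut t x k = vt t x k := by
    intro x k
    have h1 := hu.dt t ht x k
    have h2 : HasDerivWithinAt (fun s => u s x k) (vt t x k) (Icc 0 T) t :=
      (hv.dt t ht x k).congr (fun s hs => by rw [huv s hs]) (by rw [huv t ht])
    exact (uniqueDiffOn_Icc hT t ht).eq_deriv _ h1 h2
  have e2 : ∀ j k, (fun x => ux j t x k) = fun x => vx j t x k := by
    intro j k
    have h1 := hu.dx t ht j k
    rw [huv t ht] at h1
    exact h1.unique (hv.dx t ht j k)
  have e3 : ∀ j k, (fun x => uxx j t x k) = fun x => vxx j t x k := by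
    intro j k
    have h1 := hu.dxx t ht j k
    rw [e2 j k] at h1
    exact h1.unique (hv.dxx t ht j k)
  have e4 : ∀ k x, px k t x = qx k t x := by
    intro k x
    have a1 := hu.eqn t ht x k
    have a2 := hv.eqn t ht x k
    have b2 : ∀ j, ux j t x k = vx j t x k := fun j => congrFun (e2 j k) x
    have b3 : ∀ j, uxx j t x k = vxx j t x k := fun j => congrFun (e3 j k) x
    simp only [e1, huv t ht, b2, b3] at a1
    linarith
  have d0 : ∀ k, IsPD k (fun x => p t x - q t x) (fun _ => 0) := by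
    intro k
    have := (hu.dp t ht k).sub (hv.dp t ht k)
    simpa only [e4, sub_self] using this
  have hc := const_of_pd_zero d0
  have hi : ∫ x, (p t x - q t x) = 0 := by
    rw [integral_sub (integrable_of_continuous (hu.cp t ht))
      (integrable_of_continuous (hv.cp t ht)), hu.mean t ht, hv.mean t ht, sub_zero]
  have hz : p t 0 - q t 0 = 0 := by
    simp only [hc] at hi
    have hv1 : (volume : Measure T3).real univ ≠ 0 :=
      (ENNReal.toReal_pos (isOpen_univ.measure_ne_zero volume univ_nonempty)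
        (measure_ne_top _ _)).ne'
    rw [integral_const, smul_eq_mul] at hi
    exact (mul_eq_zero.1 hi).resolve_left hv1
  funext x
  have := hc x
  linarith

end main

end Vale.Agent.N113.Uniq
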