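import Vale.Agent.N113.Defs
import Vale.Agent.N113.Uniq

/-!
Uniqueness of classical solutions, for the notion `IsClassicalOn`.
-/

open MeasureTheory Set

namespace Vale.Agent.N113

lemma HasPd.isPD {i : Fin 3} {F : T3 → ℝ} (h : HasPd i F) : Uniq.IsPD i F (pd i F) :=
  fun x => (h x).hasDerivAt

lemma IsClassicalOn.cl {ν T : ℝ} {f u : Fin 3 → ℝ → T3 → ℝ} {p : ℝ → T3 → ℝ}
    (h : IsClassicalOn ν f T u p) :
    Uniq.Cl ν T (fun t x k => f k t x) (fun t x k => u k t x) p (fun t x k => dt T (u k) t x)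
      (fun j t x k => pd j (u k t) x) (fun j t x k => pd j (pd j (u k t)) x)
      (fun k t x => pd k (p t) x) where
  dt := fun t ht x k => (h.diff_t k t ht x).hasDerivWithinAt
  dx := fun t ht j k => (h.diff_x k j t ht).isPD
  dxx := fun t ht j k => (h.diff_xx k j j t ht).isPD
  dp := fun t ht k => (h.diff_p k t ht).isPD
  cu := h.cont_u
  cut := h.cont_dt
  cux := fun j k => h.cont_dx k j
  cuxx := fun _ ht j k => Uniq.cont_slice (h.cont_dxx k j j) ht
  cp := fun _ ht => Uniq.cont_slice h.cont_p ht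
  cpx := fun _ ht k => Uniq.cont_slice (h.cont_dp k) ht
  eqn := fun t ht x k => h.momentum k t ht x
  div := h.div_free
  init := fun x k => h.init k x
  mean := h.mean_p

/-- Two classical solutions on `[0,T]` with the same force coincide. -/
theorem IsClassicalOn.unique {ν T : ℝ} {f u v : Fin 3 → ℝ → T3 → ℝ} {p q : ℝ → T3 → ℝ}
    (hν : 0 ≤ ν) (hT : 0 < T) (hu : IsClassicalOn ν f T u p) (hv : IsClassicalOn ν f T v q) :
    ∀ t ∈ Icc 0 T, ∀ x, (∀ i, v i t x = u i t x) ∧ q t x = p t x := fun _ ht x =>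
  ⟨fun i => congrFun (congrFun (Uniq.velocity_unique hν hv.cl hu.cl ht) x) i,
    congrFun (Uniq.pressure_unique hν hT hv.cl hu.cl ht) x⟩

theorem classical_unique {ν T : ℝ} (hν : 0 ≤ ν) (hT : 0 < T) {f u v : Fin 3 → ℝ → T3 → ℝ}
    {p q : ℝ → T3 → ℝ} (hu : IsClassicalOn ν f T u p) (hv : IsClassicalOn ν f T v q) :
    ∀ t ∈ Icc 0 T, ∀ x, (∀ i, v i t x = u i t x) ∧ q t x = p t x :=
  IsClassicalOn.unique hν hT hu hv

end Vale.Agent.N113
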