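import Vale.Agent.N113.Flow
import Vale.Agent.N113.TermCalc
import Vale.Agent.N113.Sim
import Vale.Agent.N113.UniqMain
import Vale.Agent.N113.FC
import Vale.Agent.N113.CompPrim

/-!
# P113: assembling the proof
-/

namespace Vale.Agent.N113

open Set

/-- The positions of the particle at the ends of the time slots. -/
noncomputable def posK (ν : ℝ) (N A : ℕ) (R : List Rule) (Hs : List ℕ) (x₀ y₀ : ℚ) : ℕ → R3
  | 0 => 0
  | k + 1 => posK ν N A R Hs x₀ y₀ k +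
      Pi.single (dirK k) (dispK ν N A R Hs x₀ y₀ k (proj (posK ν N A R Hs x₀ y₀ k)))

theorem vec_add0 (x y z h : ℝ) : (![x, y, z] : R3) + Pi.single 0 h = ![x + h, y, z] := by
  ext i; fin_cases i <;> simp

theorem vec_add1 (x y z h : ℝ) : (![x, y, z] : R3) + Pi.single 1 h = ![x, y + h, z] := by
  ext i; fin_cases i <;> simp

theorem vec_add2 (x y z h : ℝ) : (![x, y, z] : R3) + Pi.single 2 h = ![x, y, z + h] := by
  ext i; fin_cases i <;> simp

section Pos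
variable (ν : ℝ) {n N A : ℕ} {R : List Rule} {Hs : List ℕ} (x₀ y₀ : ℚ)

theorem posK_succ (k : ℕ) : posK ν N A R Hs x₀ y₀ (k + 1) = posK ν N A R Hs x₀ y₀ k +
    Pi.single (dirK k) (dispK ν N A R Hs x₀ y₀ k (proj (posK ν N A R Hs x₀ y₀ k))) := rfl

theorem posK_zero : posK ν N A R Hs x₀ y₀ 0 = ![0, 0, 0] := by
  ext i; fin_cases i <;> simp [posK]

theorem posK_one : posK ν N A R Hs x₀ y₀ 1 = ![(x₀ : ℝ), 0, 0] := by
  rw [posK_succ, posK_zero]
  simp only [dirK, dispK, if_true, vec_add0, zero_add]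

theorem posK_two : posK ν N A R Hs x₀ y₀ 2 = ![(x₀ : ℝ), (y₀ : ℝ), 0] := by
  rw [posK_succ, posK_one]
  simp only [dirK, dispK, if_true, one_ne_zero, if_false, vec_add1, zero_add]

theorem posK_s2 (m : ℕ) {x y z : ℝ} (h : posK ν N A R Hs x₀ y₀ (8 * m + 2) = ![x, y, z]) :
    posK ν N A R Hs x₀ y₀ (8 * m + 3)
      = ![x, y, z + spaceSum ν (L2 N A R Hs) (proj ![x, y, z])] := by
  rw [show 8 * m + 3 = (8 * m + 2) + 1 by ring, posK_succ, h, dirK, dispK,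
    if_neg (by omega), if_neg (by omega), if_neg (by omega), if_neg (by omega),
    if_neg (by omega), if_neg (by omega), if_neg (by omega), if_neg (by omega),
    if_pos (by omega), vec_add2]

theorem posK_s3 (m : ℕ) {x y z : ℝ} (h : posK ν N A R Hs x₀ y₀ (8 * m + 3) = ![x, y, z]) :
    posK ν N A R Hs x₀ y₀ (8 * m + 4)
      = ![x + spaceSum ν (R.flatMap (move2 N A)) (proj ![x, y, z]), y, z] := by
  rw [show 8 * m + 4 = (8 * m + 3) + 1 by ring, posK_succ, h, dirK, dispK,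
    if_neg (by omega), if_neg (by omega), if_pos (by omega), if_neg (by omega),
    if_neg (by omega), if_pos (by omega), vec_add0]

theorem posK_s4 (m : ℕ) {x y z : ℝ} (h : posK ν N A R Hs x₀ y₀ (8 * m + 4) = ![x, y, z]) :
    posK ν N A R Hs x₀ y₀ (8 * m + 5)
      = ![x, y, z + spaceSum ν (swap3 N A) (proj ![x, y, z])] := by
  rw [show 8 * m + 5 = (8 * m + 4) + 1 by ring, posK_succ, h, dirK, dispK,
    if_neg (by omega), if_neg (by omega), if_neg (by omega), if_neg (by omega),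
    if_neg (by omega), if_neg (by omega), if_neg (by omega), if_neg (by omega),
    if_neg (by omega), if_pos (by omega), vec_add2]

theorem posK_s5 (m : ℕ) {x y z : ℝ} (h : posK ν N A R Hs x₀ y₀ (8 * m + 5) = ![x, y, z]) :
    posK ν N A R Hs x₀ y₀ (8 * m + 6)
      = ![x, y + spaceSum ν (R.flatMap (move4 N A)) (proj ![x, y, z]), z] := by
  rw [show 8 * m + 6 = (8 * m + 5) + 1 by ring, posK_succ, h, dirK, dispK,
    if_neg (by omega), if_neg (by omega), if_neg (by omega), if_pos (by omega),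
    if_neg (by omega), if_neg (by omega), if_neg (by omega), if_pos (by omega), vec_add1]

theorem posK_s6 (m : ℕ) {x y z : ℝ} (h : posK ν N A R Hs x₀ y₀ (8 * m + 6) = ![x, y, z]) :
    posK ν N A R Hs x₀ y₀ (8 * m + 7)
      = ![x, y, z + spaceSum ν (R.flatMap (drop5 N A)) (proj ![x, y, z])] := by
  rw [show 8 * m + 7 = (8 * m + 6) + 1 by ring, posK_succ, h, dirK, dispK,
    if_neg (by omega), if_neg (by omega), if_neg (by omega), if_neg (by omega),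
    if_neg (by omega), if_neg (by omega), if_neg (by omega), if_neg (by omega),
    if_neg (by omega), if_neg (by omega), if_pos (by omega), vec_add2]

theorem posK_idle (k : ℕ) (h0 : 2 ≤ k) (h : k % 8 = 7 ∨ k % 8 = 0 ∨ k % 8 = 1) :
    posK ν N A R Hs x₀ y₀ (k + 1) = posK ν N A R Hs x₀ y₀ k := by
  rw [posK_succ, dispK, if_neg (by omega), if_neg (by omega), if_neg (by omega),
    if_neg (by omega), if_neg (by omega), if_neg (by omega), if_neg (by omega)]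
  simp

/-- The point of the plane `z = 0` coding a pair of stacks. -/
noncomputable def ptZ (z : ℚ × ℚ) : R3 := ![(z.1 : ℝ) / 4, (z.2 : ℝ) / 4, 0]

theorem posK_step (G : GoodSys n N A R Hs) (m : ℕ) {z z' : ℚ × ℚ} (hs : Step N R z z')
    (h : posK ν N A R Hs x₀ y₀ (8 * m + 2) = ptZ z) :
    posK ν N A R Hs x₀ y₀ (8 * (m + 1) + 2) = ptZ z' ∧
      ∀ j, 2 ≤ j → j ≤ 10 → posK ν N A R Hs x₀ y₀ (8 * m + j) 2 ∈ Icc (0 : ℝ) (1 / 2) := by
  obtain ⟨r, hr, ξ, η, h0, h1, h2, h3, rfl, rfl⟩ := hs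
  obtain ⟨a0, a1⟩ := pushQ_mem G (G.dig_u' r hr) h0 h1
  obtain ⟨b0, b1⟩ := pushQ_mem G (G.dig_v r hr) h2 h3
  have a0' : (0 : ℝ) ≤ (pushQ N r.2.2.1 ξ : ℝ) := by exact_mod_cast a0
  have a1' : (pushQ N r.2.2.1 ξ : ℝ) ≤ 1 := by exact_mod_cast a1
  have b0' : (0 : ℝ) ≤ (pushQ N r.2.1.2 η : ℝ) := by exact_mod_cast b0
  have b1' : (pushQ N r.2.1.2 η : ℝ) ≤ 1 := by exact_mod_cast b1
  have hl : 6 * (r.1 : ℝ) + 8 ≤ A := by exact_mod_cast G.level r hr
  have hr0 : (0 : ℝ) ≤ r.1 := Nat.cast_nonneg _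
  have hA : (0 : ℝ) < A := by linarith
  simp only [ptZ] at h ⊢
  have e3 := posK_s2 ν x₀ y₀ m h
  rw [L2, box_lift G ν hr h0 h1 h2 h3, zero_add] at e3
  have e4 := posK_s3 ν x₀ y₀ m e3
  rw [box_move2 G ν hr h0 h1, add_sub_cancel] at e4
  have e5 := posK_s4 ν x₀ y₀ m e4
  rw [box_swap3 ν a0' a1' b0' b1', ← add_div, show 3 * (r.1 : ℝ) + 1 + (pushQ N r.2.2.1 ξ : ℝ)
    + ((pushQ N r.2.1.2 η : ℝ) - (pushQ N r.2.2.1 ξ : ℝ))
    = 3 * (r.1 : ℝ) + 1 + (pushQ N r.2.1.2 η : ℝ) by ring] at e5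
  have e6 := posK_s5 ν x₀ y₀ m e5
  rw [box_move4 G ν hr h2 h3, add_sub_cancel] at e6
  have e7 := posK_s6 ν x₀ y₀ m e6
  rw [box_drop5 G ν hr h0 h1 h2 h3, add_neg_cancel] at e7
  have e8 : posK ν N A R Hs x₀ y₀ (8 * m + 8) = _ :=
    (posK_idle ν x₀ y₀ (8 * m + 7) (by omega) (by omega)).trans e7
  have e9 : posK ν N A R Hs x₀ y₀ (8 * m + 9) = _ :=
    (posK_idle ν x₀ y₀ (8 * m + 8) (by omega) (by omega)).trans e8
  have e10 : posK ν N A R Hs x₀ y₀ (8 * m + 10) = _ :=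
    (posK_idle ν x₀ y₀ (8 * m + 9) (by omega) (by omega)).trans e9
  refine ⟨by rw [show 8 * (m + 1) + 2 = 8 * m + 10 by ring, e10], fun j hj2 hj10 => ?_⟩
  have z0 : (0 : ℝ) ∈ Icc (0 : ℝ) (1 / 2) := ⟨le_rfl, by norm_num⟩
  have za : (3 * (r.1 : ℝ) + 1 + (pushQ N r.2.2.1 ξ : ℝ)) / A ∈ Icc (0 : ℝ) (1 / 2) :=
    ⟨by positivity, by rw [div_le_iff₀ hA]; linarith⟩
  have zb : (3 * (r.1 : ℝ) + 1 + (pushQ N r.2.1.2 η : ℝ)) / A ∈ Icc (0 : ℝ) (1 / 2) :=
    ⟨by positivity, by rw [div_le_iff₀ hA]; linarith⟩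
  interval_cases j
  · rw [h]; exact z0
  · rw [e3]; exact za
  · rw [e4]; exact za
  · rw [e5]; exact zb
  · rw [e6]; exact zb
  · rw [e7]; exact z0
  · rw [e8]; exact z0
  · rw [e9]; exact z0
  · rw [e10]; exact z0

theorem posK_reach (G : GoodSys n N A R Hs) {z z' : ℚ × ℚ}
    (hs : Relation.ReflTransGen (Step N R) z z') (h : posK ν N A R Hs x₀ y₀ (8 * 0 + 2) = ptZ z) :
    ∃ m, posK ν N A R Hs x₀ y₀ (8 * m + 2) = ptZ z' := by
  induction hs with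
  | refl => exact ⟨0, h⟩
  | tail _ hbc ih =>
    obtain ⟨m, hm⟩ := ih
    exact ⟨m + 1, (posK_step ν x₀ y₀ G m hbc hm).1⟩

theorem posK_halt (G : GoodSys n N A R Hs) (m : ℕ) {z : ℚ × ℚ} (hz : Halt N Hs z)
    (h : posK ν N A R Hs x₀ y₀ (8 * m + 2) = ptZ z) :
    ∃ x y : ℝ, 0 ≤ x ∧ x ≤ 1 ∧ 0 ≤ y ∧ y ≤ 1 ∧
      posK ν N A R Hs x₀ y₀ (8 * m + 3) = ![x / 4, y / 4, 3 / 4] := by
  obtain ⟨s, hs, ξ, h0, h1, e, h2, h3⟩ := hz
  have hs' : ∀ d ∈ [s], d < n := by simpa using G.dig_H s hs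
  obtain ⟨a0, a1⟩ := pushQ_mem G hs' h0 h1
  simp only [ptZ, e] at h
  have e3 := posK_s2 ν x₀ y₀ m h
  rw [L2, box_halt G ν hs h0 h1, zero_add] at e3
  exact ⟨_, _, by exact_mod_cast a0, by exact_mod_cast a1, by exact_mod_cast h2,
    by exact_mod_cast h3, e3⟩

theorem posK_low (G : GoodSys n N A R Hs) {S : Set (ℚ × ℚ)} {z : ℚ × ℚ} (hz : z ∈ S)
    (hS : ∀ z ∈ S, ∃ z' ∈ S, Step N R z z') (h : posK ν N A R Hs x₀ y₀ (8 * 0 + 2) = ptZ z)
    (k : ℕ) : posK ν N A R Hs x₀ y₀ k 2 ∈ Icc (0 : ℝ) (1 / 2) := by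
  have key : ∀ m, ∃ z ∈ S, posK ν N A R Hs x₀ y₀ (8 * m + 2) = ptZ z := by
    intro m
    induction m with
    | zero => exact ⟨z, hz, h⟩
    | succ m ih =>
      obtain ⟨z₁, h₁, e⟩ := ih
      obtain ⟨z₂, h₂, hs⟩ := hS z₁ h₁
      exact ⟨z₂, h₂, (posK_step ν x₀ y₀ G m hs e).1⟩
  have z0 : (0 : ℝ) ∈ Icc (0 : ℝ) (1 / 2) := ⟨le_rfl, by norm_num⟩
  rcases Nat.lt_or_ge k 2 with hk | hk
  · interval_cases k
    · rw [posK_zero]; exact z0
    · rw [posK_one]; exact z0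
  · obtain ⟨z₁, h₁, e⟩ := key ((k - 2) / 8)
    obtain ⟨z₂, -, hs⟩ := hS z₁ h₁
    have := (posK_step ν x₀ y₀ G _ hs e).2 ((k - 2) % 8 + 2) (by omega) (by omega)
    rwa [show 8 * ((k - 2) / 8) + ((k - 2) % 8 + 2) = k by omega] at this

end Pos

theorem not_mem_box {x : R3} (h : x 2 ∈ Icc (0 : ℝ) (1 / 2)) :
    proj x ∉ boxImage ![-1 / 8, -1 / 8, 5 / 8] ![3 / 8, 3 / 8, 7 / 8] := by
  rintro ⟨y, hy, e⟩
  have h2 := hy 2
  have e2 : ((y 2 : ℝ) : UnitAddCircle) = (x 2 : ℝ) := congrFun e 2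
  simp only [Matrix.cons_val_two, Matrix.tail_cons, Matrix.head_cons] at h2
  push_cast at h2
  have := (AddCircle.coe_eq_coe_iff_of_mem_Ico (p := (1 : ℝ)) (a := 0)
    (x := y 2) (y := x 2) ⟨by linarith [h2.1], by linarith [h2.2]⟩
    ⟨h.1, by linarith [h.2]⟩).1 e2
  linarith [h2.1, h.2]

theorem mem_box {x y : ℝ} (h0 : 0 ≤ x) (h1 : x ≤ 1) (h2 : 0 ≤ y) (h3 : y ≤ 1) :
    proj ![x / 4, y / 4, 3 / 4] ∈ boxImage ![-1 / 8, -1 / 8, 5 / 8] ![3 / 8, 3 / 8, 7 / 8] := by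
  refine ⟨_, fun i => ?_, rfl⟩
  fin_cases i <;> simp <;> constructor <;> linarith

open MachineCode in
theorem main (ν : ℝ) (hν : 0 < ν) : Q1 ν := by
  refine ⟨0, ![-1 / 8, -1 / 8, 5 / 8], ![3 / 8, 3 / 8, 7 / 8], compile, fun i => ?_,
    isForceCompiler_of_primrec primrec_compile ν, fun M w => ?_⟩
  · fin_cases i <;> simp <;> norm_num
  have G := goodSys_code M
  have hN : 0 < base M.code := by have := G.n_pos; have := G.base; omega
  have hA : 0 < vsc M.code := by have := G.A_ge; omega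
  set z₀ := startPt M.code (w.map Fin.val) with hz₀
  set U := velG (base M.code) (vsc M.code) (rules M.code) (halts M.code) (z₀.1 / 4) (z₀.2 / 4)
    with hU
  have hf : force ν compile M w = fun i => sumTerms ν (forceOf (U i)) := rfl
  obtain ⟨hsm, hcl⟩ := heat_solution ν U (fun i τ hτ => (velG_term hN hA _ _ _ _ i τ hτ).1)
    (fun i τ hτ => (velG_term hN hA _ _ _ _ i τ hτ).2.1) (velG_disj hN hA _ _ _ _)
    (velG_time_zero hN hA _ _ _ _)
  set P := posK ν (base M.code) (vsc M.code) (rules M.code) (halts M.code) (z₀.1 / 4) (z₀.2 / 4)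
    with hP
  obtain ⟨hex, hall⟩ := slot_trajectory (fun i => sumTerms ν (U i))
    (fun i => (((0 : Fin 3 → ℚ) i : ℚ) : ℝ)) dirK
    (dispK ν (base M.code) (vsc M.code) (rules M.code) (halts M.code) (z₀.1 / 4) (z₀.2 / 4))
    (dispK_line hN hA _ _ _ _ ν) (velG_slot hN hA _ _ _ _ ν) P (by ext i; simp [hP, posK])
    (fun k => rfl)
  have h2 : P (8 * 0 + 2) = ptZ z₀ := by
    rw [hP, show 8 * 0 + 2 = 2 from rfl, posK_two, ptZ]
    push_cast
    rfl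
  refine ⟨fun i => sumTerms ν (U i), fun _ _ => 0, hsm, contDiffOn_const, ?_, ?_, hex, ?_⟩
  · rw [hf]; exact hcl
  · intro T hT v q hv
    rw [hf] at hv
    exact classical_unique hν.le hT (hcl T hT) hv
  · intro X hX
    constructor
    · rintro ⟨t, ht, hmem⟩
      by_contra hnh
      obtain ⟨S, hS0, hS⟩ := sim_not_halts M w hnh
      obtain ⟨k, hk⟩ := exists_slot ht
      obtain ⟨θ, hθ, e⟩ := (hall X hX k).2 t hk
      have l1 := posK_low ν _ _ G hS0 hS h2 k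
      have l2 := posK_low ν _ _ G hS0 hS h2 (k + 1)
      refine not_mem_box ?_ hmem
      rw [e]
      simp only [Pi.add_apply, Pi.smul_apply, Pi.sub_apply, smul_eq_mul]
      rw [← hP] at l1 l2
      constructor <;> nlinarith [l1.1, l1.2, l2.1, l2.2, hθ.1, hθ.2]
    · intro hh
      obtain ⟨z, hz, hH⟩ := sim_halts M w hh
      obtain ⟨m, hm⟩ := posK_reach ν _ _ G hz h2
      obtain ⟨x, y, a0, a1, b0, b1, e⟩ := posK_halt ν _ _ G m hH hm
      refine ⟨((8 * m + 3 : ℕ) : ℝ) / 8, by positivity, ?_⟩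
      rw [(hall X hX (8 * m + 3)).1, hP, e]
      exact mem_box a0 a1 b0 b1

end Vale.Agent.N113
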