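import Vale.Agent.N113.Sim
import Vale.Agent.N113.CompPrim

/-!
# P113: a universal machine, and the undecidability of halting, for the machines of `Defs`

Mathlib compiles every recursive function into a finitely supported Post-Turing machine; such a
machine is copied into a `Machine`.  Halting of a `Machine` is recursively enumerable through the
two-stack simulation of `Sim`.
-/

namespace Vale.Agent.N113

namespace Univ

open Turing

/-! ## Finitely supported Post-Turing machines are machines -/

section TM0

variable {Γ Λ : Type} [Inhabited Γ] [Inhabited Λ] [Fintype Γ]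

/-- The number of a tape symbol. -/
noncomputable def eG (Γ : Type) [Fintype Γ] : Γ ≃ Fin (Fintype.card Γ) := Fintype.equivFin Γ

/-- The number of a state; `none` is the halting state. -/
noncomputable def eQ (S : Finset Λ) : Option S ≃ Fin (Fintype.card (Option S)) :=
  Fintype.equivFin (Option S)

open Classical in
/-- The state of a label. -/
noncomputable def lab (S : Finset Λ) (q : Λ) : Fin (Fintype.card (Option S)) :=
  eQ S (if h : q ∈ S then some ⟨q, h⟩ else none)

/-- The symbol written and the move made by a statement. -/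
noncomputable def act (a : Fin (Fintype.card Γ)) : TM0.Stmt Γ → Fin (Fintype.card Γ) × Fin 3
  | .move .left => (a, 0)
  | .move .right => (a, 2)
  | .write b => (eG Γ b, 1)

/-- The transition on a label. -/
noncomputable def stepL (T : TM0.Machine Γ Λ) (S : Finset Λ) (q : Λ) (a : Fin (Fintype.card Γ)) :
    Fin (Fintype.card (Option S)) × Fin (Fintype.card Γ) × Fin 3 :=
  match T q ((eG Γ).symm a) with
  | none => (eQ S none, a, 1)
  | some r => (lab S r.1, act a r.2)

/-- The machine that copies a Post-Turing machine supported on `S`. -/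
noncomputable def ofTM0 (T : TM0.Machine Γ Λ) (S : Finset Λ) : Machine where
  nQ := Fintype.card (Option S)
  nG := Fintype.card Γ
  start := lab S default
  blank := eG Γ default
  halting q := ((eQ S).symm q).isNone
  step q a := match (eQ S).symm q with
    | none => (q, a, 1)
    | some s => stepL T S s a

/-- The configuration of the copy represents that of the Post-Turing machine. -/
def Rel (T : TM0.Machine Γ Λ) (S : Finset Λ) (c : TM0.Cfg Γ Λ) (d : (ofTM0 T S).Cfg) : Prop :=
  c.q ∈ S ∧ d.state = lab S c.q ∧ ∀ i, d.tape (d.head + i) = eG Γ (c.Tape.nth i)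

omit [Inhabited Λ] in
lemma lab_mem {S : Finset Λ} {q : Λ} (h : q ∈ S) : (eQ S).symm (lab S q) = some ⟨q, h⟩ := by
  simp [lab, h]

variable {T : TM0.Machine Γ Λ} {S : Finset Λ}

lemma Rel.not_halting {c : TM0.Cfg Γ Λ} {d : (ofTM0 T S).Cfg} (h : Rel T S c d) :
    (ofTM0 T S).halting d.state = false := by
  show ((eQ S).symm d.state).isNone = false
  rw [h.2.1, lab_mem h.1]
  rfl

lemma Rel.step_eq {c : TM0.Cfg Γ Λ} {d : (ofTM0 T S).Cfg} (h : Rel T S c d) :
    (ofTM0 T S).step d.state (d.tape d.head) = stepL T S c.q (eG Γ c.Tape.head) := by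
  have h0 := h.2.2 0
  rw [add_zero, Tape.nth_zero] at h0
  rw [h0, h.2.1]
  show (match (eQ S).symm (lab S c.q) with
    | none => (lab S c.q, eG Γ c.Tape.head, 1)
    | some s => stepL T S s (eG Γ c.Tape.head)) = _
  rw [lab_mem h.1]

lemma Rel.step_none {c : TM0.Cfg Γ Λ} {d : (ofTM0 T S).Cfg} (h : Rel T S c d)
    (hc : TM0.step T c = none) : (ofTM0 T S).halting ((ofTM0 T S).next d).state = true := by
  have hT : T c.q c.Tape.head = none := by simpa [TM0.step] using hc
  rw [Machine.next, if_neg (by rw [h.not_halting]; simp)]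
  show ((eQ S).symm ((ofTM0 T S).step d.state (d.tape d.head)).1).isNone = true
  rw [h.step_eq, stepL]
  simp [hT]

lemma Rel.step_some (hS : TM0.Supports T (S : Set Λ)) {c c' : TM0.Cfg Γ Λ} {d : (ofTM0 T S).Cfg}
    (h : Rel T S c d) (hc : c' ∈ TM0.step T c) : Rel T S c' ((ofTM0 T S).next d) := by
  have hm : c'.q ∈ S := TM0.step_supports T hS hc h.1
  obtain ⟨⟨q', st⟩, hT, rfl⟩ := Option.map_eq_some_iff.1 hc
  have hs : (ofTM0 T S).step d.state (d.tape d.head) = (lab S q', act (eG Γ c.Tape.head) st) := by
    rw [h.step_eq, stepL]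
    simp only [Equiv.symm_apply_apply]
    have hT' : T c.q c.Tape.head = some (q', st) := hT
    rw [hT']
  have h0 := h.2.2 0
  rw [add_zero, Tape.nth_zero] at h0
  rw [Machine.next, if_neg (by rw [h.not_halting]; simp)]
  simp only [hs]
  refine ⟨hm, rfl, fun i => ?_⟩
  rcases st with (_ | _) | b
  · simp only [act, Tape.move_left_nth]
    rw [← h0, Function.update_eq_self, ← h.2.2]
    congr 1
    simp only [Fin.val_zero]
    push_cast
    ring
  · simp only [act, Tape.move_right_nth]
    rw [← h0, Function.update_eq_self, ← h.2.2]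
    congr 1
    have : ((2 : Fin 3) : ℕ) = 2 := rfl
    rw [this]
    push_cast
    ring
  · simp only [act, Tape.write_nth]
    have : ((1 : Fin 3) : ℕ) = 1 := rfl
    rw [this]
    have e : d.head + ((1 : ℕ) : ℤ) - 1 + i = d.head + i := by push_cast; ring
    rw [e]
    by_cases hi : i = 0
    · subst hi
      rw [add_zero, if_pos rfl]
      exact Function.update_self _ _ _
    · rw [if_neg hi]
      exact (Function.update_of_ne (by omega) _ _).trans (h.2.2 i)

lemma rel_init (hS : TM0.Supports T (S : Set Λ)) (l : List Γ) :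
    Rel T S (TM0.init l) ((ofTM0 T S).initCfg (l.map (eG Γ))) := by
  refine ⟨hS.1, rfl, fun i => ?_⟩
  simp only [Machine.initCfg, zero_add, TM0.init]
  rcases i with n | n
  · have : Tape.nth (Tape.mk₁ l) (Int.ofNat n) = l.getI n := by
      rw [Tape.mk₁, Tape.mk₂]
      exact (Tape.mk'_nth_nat _ _ n).trans (ListBlank.nth_mk l n)
    rw [this, if_pos (by simp)]
    show (l.map (eG Γ)).getD n (eG Γ default) = _
    simp only [List.getD_eq_getElem?_getD, List.getElem?_map, List.getI_eq_getElem?_getD]
    cases l[n]? <;> rfl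
  · rw [if_neg (by simp)]
    rfl

theorem ofTM0_halts (hS : TM0.Supports T (S : Set Λ)) (l : List Γ) :
    (ofTM0 T S).HaltsOn (l.map (eG Γ)) ↔ (TM0.eval T l).Dom := by
  have hd : (TM0.eval T l).Dom ↔
      ∃ b, StateTransition.Reaches (TM0.step T) (TM0.init l) b ∧ TM0.step T b = none := by
    show (StateTransition.eval (TM0.step T) (TM0.init l)).Dom ↔ _
    rw [Part.dom_iff_mem]
    exact exists_congr fun b => StateTransition.mem_eval
  rw [hd]
  constructor
  · rintro ⟨n, hn⟩
    by_contra hc
    push Not at hc
    have key : ∀ n, ∃ b, StateTransition.Reaches (TM0.step T) (TM0.init l) b ∧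
        Rel T S b ((ofTM0 T S).next^[n] ((ofTM0 T S).initCfg (l.map (eG Γ)))) := by
      intro n
      induction n with
      | zero => exact ⟨_, Relation.ReflTransGen.refl, rel_init hS l⟩
      | succ n ih =>
        obtain ⟨b, h1, h2⟩ := ih
        obtain ⟨b', hb'⟩ := Option.ne_none_iff_exists'.1 (hc b h1)
        rw [Function.iterate_succ_apply']
        exact ⟨b', Relation.ReflTransGen.tail h1 hb', h2.step_some hS hb'⟩
    obtain ⟨b, _, h2⟩ := key n
    rw [h2.not_halting] at hn
    exact Bool.false_ne_true hn
  · rintro ⟨b, h1, h2⟩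
    have key : ∃ n, Rel T S b ((ofTM0 T S).next^[n] ((ofTM0 T S).initCfg (l.map (eG Γ)))) := by
      clear h2
      induction h1 with
      | refl => exact ⟨0, rel_init hS l⟩
      | tail _ hb ih =>
        obtain ⟨n, hn⟩ := ih
        exact ⟨n + 1, by rw [Function.iterate_succ_apply']; exact hn.step_some hS hb⟩
    obtain ⟨n, hn⟩ := key
    exact ⟨n + 1, by rw [Function.iterate_succ_apply']; exact hn.step_none h2⟩

theorem exists_ofTM0 (hS : TM0.Supports T (S : Set Λ)) :
    ∃ (U : Machine) (φ : Γ → Fin U.nG), ∀ l : List Γ, U.HaltsOn (l.map φ) ↔ (TM0.eval T l).Dom :=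
  ⟨ofTM0 T S, eG Γ, ofTM0_halts hS⟩

end TM0

/-! ## Recursive functions are computed by machines -/

/-- The binary numeral with `n` digits one. -/
def ones : ℕ → Num
  | 0 => 0
  | n + 1 => (ones n).bit1

open PartrecToTM2 in
lemma trNum_ones (n : ℕ) : trNum (ones n) = List.replicate n Γ'.bit1 := by
  induction n with
  | zero => rfl
  | succ n ih =>
    rw [List.replicate_succ, ← ih, ones]
    cases ones n <;> rfl

lemma ones_val (n : ℕ) : (ones n : ℕ) + 1 = 2 ^ n := by
  induction n with
  | zero => rfl
  | succ n ih =>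
    rw [ones, Num.cast_bit1, pow_succ, ← ih]
    ring

/-- The four stacks of Mathlib's compiler form a finite type. -/
@[reducible] def fintypeK : Fintype PartrecToTM2.K' :=
  ⟨{.main, .rev, .aux, .stack}, fun k => by cases k <;> simp⟩

open PartrecToTM2 in
/-- For a code of Mathlib's basis, a machine that halts on the unary word of length `n` exactly
when the code halts on `2 ^ n - 1`. -/
theorem exists_of_code (c : ToPartrec.Code) :
    ∃ (U : Machine) (a b : Fin U.nG), ∀ n : ℕ,
      U.HaltsOn (a :: List.replicate n b) ↔ (c.eval [2 ^ n - 1]).Dom := by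
  let _ : Inhabited Λ' := ⟨trNormal c Cont'.halt⟩
  let _ : Fintype K' := fintypeK
  have h2 : TM2.Supports tr (codeSupp c Cont'.halt) := tr_supports c Cont'.halt
  have h1 := TM2to1.tr_supports tr h2
  have h0 := TM1to0.tr_supports (TM2to1.tr tr) h1
  obtain ⟨U, φ, hU⟩ := exists_ofTM0 h0
  refine ⟨U, φ (true, Function.update (fun _ => none) K'.main (some Γ'.cons)),
    φ (false, Function.update (fun _ => none) K'.main (some Γ'.bit1)), fun n => ?_⟩
  have e1 : trList [2 ^ n - 1] = List.replicate n Γ'.bit1 ++ [Γ'.cons] := by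
    have : 2 ^ n - 1 = (ones n : ℕ) := by rw [← ones_val]; rfl
    rw [this]
    simp only [trList, trNat, Num.of_to_nat, trNum_ones]
  have e2 := hU (TM2to1.trInit (Γ := fun _ : K' => Γ') K'.main (trList [2 ^ n - 1]))
  rw [TM1to0.tr_eval] at e2
  replace e2 := e2.trans (TM2to1.tr_eval_dom tr K'.main (trList [2 ^ n - 1]))
  have e3 : (TM2.eval tr K'.main (trList [2 ^ n - 1])).Dom ↔ (c.eval [2 ^ n - 1]).Dom := by
    have e4 : (TM2.init K'.main (trList [2 ^ n - 1]) : Cfg') = init c [2 ^ n - 1] := by
      simp only [TM2.init, init]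
      congr 1
      funext k
      cases k <;> rfl
    have e5 : StateTransition.eval (TM2.step tr) (TM2.init K'.main (trList [2 ^ n - 1]) : Cfg')
        = halt <$> c.eval [2 ^ n - 1] := by
      rw [e4]
      exact tr_eval c _
    exact iff_of_eq (congrArg Part.Dom e5)
  refine Iff.trans (iff_of_eq (congrArg U.HaltsOn ?_)) (e2.trans e3)
  rw [e1]
  simp only [TM2to1.trInit, List.reverse_append, List.reverse_replicate, List.reverse_cons,
    List.reverse_nil, List.nil_append, List.singleton_append]
  refine congrArg₂ List.cons rfl ?_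
  have e6 : ∀ f : Γ' → TM2to1.Γ' K' fun _ => Γ',
      List.replicate n (φ (f Γ'.bit1)) = ((List.replicate n Γ'.bit1).map f).map φ := by
    intro f
    rw [List.map_replicate, List.map_replicate]
  exact e6 fun a => (false, Function.update (fun _ => none) K'.main (some a))

/-- Every recursively enumerable set of numbers is the halting set of a machine on unary words. -/
theorem exists_of_partrec {g : ℕ →. ℕ} (hg : Partrec g) :
    ∃ (U : Machine) (a b : Fin U.nG), ∀ n : ℕ,
      U.HaltsOn (a :: List.replicate n b) ↔ (g n).Dom := by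
  have hp : Primrec₂ fun N n : ℕ => decide (2 ^ n - 1 = N) := by
    have h2 : Primrec fun n : ℕ => 2 ^ n :=
      (Primrec₂.unpaired'.1 Nat.Primrec.pow).comp (Primrec.const 2) Primrec.id
    exact (Primrec.eq.comp (Primrec.nat_sub.comp (h2.comp Primrec.snd) (Primrec.const 1))
      Primrec.fst).decide
  have hf : Partrec fun N : ℕ =>
      (Nat.rfind fun n => (Part.some (decide (2 ^ n - 1 = N)) : Part Bool)).bind g :=
    (Partrec.rfind hp.to_comp.partrec₂).bind (hg.comp Computable.snd).to₂
  obtain ⟨c, hc⟩ := ToPartrec.Code.exists_code (Nat.Partrec'.part_iff₁.2 hf)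
  obtain ⟨U, a, b, hU⟩ := exists_of_code c
  refine ⟨U, a, b, fun n => (hU n).trans ?_⟩
  have h1 := hc ⟨[2 ^ n - 1], rfl⟩
  have h2 : (Nat.rfind fun m => (Part.some (decide (2 ^ m - 1 = 2 ^ n - 1)) : Part Bool))
      = Part.some n := by
    refine Part.eq_some_iff.2 (Nat.mem_rfind.2 ⟨by simp, fun {m} hm => ?_⟩)
    have h3 : 2 ^ m < 2 ^ n := Nat.pow_lt_pow_right (by norm_num) hm
    have h4 : 0 < 2 ^ m := by positivity
    have h5 : ¬ 2 ^ m - 1 = 2 ^ n - 1 := by omega
    simp [h5]
  rw [h1]
  show ((Nat.rfind fun m => (Part.some (decide (2 ^ m - 1 = 2 ^ n - 1)) : Part Bool)).bind g).Dom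
    ↔ _
  rw [h2]
  exact iff_of_eq (congrArg Part.Dom (Part.bind_some n g))

/-! ## Halting is recursively enumerable -/

open Sim

/-- The two-stack simulation shows a halting state at time `t`. -/
def seen (x : MachineCode × List ℕ) (t : ℕ) : Bool :=
  haltS x.1 ((gstep x.1)^[t] (ginit x.1 x.2)).1

lemma exists_next {M : Machine} {cfg : M.Cfg} (hh : M.halting cfg.state = false) (m : ℕ) :
    ∀ {g : GState}, Rep M cfg g → readLen g < m →
      ∃ j, Rep M (M.next cfg) ((gstep M.code)^[j] g) := by
  induction m with
  | zero => exact fun _ h => absurd h (Nat.not_lt_zero _)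
  | succ m ih =>
    intro g h hm
    by_cases he : readG M.code g < M.nG
    · exact ⟨1, h.real he hh⟩
    · obtain ⟨h1, h2⟩ := h.skip he
      obtain ⟨j, hj⟩ := ih h1 (by omega)
      exact ⟨j + 1, hj⟩

theorem halts_iff_seen (M : Machine) (w : List (Fin M.nG)) :
    M.HaltsOn w ↔ ∃ t, seen (inputCode M w) t = true := by
  constructor
  · rintro ⟨k, hk⟩
    have key : ∀ k, ∃ t, Rep M (M.next^[k] (M.initCfg w))
        ((gstep M.code)^[t] (ginit M.code (w.map Fin.val))) := by
      intro k
      induction k with
      | zero => exact ⟨0, rep_init M w⟩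
      | succ k ih =>
        obtain ⟨t, hR⟩ := ih
        rw [Function.iterate_succ_apply']
        cases hh : M.halting (M.next^[k] (M.initCfg w)).state with
        | true => exact ⟨t, by rwa [Machine.next, if_pos hh]⟩
        | false =>
          obtain ⟨j, hj⟩ := exists_next hh _ hR (Nat.lt_succ_self _)
          exact ⟨j + t, by rwa [Function.iterate_add_apply]⟩
    obtain ⟨t, ht⟩ := key k
    exact ⟨t, ht.haltS.trans hk⟩
  · rintro ⟨t, ht⟩
    by_contra h
    have hnh : ∀ k, M.halting (M.next^[k] (M.initCfg w)).state = false := fun k =>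
      Bool.eq_false_iff.2 fun hk => h ⟨k, hk⟩
    have key : ∀ t, ∃ k, Rep M (M.next^[k] (M.initCfg w))
        ((gstep M.code)^[t] (ginit M.code (w.map Fin.val))) := by
      intro t
      induction t with
      | zero => exact ⟨0, rep_init M w⟩
      | succ t ih =>
        obtain ⟨k, hR⟩ := ih
        rw [Function.iterate_succ_apply']
        by_cases he : readG M.code ((gstep M.code)^[t] (ginit M.code (w.map Fin.val))) < M.nG
        · exact ⟨k + 1, by rw [Function.iterate_succ_apply']; exact hR.real he (hnh k)⟩
        · exact ⟨k, (hR.skip he).1⟩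
    obtain ⟨k, hk⟩ := key t
    have := hk.haltS.symm.trans ht
    rw [hnh] at this
    exact Bool.false_ne_true this

set_option synthInstance.maxSize 1024

section PR

variable {α β : Type} [Primcodable α] [Primcodable β]

theorem ite_lt {f g : α → ℕ} {u v : α → β} (hf : PR f) (hg : PR g) (hu : PR u) (hv : PR v) :
    PR (fun a => if f a < g a then u a else v a) :=
  ⟨Primrec.ite (Primrec.nat_lt.comp hf.out hg.out) hu.out hv.out⟩

@[fun_prop] theorem pr_tail {f : α → List β} (hf : PR f) : PR (fun a => (f a).tail) :=
  ⟨Primrec.list_tail.comp hf.out⟩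

@[fun_prop] theorem pr_headD {f : α → List β} {g : α → β} (hf : PR f) (hg : PR g) :
    PR (fun a => (f a).headD (g a)) :=
  ⟨(Primrec.option_getD.comp (Primrec.list_head?.comp hf.out) hg.out).of_eq fun a => by
    cases f a <;> rfl⟩

@[fun_prop] theorem pr_tbl {c : α → MachineCode} {q e : α → ℕ} (hc : PR c) (hq : PR q)
    (he : PR e) : PR (fun a => tbl (c a) (q a) (e a)) := by
  unfold tbl
  fun_prop

@[fun_prop] theorem pr_haltS {c : α → MachineCode} {s : α → ℕ} (hc : PR c) (hs : PR s) :
    PR (fun a => haltS (c a) (s a)) := by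
  unfold haltS
  fun_prop

@[fun_prop] theorem pr_newS {c : α → MachineCode} {s e : α → ℕ} (hc : PR c) (hs : PR s)
    (he : PR e) : PR (fun a => newS (c a) (s a) (e a)) := by
  unfold newS
  exact ite_lt (by fun_prop) (by fun_prop) (by fun_prop) (by fun_prop)

@[fun_prop] theorem pr_payload {c : α → MachineCode} {s e : α → ℕ} (hc : PR c) (hs : PR s)
    (he : PR e) : PR (fun a => payload (c a) (s a) (e a)) := by
  unfold payload
  exact ite_lt (by fun_prop) (by fun_prop) (by fun_prop) (by fun_prop)

@[fun_prop] theorem pr_readG {c : α → MachineCode} {g : α → GState} (hc : PR c) (hg : PR g) :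
    PR (fun a => readG (c a) (g a)) := by
  unfold readG
  exact PR.ite_eq (by fun_prop) (by fun_prop) (by fun_prop) (by fun_prop)

@[fun_prop] theorem pr_restL : PR restL := by
  unfold restL
  exact PR.ite_eq (by fun_prop) (by fun_prop) (by fun_prop) (by fun_prop)

@[fun_prop] theorem pr_restR : PR restR := by
  unfold restR
  exact PR.ite_eq (by fun_prop) (by fun_prop) (by fun_prop) (by fun_prop)

theorem pr_gstep {c : α → MachineCode} {g : α → GState} (hc : PR c) (hg : PR g) :
    PR (fun a => gstep (c a) (g a)) := by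
  unfold gstep
  exact PR.ite_eq (by fun_prop) (by fun_prop) (by fun_prop) (by fun_prop)

theorem pr_ginit {c : α → MachineCode} {w : α → List ℕ} (hc : PR c) (hw : PR w) :
    PR (fun a => ginit (c a) (w a)) := by
  unfold ginit
  fun_prop

end PR

theorem primrec_seen : Primrec₂ seen := by
  have h1 : Primrec fun p : (MachineCode × List ℕ) × ℕ =>
      (gstep p.1.1)^[p.2] (ginit p.1.1 p.1.2) :=
    Primrec.nat_iterate (h := fun p : (MachineCode × List ℕ) × ℕ => gstep p.1.1) Primrec.snd
      (pr_ginit (by fun_prop) (by fun_prop)).out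
      (pr_gstep (α := ((MachineCode × List ℕ) × ℕ) × GState) (c := fun q => q.1.1.1)
        (g := fun q => q.2) (by fun_prop) (by fun_prop)).out
  exact (pr_haltS (α := (MachineCode × List ℕ) × ℕ) (c := fun p => p.1.1) (by fun_prop)
    (PR.fst ⟨h1⟩)).out

lemma computable_word (a b : ℕ) : Computable fun n : ℕ => a :: List.replicate n b := by
  have h : Primrec fun n : ℕ => (List.range n).map fun _ => b :=
    Primrec.list_map Primrec.list_range (Primrec.const b).to₂
  exact (Primrec.list_cons.comp (Primrec.const a) (h.of_eq fun n => by simp)).to_comp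

/-- A universal machine: one machine `U` and a computable encoding `e` of the pairs `(M, w)` as
words of `U` such that `U` halts on the word of `(M, w)` exactly when `M` halts on `w`. -/
theorem univ : ∃ (U : Machine) (e : MachineCode × List ℕ → List ℕ), Computable e ∧
    ∀ (M : Machine) (w : List (Fin M.nG)), ∃ v : List (Fin U.nG),
      v.map Fin.val = e (inputCode M w) ∧ (U.HaltsOn v ↔ M.HaltsOn w) := by
  have hs : Computable₂ fun (n t : ℕ) =>
      ((Encodable.decode n : Option (MachineCode × List ℕ)).map fun x => seen x t).getD false := by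
    refine Primrec₂.to_comp ?_
    exact Primrec.option_getD.comp
      (Primrec.option_map (Primrec.decode.comp Primrec.fst)
        (primrec_seen.comp Primrec.snd (Primrec.snd.comp Primrec.fst)).to₂) (Primrec.const false)
  obtain ⟨U, a, b, hU⟩ := exists_of_partrec (Partrec.rfind hs.partrec₂)
  refine ⟨U, fun x => (a : ℕ) :: List.replicate (Encodable.encode x) (b : ℕ),
    (computable_word a b).comp Computable.encode, fun M w =>
      ⟨a :: List.replicate (Encodable.encode (inputCode M w)) b, by simp, ?_⟩⟩
  rw [hU, halts_iff_seen, Nat.rfind_dom]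
  simp

/-- The halting problem of the machines of `Defs` is undecidable. -/
theorem undec : ¬ ∃ D : MachineCode × List ℕ → Bool, Computable D ∧
    ∀ (M : Machine) (w : List (Fin M.nG)), (D (inputCode M w) = true ↔ M.HaltsOn w) := by
  rintro ⟨D, hD, h⟩
  have hg : Partrec fun n : ℕ => Nat.Partrec.Code.eval (Denumerable.ofNat Nat.Partrec.Code n) 0 :=
    Nat.Partrec.Code.eval_part.comp (Computable.ofNat _) (Computable.const 0)
  obtain ⟨U, a, b, hU⟩ := exists_of_partrec hg
  refine ComputablePred.halting_problem 0 ?_
  refine ComputablePred.computable_iff.2 ⟨fun c => D (U.code,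
    (a : ℕ) :: List.replicate (Encodable.encode c) (b : ℕ)), ?_, ?_⟩
  · exact hD.comp ((Computable.const _).pair ((computable_word a b).comp Computable.encode))
  · funext c
    have h1 := h U (a :: List.replicate (Encodable.encode c) b)
    rw [hU, Denumerable.ofNat_encode] at h1
    simp only [inputCode, List.map_cons, List.map_replicate] at h1
    exact propext h1.symm

end Univ

end Vale.Agent.N113
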