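import Vale.Agent.N113.StMain
import Vale.Agent.N113.Univ

/-!
# P113, steady version: one steady force for all machines
-/

namespace Vale.Agent.N113.St

open Set

theorem steady_universal :
    ∃ (a lo hi : Fin 3 → ℚ) (C : MachineCode × List ℕ → Fin 3 → List Term)
      (K : Fin 3 → List Term) (V : Fin 3 → T3 → ℝ)
      (u : (M : Machine) → List (Fin M.nG) → Fin 3 → ℝ → T3 → ℝ),
      (∀ i, lo i < hi i ∧ hi i < lo i + 1) ∧ (∀ ν, IsForceCompiler ν C) ∧
      (∀ i, ∀ τ ∈ K i, τ.2.1 = ([], [])) ∧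
      ∀ (M : Machine) (w : List (Fin M.nG)),
        (∀ i, (C (inputCode M w) i).filter Term.periodic = K i) ∧
        (∀ i, SmoothOnHalf (u M w i)) ∧ (∀ i t, 1 ≤ t → u M w i t = V i) ∧
        (∀ ν : ℝ, 0 ≤ ν → (∀ i t, 1 ≤ t → force ν C M w i t = sumTerms ν (K i) 0) ∧
          ∀ T, 0 < T → IsClassicalOn ν (force ν C M w) T (u M w) (fun _ _ => 0) ∧
            ∀ v q, IsClassicalOn ν (force ν C M w) T v q →
              ∀ t ∈ Icc 0 T, ∀ x, (∀ i, v i t x = u M w i t x) ∧ q t x = 0) ∧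
        (∃ X, IsTrajectory (u M w) (fun i => (a i : ℝ)) X) ∧
        ∀ X, IsTrajectory (u M w) (fun i => (a i : ℝ)) X →
          ((∃ t, 0 ≤ t ∧ proj (X t) ∈ boxImage lo hi) ↔ M.HaltsOn w) := by
  obtain ⟨U, e, he, hU⟩ := Univ.univ
  have hinv : ∀ z i, ∀ τ ∈ compile (U.code, z) i, Inv τ := fun z =>
    inv_nsOf fun i τ hτ => (vel_spec U z i τ hτ).1
  refine ⟨0, lo, hi, fun z => compile (U.code, e z), nsOf (steady (progM U.code)),
    V (progM U.code), fun M w i => sumTerms 0 (vel U.code (e (inputCode M w)) i), fun i => ?_,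
    fun ν => ⟨primrec_compile.to_comp.comp ((Computable.const _).pair he),
      fun M w i τ hτ => (hinv _ i τ hτ).1,
      ⟨1, fun M w i τ hτ hp t ht x => (hinv _ i τ hτ).late hp ν ht x⟩,
      fun M w w' i => (filter_compile U _ i).trans (filter_compile U _ i).symm⟩,
    fun i τ hτ => ?_, fun M w => ?_⟩
  · fin_cases i <;> simp [lo, hi] <;> norm_num
  · rw [← filter_compile U [] i, List.mem_filter] at hτ
    exact Prod.ext (List.isEmpty_iff.1 hτ.2) (hinv _ i τ hτ.1).2.1
  obtain ⟨v, hv, hh⟩ := hU M w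
  have hd := detect U v
  rw [hv, hh, show (0 : R3) = fun i => (((0 : Fin 3 → ℚ) i : ℚ) : ℝ) by ext; simp] at hd
  refine ⟨fun i => filter_compile U _ i, (solves U _ 0).1,
    fun i t ht => funext (vel_late U _ i ht), fun ν hν => ⟨fun i t ht => funext fun x => ?_,
      fun T hT => ⟨(solves U _ ν).2 T hT, fun v q h =>
        classical_unique hν hT ((solves U _ ν).2 T hT) h⟩⟩, hd⟩
  rw [← filter_compile U (e (inputCode M w)) i]
  exact sum_late (hinv _ i) ν ht x

end Vale.Agent.N113.St
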