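import Vale.Agent.N113.Iface

/-!
# P113, steady version: the compiler (definitions only)
-/

namespace Vale.Agent.N113.St

/-! ## Products of terms, the Navier-Stokes operator on lists of terms -/

/-- The product of two terms. -/
def mulT (τ σ : Term) : Term :=
  ((τ.1.1 * σ.1.1, τ.1.2.1 + σ.1.2.1, τ.1.2.2.1 + σ.1.2.2.1, τ.1.2.2.2 ++ σ.1.2.2.2),
    (τ.2.1.1 ++ σ.2.1.1, τ.2.1.2 ++ σ.2.1.2), fun i => τ.2.2 i ++ σ.2.2 i)

/-- The product of two sums of terms. -/
def mulL (U W : List Term) : List Term := U.flatMap fun τ => W.map (mulT τ)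

/-- The terms of `u_j ∂_j u_i`. -/
def conv (U : Fin 3 → List Term) (i j : Fin 3) : List Term :=
  mulL (U j) ((U i).flatMap (Term.dX j))

/-- The terms of `∂_t u_i - ν Δ u_i + (u·∇) u_i`. -/
def nsOf (U : Fin 3 → List Term) (i : Fin 3) : List Term :=
  forceOf (U i) ++ (conv U i 0 ++ conv U i 1 ++ conv U i 2)

/-! ## Shears driven by the third coordinate -/

/-- A piece `((c₀, c₁), (a, b))` stands for `s ↦ (c₀ + c₁ s) π₃(a s - b) / κ`. -/
abbrev Piece := (ℚ × ℚ) × (ℚ × ℚ)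

/-- The bump `s ^ k π₃(a s - b)` of a piece. -/
def bmp (k : ℕ) (p : Piece) : Bump := .inr (k, 3, p.2.1, p.2.2)

/-- The time independent term `16 q κ⁻² P[hx](x) P[hy](y) P[slot j](z)`. -/
def sT (j : ℕ) (q : ℚ) (hx hy : List Bump) : Term :=
  ((16 * q, 0, -2, []), ([], []), ![hx, hy, [slot j]])

/-- The terms of a piece that depends on `y` (a shear in direction `x`). -/
def pX (j : ℕ) (p : Piece) : List Term := [sT j p.1.1 [] [bmp 0 p], sT j p.1.2 [] [bmp 1 p]]

/-- The terms of a piece that depends on `x` (a shear in direction `y`). -/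
def pY (j : ℕ) (p : Piece) : List Term := [sT j p.1.1 [bmp 0 p] [], sT j p.1.2 [bmp 1 p] []]

/-- The constant term `1`. -/
def oneT : Term := ((1, 0, 0, []), ([], []), ![[], [], []])

/-- The steady field of a program of seven shears. -/
def steady (L : ℕ → List Piece) : Fin 3 → List Term :=
  ![(L 2).flatMap (pX 2) ++ (L 4).flatMap (pX 4) ++ (L 6).flatMap (pX 6),
    (L 1).flatMap (pY 1) ++ (L 3).flatMap (pY 3) ++ (L 5).flatMap (pY 5) ++ (L 7).flatMap (pY 7),
    [oneT]]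

/-- The term `-π₆(16 t + 1) / κ`, which is `-1` on `[0, 1/4]` and `0` after `3/8`. -/
def rampT : Term := ((-1, 0, -1, []), ([.inr (0, 6, 16, -1)], []), ![[], [], []])

/-- The velocity: loading of the input, then the steady field is switched on. -/
def velS (L : ℕ → List Piece) (x₀ y₀ : ℚ) (i : Fin 3) : List Term :=
  (velI x₀ y₀ i ++ (steady L i).map (mulT rampT)) ++ steady L i

/-! ## The seven shears of a system of rules -/

/-- The row of a word of length one or two. -/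
def row (n : ℕ) (u : List ℕ) : ℕ := u.getD 0 0 * n + u.getD 1 0

/-- The words `[s, e]` for `ty s = 1` and `[s]` for the other `s`. -/
def words (n : ℕ) (ty : ℕ → ℕ) : List (List ℕ) :=
  (List.range n).flatMap fun s => if ty s = 1 then (List.range n).map fun e => [s, e] else [[s]]

/-- A piece on the cylinder of `u`, at height `o`. -/
def cylP (N A : ℕ) (o : ℚ) (u : List ℕ) (c₀ c₁ : ℚ) : Piece :=
  ((c₀, c₁), (4 * A * scQ N u, scQ N u * (4 * o + pushQ N u 0) - 1))

/-- A piece on the level `i`. -/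
def levP (A i : ℕ) (c₀ c₁ : ℚ) : Piece := ((c₀, c₁), ((A : ℚ), 3 * (i : ℚ)))

/-- The height of the row of `u`. -/
def ht (n : ℕ) (u : List ℕ) : ℚ := 3 * (row n u : ℚ) + 1

/-- The centre of level `i`. -/
def ce (i : ℕ) : ℚ := 3 * (i : ℚ) + 3 / 2

/-- Shear 1: sort by rows; halting states are sent to height `3/4`. -/
def q1 (n A : ℕ) (hl : ℕ → ℕ) (u : List ℕ) : Piece :=
  cylP (3 * n) A 0 u (if hl (u.getD 0 0) = 1 then 3 / 4 else ht n u / A) 0

/-- Shear 2. -/
def q2 (n A : ℕ) (r : Rule) : Piece :=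
  cylP (3 * n) A (ht n r.2.1.1) r.2.1.2
    ((-(slQ (3 * n) r.2.1.2 r.2.2.2 - 1) * (ht n r.2.1.1 + pushQ (3 * n) r.2.1.2 0 / 4) + ce r.1
      - pushQ (3 * n) r.2.1.1 0 / 4) / A) (slQ (3 * n) r.2.1.2 r.2.2.2 - 1)

/-- Shear 3. -/
def q3 (n A : ℕ) (r : Rule) : Piece :=
  levP A r.1 (-(ht n r.2.1.1 + pushQ (3 * n) r.2.1.2 0 / 4) / A) 1

/-- Shear 4. -/
def q4 (n A : ℕ) (r : Rule) : Piece :=
  levP A r.1 (-(slQ (3 * n) r.2.1.1 r.2.2.1 - 1) * ce r.1 / A) (slQ (3 * n) r.2.1.1 r.2.2.1 - 1)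

/-- Shear 5. -/
def q5 (n A : ℕ) (r : Rule) : Piece :=
  levP A r.1 (((slQ (3 * n) r.2.1.2 r.2.2.2 - 1) * ce r.1 + ht n r.2.2.1
    + pushQ (3 * n) r.2.2.2 0 / 4) / A) (-slQ (3 * n) r.2.1.2 r.2.2.2)

/-- Shear 6. -/
def q6 (n A : ℕ) (r : Rule) : Piece :=
  cylP (3 * n) A (ht n r.2.2.1) r.2.2.2 ((pushQ (3 * n) r.2.2.1 0 / 4 - ce r.1) / A) 0

/-- Shear 7: the rows are brought down. -/
def q7 (n A : ℕ) (u : List ℕ) : Piece := cylP (3 * n) A 0 u (-ht n u / A) 0

/-- The program of a system of rules. -/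
def prog (n A : ℕ) (hl tS tT : ℕ → ℕ) (R : List Rule) (j : ℕ) : List Piece :=
  if j = 1 then (words n tS).map (q1 n A hl) else if j = 2 then R.map (q2 n A)
  else if j = 3 then R.map (q3 n A) else if j = 4 then R.map (q4 n A)
  else if j = 5 then R.map (q5 n A) else if j = 6 then R.map (q6 n A)
  else if j = 7 then (words n tT).map (q7 n A) else []

/-! ## The area preserving reversible rules of a machine

Stack digits: `4 b` is the symbol `b`, `4 b + 1` the marked symbol, `2` the end marker,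
`4 γ + 3` a record of the history.  State digits: `4 s` with `s = 3 q + d` is an ordinary state,
`4 γ + 3` carries the record `γ` to the end marker, `4 s + 2` and `4 s + 1` come back. -/

open MachineCode

/-- Bound on all digits. -/
def nn (c : MachineCode) : ℕ := 4 * (3 * c.1 * (c.2.1 + 1))

/-- The scale. -/
def aa (c : MachineCode) : ℕ := 6 * (nn c * nn c) + 8

/-- The states that read from the left stack. -/
def tS (t : ℕ) : ℕ := if t % 4 = 1 then 1 else if t % 12 = 0 then 1 else 0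

/-- The states that are entered by writing on the left stack. -/
def tT (t : ℕ) : ℕ := if t % 4 = 3 then 1 else if t % 4 = 2 then 1 else if t % 12 = 8 then 1 else 0

/-- The halting state digits. -/
def hl (c : MachineCode) (t : ℕ) : ℕ := if t % 4 = 0 then (bif isH c (t / 12) then 1 else 0) else 0

/-- The transition recorded by `γ`. -/
def trG (c : MachineCode) (γ : ℕ) : ℕ × ℕ × ℕ :=
  tr c (γ / (c.2.1 + 1) / 3) (if γ % (c.2.1 + 1) = c.2.1 then c.2.2.2.1 else γ % (c.2.1 + 1))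

/-- The record of reading `e` in the state digit `t`. -/
def gam (c : MachineCode) (t e : ℕ) : ℕ := t / 4 * (c.2.1 + 1) + if e = 2 then c.2.1 else e / 4

/-- Source words. -/
def src (c : MachineCode) (t e : ℕ) : List ℕ × List ℕ :=
  if tS t = 1 then ([t, e], []) else ([t], if e = 2 then [2, 4 * c.2.2.2.1] else [e])

/-- Target words. -/
def tgt (c : MachineCode) (t e : ℕ) : List ℕ × List ℕ :=
  if t % 4 = 0 then
    (if e % 4 = 3 then (if t % 12 = 0 then ([t], [e]) else ([t, e], []))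
      else ([4 * gam c t e + 3, 4 * (trG c (gam c t e)).2.1 + 1], if e = 2 then [2] else []))
  else if t % 4 = 3 then
    (if e = 2 then ([4 * (3 * (trG c (t / 4)).1 + (trG c (t / 4)).2.2) + 2, t], [2])
      else ([t, e], []))
  else if t % 4 = 2 then ([t - 1], [2, 4 * c.2.2.2.1])
  else if e % 4 = 1 then (if t % 12 = 9 then ([t - 1, e - 1], []) else ([t - 1], [e - 1]))
  else ([t], [e])

/-- Which pairs carry a rule (value `1`). -/
def ok (c : MachineCode) (t e : ℕ) : ℕ :=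
  if t % 4 = 0 then
    (if 12 * c.1 ≤ t then 0 else if hl c t = 1 then 0
      else if e % 4 = 0 then (if 4 * c.2.1 ≤ e then 0 else 1)
      else if e % 4 = 3 then (if t % 12 = 4 then 0 else 1)
      else if e = 2 then (if t % 12 = 0 then 0 else 1) else 0)
  else if t % 4 = 3 then (if e % 4 = 1 then 0 else 1)
  else if t % 4 = 2 then (if e = 2 then 1 else 0)
  else if e = 2 then 0 else 1

/-- The rule of level `i`. -/
def rule (c : MachineCode) (i : ℕ) : Rule :=
  (i, src c (i / nn c) (i % nn c), tgt c (i / nn c) (i % nn c))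

/-- All rules. -/
def rules (c : MachineCode) : List Rule :=
  (List.range (nn c * nn c)).flatMap fun i =>
    if ok c (i / nn c) (i % nn c) = 1 then [rule c i] else []

/-- The code of the all-blank stack. -/
def eB (c : MachineCode) : ℚ := (3 * (4 * c.2.2.2.1 : ℕ) + 1) / ((3 * nn c : ℕ) - 1)

/-- The code of a stack. -/
def enc (c : MachineCode) (l : List ℕ) : ℚ := pushQ (3 * nn c) l (eB c)

/-- The program of a machine. -/
def progM (c : MachineCode) : ℕ → List Piece := prog (nn c) (aa c) (hl c) tS tT (rules c)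

/-- The initial pair of stack codes. -/
def start (c : MachineCode) (w : List ℕ) : ℚ × ℚ :=
  (enc c [4 * (3 * c.2.2.1 + 2)], enc c (w.map (fun a => 4 * a) ++ [2]))

/-- The velocity terms. -/
def vel (c : MachineCode) (w : List ℕ) : Fin 3 → List Term :=
  velS (progM c) ((start c w).1 / (4 * aa c)) ((start c w).2 / (4 * aa c))

/-- The force compiler. -/
def compile (z : MachineCode × List ℕ) : Fin 3 → List Term := nsOf (vel z.1 z.2)

/-- Well formed area preserving systems of rules. -/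
structure Good (n A : ℕ) (hl tS tT : ℕ → ℕ) (R : List Rule) : Prop where
  n_pos : 0 < n
  A_ge : 6 * (n * n) + 8 ≤ A
  level : ∀ r ∈ R, r.1 < n * n
  nodup : R.Nodup
  lev_ne : ∀ r ∈ R, ∀ r' ∈ R, r ≠ r' → r.1 ≠ r'.1
  mem_u : ∀ r ∈ R, r.2.1.1 ∈ words n tS
  mem_u' : ∀ r ∈ R, r.2.2.1 ∈ words n tT
  dig_v : ∀ r ∈ R, ∀ d ∈ r.2.1.2, d < n
  dig_v' : ∀ r ∈ R, ∀ d ∈ r.2.2.2, d < n
  src_ne : ∀ r ∈ R, ∀ r' ∈ R, r ≠ r' → r.2.1.1 = r'.2.1.1 → Incomp r.2.1.2 r'.2.1.2
  tgt_ne : ∀ r ∈ R, ∀ r' ∈ R, r ≠ r' → r.2.2.1 = r'.2.2.1 → Incomp r.2.2.2 r'.2.2.2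
  area : ∀ r ∈ R, r.2.1.1.length + r.2.1.2.length = r.2.2.1.length + r.2.2.2.length
  not_hl : ∀ r ∈ R, hl (r.2.1.1.getD 0 0) ≠ 1

/-- The pair of stack codes shows a halting state. -/
def Halt (n : ℕ) (hl tS : ℕ → ℕ) (z : ℚ × ℚ) : Prop :=
  ∃ u ∈ words n tS, hl (u.getD 0 0) = 1 ∧ ∃ ξ : ℚ, 0 ≤ ξ ∧ ξ ≤ 1 ∧ z.1 = pushQ (3 * n) u ξ ∧
    0 ≤ z.2 ∧ z.2 ≤ 1

end Vale.Agent.N113.St
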