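import Vale.Agent.N113.StGood
import Vale.Agent.N113.Box

/-!
# P113, steady version: seven planar shears make one step of the rule system
-/

namespace Vale.Agent.N113.St

open Set

/-- The displacement given by a list of pieces. -/
noncomputable def Hf (L : List Piece) (s : ℝ) : ℝ :=
  (L.map fun p => ((p.1.1 : ℝ) * per (Bump.eval (bmp 0 p)) s
    + (p.1.2 : ℝ) * per (Bump.eval (bmp 1 p)) s) / kappa).sum

/-- The support of the piece lies in `(-1/2, 1)`. -/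
def Win (p : Piece) : Prop := 0 < p.2.1 ∧ 1 - p.2.1 / 2 ≤ p.2.2 ∧ p.2.2 + 4 ≤ p.2.1

lemma per_bmp {p : Piece} (h : Win p) (k : ℕ) {s : ℝ} (h0 : 0 ≤ s) (h1 : s ≤ 1 / 2) :
    per (Bump.eval (bmp k p)) s = s ^ k * plateau 3 ((p.2.1 : ℝ) * s - p.2.2) := by
  have e : ∀ x : ℝ, Bump.eval (bmp k p) x = x ^ k * plateau 3 ((p.2.1 : ℝ) * x - p.2.2) := by
    intro x
    simp [bmp, Bump.eval]
  rw [per_eq_self_of_supp _ h0 h1, e]
  intro x hx
  have a0 : (0 : ℝ) < p.2.1 := by exact_mod_cast h.1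
  have a1 : (1 : ℝ) - p.2.1 / 2 ≤ p.2.2 := by exact_mod_cast h.2.1
  have a2 : (p.2.2 : ℝ) + 4 ≤ p.2.1 := by exact_mod_cast h.2.2
  rw [e, plateau_three_eq_zero, mul_zero]
  rcases hx with hx | hx
  · left
    nlinarith
  · right
    nlinarith

/-- The point is inside the plateau of the piece. -/
def In (p : Piece) (s : ℚ) : Prop := 1 ≤ p.2.1 * s - p.2.2 ∧ p.2.1 * s - p.2.2 ≤ 2

/-- The point is outside the support of the piece. -/
def Out (p : Piece) (s : ℚ) : Prop := p.2.1 * s - p.2.2 ≤ -1 ∨ 4 ≤ p.2.1 * s - p.2.2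

lemma Hf_zero {α : Type} (f : α → Piece) {s : ℚ} (h0 : 0 ≤ s) (h1 : s ≤ 1 / 2) :
    ∀ L : List α, (∀ r ∈ L, Win (f r)) → (∀ r ∈ L, Out (f r) s) → Hf (L.map f) s = 0
  | [], _, _ => rfl
  | a :: L, hw, ho => by
    have ih := Hf_zero f h0 h1 L (fun r hr => hw r (List.mem_cons_of_mem _ hr))
      fun r hr => ho r (List.mem_cons_of_mem _ hr)
    have h0' : (0 : ℝ) ≤ s := by exact_mod_cast h0
    have h1' : (s : ℝ) ≤ 1 / 2 := by
      have : ((s : ℚ) : ℝ) ≤ ((1 / 2 : ℚ) : ℝ) := by exact_mod_cast h1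
      simpa using this
    unfold Hf at ih ⊢
    rw [List.map_cons, List.map_cons, List.sum_cons, ih, per_bmp (hw a List.mem_cons_self) _ h0' h1',
      per_bmp (hw a List.mem_cons_self) _ h0' h1', plateau_three_eq_zero]
    · simp
    · rcases ho a List.mem_cons_self with h | h
      · left
        exact_mod_cast h
      · right
        exact_mod_cast h

lemma Hf_single {α : Type} (f : α → Piece) {s : ℚ} (h0 : 0 ≤ s) (h1 : s ≤ 1 / 2) {r : α}
    (hi : In (f r) s) : ∀ L : List α, L.Nodup → r ∈ L → (∀ r ∈ L, Win (f r)) →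
      (∀ r' ∈ L, r ≠ r' → Out (f r') s) →
      Hf (L.map f) s = (((f r).1.1 + (f r).1.2 * s : ℚ) : ℝ)
  | [], _, h, _, _ => by simp at h
  | a :: L, hnd, hr, hw, ho => by
    obtain ⟨ha, hL⟩ := List.nodup_cons.1 hnd
    have hw' : ∀ r ∈ L, Win (f r) := fun r hr => hw r (List.mem_cons_of_mem _ hr)
    have e : Hf ((a :: L).map f) s = Hf ([a].map f) s + Hf (L.map f) s := by simp [Hf]
    rw [e]
    by_cases hra : r = a
    · subst hra
      rw [Hf_zero f h0 h1 L hw' fun r' hr' =>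
        ho r' (List.mem_cons_of_mem _ hr') fun e => ha (e ▸ hr'), add_zero]
      have h0' : (0 : ℝ) ≤ s := by exact_mod_cast h0
      have h1' : (s : ℝ) ≤ 1 / 2 := by
        have : ((s : ℚ) : ℝ) ≤ ((1 / 2 : ℚ) : ℝ) := by exact_mod_cast h1
        simpa using this
      have hk := kappa_pos.ne'
      simp only [Hf, List.map_cons, List.map_nil, List.sum_cons, List.sum_nil,
        per_bmp (hw r List.mem_cons_self) _ h0' h1']
      rw [plateau_three_eq_kappa (by exact_mod_cast hi.1) (by exact_mod_cast hi.2)]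
      push_cast
      field_simp
      ring
    · rw [Hf_zero f h0 h1 [a] (by simpa using hw a List.mem_cons_self)
        (by simpa using ho a List.mem_cons_self hra), zero_add]
      exact Hf_single f h0 h1 hi L hL ((List.mem_cons.1 hr).resolve_left hra) hw'
        fun r' hr' => ho r' (List.mem_cons_of_mem _ hr')

/-! ## Words -/

section Words
variable {n : ℕ} {ty : ℕ → ℕ} {u u' : List ℕ}

lemma words_dig (h : u ∈ words n ty) : ∀ d ∈ u, d < n := by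
  obtain ⟨s, hs, ⟨-, e, he, rfl⟩ | ⟨-, rfl⟩⟩ := mem_words.1 h <;> simp [*]

lemma words_row (h : u ∈ words n ty) : row n u < n * n := by
  obtain ⟨s, hs, ⟨-, e, he, rfl⟩ | ⟨-, rfl⟩⟩ := mem_words.1 h
  · simp only [row, List.getD_cons_zero, List.getD_cons_succ]
    nlinarith
  · simp only [row, List.getD_cons_zero, List.getD_cons_succ, List.getD_nil]
    nlinarith

lemma words_ne (h : u ∈ words n ty) (h' : u' ∈ words n ty) (hne : u ≠ u') :
    Incomp u u' ∧ row n u ≠ row n u' := by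
  have key : ∀ s e s' e' : ℕ, e < n → e' < n → s * n + e = s' * n + e' → s = s' ∧ e = e' := by
    intro s e s' e' he he' h
    have h1 : s = s' := by
      rcases lt_trichotomy s s' with a | a | a
      · nlinarith
      · exact a
      · nlinarith
    subst h1
    exact ⟨rfl, by omega⟩
  obtain ⟨s, hs, ⟨a, e, he, rfl⟩ | ⟨a, rfl⟩⟩ := mem_words.1 h <;>
    obtain ⟨s', hs', ⟨a', e', he', rfl⟩ | ⟨a', rfl⟩⟩ := mem_words.1 h' <;>
    simp only [row, List.getD_cons_zero, List.getD_cons_succ, List.getD_nil, Incomp, or_false]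
  · refine ⟨by by_contra hc; push Not at hc; exact hne (by rw [hc.1, hc.2]), fun h => ?_⟩
    obtain ⟨rfl, rfl⟩ := key _ _ _ _ he he' h
    exact hne rfl
  · have : s ≠ s' := fun e => a' (e ▸ a)
    exact ⟨this, fun h => this (key _ _ _ _ he (by omega) h).1⟩
  · have : s ≠ s' := fun e => a (e ▸ a')
    exact ⟨this, fun h => this (key _ _ _ _ (by omega) he' h).1⟩
  · have : s ≠ s' := fun e => hne (by rw [e])
    exact ⟨this, fun h => this (key _ _ _ _ (by omega) (by omega) h).1⟩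

lemma words_nodup (n : ℕ) (ty : ℕ → ℕ) : (words n ty).Nodup := by
  unfold words
  rw [List.nodup_flatMap]
  refine ⟨fun s _ => ?_, List.nodup_range.pairwise_of_forall_ne ?_⟩
  · split_ifs
    · exact List.nodup_range.map fun a b h => by simpa using h
    · simp
  · intro i _ j _ hij
    simp only [Function.onFun, List.disjoint_left]
    intro u h1 h2
    have k : ∀ s, u ∈ (if ty s = 1 then (List.range n).map fun e => [s, e] else [[s]]) →
        u.getD 0 0 = s := by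
      intro s hs
      split_ifs at hs
      · obtain ⟨e, -, rfl⟩ := List.mem_map.1 hs
        rfl
      · rw [List.mem_singleton.1 hs]
        rfl
    exact hij ((k i h1).symm.trans (k j h2))

end Words

/-! ## Cylinder pieces and level pieces -/

section Pieces
variable {n A : ℕ}

lemma cyl_arg (hA : 0 < A) (o o' X c₀ c₁ : ℚ) (u : List ℕ) :
    (cylP (3 * n) A o u c₀ c₁).2.1 * ((o' + X / 4) / A) - (cylP (3 * n) A o u c₀ c₁).2.2
      = scQ (3 * n) u * (4 * (o' - o) + X - pushQ (3 * n) u 0) + 1 := by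
  have : (A : ℚ) ≠ 0 := by positivity
  simp only [cylP]
  field_simp
  ring

lemma cyl_win (hn : 0 < n) {o : ℚ} (h0 : 0 ≤ o) (h1 : o + 1 ≤ A) {u : List ℕ}
    (hu : ∀ d ∈ u, d < n) (c₀ c₁ : ℚ) : Win (cylP (3 * n) A o u c₀ c₁) := by
  obtain ⟨p0, p1⟩ := pushQ_mem' hn hu (le_refl (0 : ℚ)) zero_le_one
  have hs := one_le_scQ (show 0 < 3 * n by omega) u
  simp only [Win, cylP]
  refine ⟨by nlinarith, by nlinarith, by nlinarith⟩

lemma cyl_in (hn : 0 < n) (hA : 0 < A) (o c₀ c₁ : ℚ) (u : List ℕ) {ξ : ℚ} (h0 : 0 ≤ ξ)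
    (h1 : ξ ≤ 1) : In (cylP (3 * n) A o u c₀ c₁) ((o + pushQ (3 * n) u ξ / 4) / A) := by
  unfold In
  rw [cyl_arg hA, sub_self, mul_zero, zero_add, pushQ_affine (by omega)]
  constructor <;> linarith

lemma cyl_out (hn : 0 < n) (hA : 0 < A) (o c₀ c₁ : ℚ) {u w : List ℕ} (h : Incomp w u)
    (hw : ∀ d ∈ w, d < n) (hu : ∀ d ∈ u, d < n) {ξ : ℚ} (h0 : 0 ≤ ξ) (h1 : ξ ≤ 1) :
    Out (cylP (3 * n) A o u c₀ c₁) ((o + pushQ (3 * n) w ξ / 4) / A) := by
  unfold Out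
  rw [cyl_arg hA, sub_self, mul_zero, zero_add]
  rcases pushQ_sep hn h0 h1 h hw hu with h' | h'
  · left
    linarith
  · right
    linarith

lemma cyl_out' (hn : 0 < n) (hA : 0 < A) {a a' : ℕ} (h : a ≠ a') (c₀ c₁ : ℚ) {u : List ℕ}
    (hu : ∀ d ∈ u, d < n) {X : ℚ} (h0 : 0 ≤ X) (h1 : X ≤ 1) :
    Out (cylP (3 * n) A (3 * (a : ℚ) + 1) u c₀ c₁) ((3 * (a' : ℚ) + 1 + X / 4) / A) := by
  obtain ⟨p0, p1⟩ := pushQ_mem' hn hu (le_refl (0 : ℚ)) zero_le_one
  have hs := one_le_scQ (show 0 < 3 * n by omega) u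
  unfold Out
  rw [cyl_arg hA]
  rcases lt_or_gt_of_ne h with k | k
  · right
    have : (a : ℚ) + 1 ≤ a' := by exact_mod_cast k
    nlinarith
  · left
    have : (a' : ℚ) + 1 ≤ a := by exact_mod_cast k
    nlinarith

lemma lev_win {i : ℕ} (h : 6 * i + 8 ≤ A) (c₀ c₁ : ℚ) : Win (levP A i c₀ c₁) := by
  have h' : 6 * (i : ℚ) + 8 ≤ A := by exact_mod_cast h
  have h0 : (0 : ℚ) ≤ i := by positivity
  simp only [Win, levP]
  refine ⟨by linarith, by linarith, by linarith⟩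

lemma lev_arg (hA : 0 < A) (i j : ℕ) (c₀ c₁ w : ℚ) :
    (levP A i c₀ c₁).2.1 * ((ce j + w) / A) - (levP A i c₀ c₁).2.2 = 3 * ((j : ℚ) - i) + 3 / 2 + w := by
  have : (A : ℚ) ≠ 0 := by positivity
  simp only [levP, ce]
  field_simp
  ring

lemma lev_single {R : List Rule} (hA : 0 < A) (hR : R.Nodup) (hl : ∀ r ∈ R, 6 * r.1 + 8 ≤ A)
    (hne : ∀ r ∈ R, ∀ r' ∈ R, r ≠ r' → r.1 ≠ r'.1) (c₀ c₁ : Rule → ℚ) {r : Rule} (hr : r ∈ R)
    {w : ℚ} (h0 : -1 / 2 ≤ w) (h1 : w ≤ 1 / 2) :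
    (0 ≤ (ce r.1 + w) / A ∧ (ce r.1 + w) / A ≤ 1 / 2) ∧
    Hf (R.map fun r => levP A r.1 (c₀ r) (c₁ r)) ((ce r.1 + w) / A : ℚ)
      = ((c₀ r + c₁ r * ((ce r.1 + w) / A) : ℚ) : ℝ) := by
  have hA' : (0 : ℚ) < A := by exact_mod_cast hA
  have h' : 6 * (r.1 : ℚ) + 8 ≤ A := by exact_mod_cast hl r hr
  have h2 : (0 : ℚ) ≤ r.1 := by positivity
  have b0 : 0 ≤ (ce r.1 + w) / A := div_nonneg (by unfold ce; linarith) hA'.le
  have b1 : (ce r.1 + w) / A ≤ 1 / 2 := by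
    rw [div_le_iff₀ hA']
    unfold ce
    linarith
  refine ⟨⟨b0, b1⟩, Hf_single (fun r : Rule => levP A r.1 (c₀ r) (c₁ r)) b0 b1 ?_ R hR hr
    (fun r' hr' => lev_win (hl r' hr') _ _) fun r' hr' h => ?_⟩
  · unfold In
    rw [lev_arg hA]
    constructor <;> linarith
  · unfold Out
    rw [lev_arg hA]
    rcases lt_or_gt_of_ne (hne r hr r' hr' h) with k | k
    · left
      have : (r.1 : ℚ) + 1 ≤ r'.1 := by exact_mod_cast k
      linarith
    · right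
      have : (r'.1 : ℚ) + 1 ≤ r.1 := by exact_mod_cast k
      linarith

/-- A shear that depends on the word on top of the left stack. -/
lemma word_single (hn : 0 < n) (hA : 0 < A) {ty : ℕ → ℕ} (c : List ℕ → ℚ) {u : List ℕ}
    (hu : u ∈ words n ty) {ξ : ℚ} (h0 : 0 ≤ ξ) (h1 : ξ ≤ 1) :
    Hf ((words n ty).map fun u => cylP (3 * n) A 0 u (c u) 0) (pushQ (3 * n) u ξ / (4 * A) : ℚ)
      = (c u : ℝ) := by
  have hA' : (1 : ℚ) ≤ A := by exact_mod_cast hA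
  obtain ⟨p0, p1⟩ := pushQ_mem' hn (words_dig hu) h0 h1
  have e : pushQ (3 * n) u ξ / (4 * A) = (0 + pushQ (3 * n) u ξ / 4) / A := by
    field_simp
    ring
  rw [Hf_single (fun u => cylP (3 * n) A 0 u (c u) 0) (r := u) (by positivity)
    (by rw [div_le_iff₀ (by positivity)]; linarith) (by rw [e]; exact cyl_in hn hA _ _ _ _ h0 h1)
    _ (words_nodup n ty) hu (fun w hw => cyl_win hn le_rfl (by linarith) (words_dig hw) _ _)
    fun w hw h => by
      rw [e]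
      exact cyl_out hn hA _ _ _ (words_ne hu hw h).1 (words_dig hu) (words_dig hw) h0 h1]
  simp [cylP]

/-- A shear that depends on the row and on the word on top of the right stack. -/
lemma row_single (hn : 0 < n) (hA : 6 * (n * n) + 8 ≤ A) {ty : ℕ → ℕ} {R : List Rule}
    (hR : R.Nodup) (U V : Rule → List ℕ) (hU : ∀ r ∈ R, U r ∈ words n ty)
    (hV : ∀ r ∈ R, ∀ d ∈ V r, d < n)
    (hne : ∀ r ∈ R, ∀ r' ∈ R, r ≠ r' → U r = U r' → Incomp (V r) (V r')) (c₀ c₁ : Rule → ℚ)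
    {r : Rule} (hr : r ∈ R) {η : ℚ} (h0 : 0 ≤ η) (h1 : η ≤ 1) :
    (0 ≤ (ht n (U r) + pushQ (3 * n) (V r) η / 4) / A ∧
      (ht n (U r) + pushQ (3 * n) (V r) η / 4) / A ≤ 1 / 2) ∧
    Hf (R.map fun r => cylP (3 * n) A (ht n (U r)) (V r) (c₀ r) (c₁ r))
        ((ht n (U r) + pushQ (3 * n) (V r) η / 4) / A : ℚ)
      = ((c₀ r + c₁ r * ((ht n (U r) + pushQ (3 * n) (V r) η / 4) / A) : ℚ) : ℝ) := by
  have hA0 : 0 < A := by omega
  have hA' : (0 : ℚ) < A := by exact_mod_cast hA0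
  have hrow : ∀ r ∈ R, 1 ≤ ht n (U r) ∧ 2 * ht n (U r) + 6 ≤ A := by
    intro r hr
    have h2 : 6 * row n (U r) + 8 ≤ A := by have := words_row (hU r hr); omega
    have h3 : 6 * (row n (U r) : ℚ) + 8 ≤ A := by exact_mod_cast h2
    have h4 : (0 : ℚ) ≤ row n (U r) := by positivity
    unfold ht
    constructor <;> linarith
  obtain ⟨p0, p1⟩ := pushQ_mem' hn (hV r hr) h0 h1
  have b0 : 0 ≤ (ht n (U r) + pushQ (3 * n) (V r) η / 4) / A :=
    div_nonneg (by linarith [(hrow r hr).1]) hA'.le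
  have b1 : (ht n (U r) + pushQ (3 * n) (V r) η / 4) / A ≤ 1 / 2 := by
    rw [div_le_iff₀ hA']
    linarith [(hrow r hr).2]
  refine ⟨⟨b0, b1⟩, Hf_single (fun r => cylP (3 * n) A (ht n (U r)) (V r) (c₀ r) (c₁ r)) b0 b1
    (cyl_in hn hA0 _ _ _ _ h0 h1) R hR hr (fun r' hr' => cyl_win hn (by linarith [(hrow r' hr').1])
      (by linarith [(hrow r' hr').1, (hrow r' hr').2]) (hV r' hr') _ _) fun r' hr' h => ?_⟩
  by_cases e : U r = U r'
  · rw [e]
    exact cyl_out hn hA0 _ _ _ (hne r hr r' hr' h e) (hV r hr) (hV r' hr') h0 h1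
  · exact cyl_out' hn hA0 (words_ne (hU r hr) (hU r' hr') e).2.symm _ _ (hV r' hr') p0 p1

end Pieces

variable {n A : ℕ} {hl tS tT : ℕ → ℕ} {R : List Rule}

theorem geo_halt (G : Good n A hl tS tT R) {z : ℚ × ℚ} (h : Halt n hl tS z) :
    Hf (prog n A hl tS tT R 1) (z.1 / (4 * A) : ℚ) = 3 / 4 := by
  obtain ⟨u, hu, h1, ξ, a0, a1, e, -⟩ := h
  have := word_single G.n_pos (show 0 < A by have := G.A_ge; omega)
    (fun u => if hl (u.getD 0 0) = 1 then 3 / 4 else ht n u / A) hu a0 a1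
  rw [e]
  refine Eq.trans this ?_
  rw [if_pos h1]
  norm_num

theorem geo_step (G : Good n A hl tS tT R) {z z' : ℚ × ℚ} (h : Step (3 * n) R z z') :
    ∃ y1 x2 y3 x4 y5 : ℚ, (0 ≤ y1 ∧ y1 ≤ 1 / 2) ∧ (0 ≤ y3 ∧ y3 ≤ 1 / 2) ∧ (0 ≤ y5 ∧ y5 ≤ 1 / 2) ∧
      (0 ≤ z.2 ∧ z.2 ≤ 1) ∧ (0 ≤ z'.2 ∧ z'.2 ≤ 1) ∧
      Hf (prog n A hl tS tT R 1) (z.1 / (4 * A) : ℚ) = (y1 - z.2 / (4 * A) : ℚ) ∧
      Hf (prog n A hl tS tT R 2) y1 = (x2 - z.1 / (4 * A) : ℚ) ∧
      Hf (prog n A hl tS tT R 3) x2 = (y3 - y1 : ℚ) ∧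
      Hf (prog n A hl tS tT R 4) y3 = (x4 - x2 : ℚ) ∧
      Hf (prog n A hl tS tT R 5) x4 = (y5 - y3 : ℚ) ∧
      Hf (prog n A hl tS tT R 6) y5 = (z'.1 / (4 * A) - x4 : ℚ) ∧
      Hf (prog n A hl tS tT R 7) (z'.1 / (4 * A) : ℚ) = (z'.2 / (4 * A) - y5 : ℚ) := by
  obtain ⟨r, hr, ξ, η, a0, a1, b0, b1, rfl, rfl⟩ := h
  have hn := G.n_pos
  have hN : 0 < 3 * n := by omega
  have hA : 0 < A := by have := G.A_ge; omega
  have hA' : (A : ℚ) ≠ 0 := by positivity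
  have hlev : ∀ r ∈ R, 6 * r.1 + 8 ≤ A := fun r hr => by
    have := G.level r hr
    have := G.A_ge
    omega
  -- local coordinates
  have loc : ∀ (w : List ℕ) (ζ : ℚ), 0 ≤ ζ → ζ ≤ 1 →
      pushQ (3 * n) w ζ = pushQ (3 * n) w 0 + ζ / scQ (3 * n) w ∧ 0 ≤ ζ / scQ (3 * n) w ∧
        ζ / scQ (3 * n) w ≤ 1 := by
    intro w ζ h0 h1
    have s1 := one_le_scQ hN w
    have s2 := pushQ_affine hN w ζ
    refine ⟨?_, by positivity, by rw [div_le_one (by linarith)]; linarith⟩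
    have s3 : ζ / scQ (3 * n) w = pushQ (3 * n) w ζ - pushQ (3 * n) w 0 := by
      rw [div_eq_iff (by linarith), mul_comm, s2]
    rw [s3]
    ring
  obtain ⟨eX, x0, x1⟩ := loc r.2.1.1 ξ a0 a1
  obtain ⟨eX', x0', x1'⟩ := loc r.2.2.1 ξ a0 a1
  obtain ⟨eY, y0, y1⟩ := loc r.2.1.2 η b0 b1
  obtain ⟨eY', y0', y1'⟩ := loc r.2.2.2 η b0 b1
  have su := (scQ_pos hN r.2.1.1).ne'
  have su' := (scQ_pos hN r.2.2.1).ne'
  have sv := (scQ_pos hN r.2.1.2).ne'
  have sv' := (scQ_pos hN r.2.2.2).ne'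
  have hlam : slQ (3 * n) r.2.1.1 r.2.2.1 * (ξ / scQ (3 * n) r.2.1.1) = ξ / scQ (3 * n) r.2.2.1 := by
    unfold slQ
    field_simp
  have hmu : slQ (3 * n) r.2.1.2 r.2.2.2 * (η / scQ (3 * n) r.2.1.2) = η / scQ (3 * n) r.2.2.2 := by
    unfold slQ
    field_simp
  have hlm : slQ (3 * n) r.2.1.1 r.2.2.1 * slQ (3 * n) r.2.1.2 r.2.2.2 = 1 := by
    unfold slQ
    rw [div_mul_div_comm, div_eq_one_iff_eq (mul_ne_zero su' sv')]
    unfold scQ
    rw [← pow_add, ← pow_add, G.area r hr]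
  have k1 := word_single hn hA (fun u => if hl (u.getD 0 0) = 1 then 3 / 4 else ht n u / A)
    (G.mem_u r hr) a0 a1
  have k7 := word_single hn hA (fun u => -ht n u / A) (G.mem_u' r hr) a0 a1
  have k2 := row_single hn G.A_ge G.nodup (fun r => r.2.1.1) (fun r => r.2.1.2) G.mem_u G.dig_v
    G.src_ne (fun r => (q2 n A r).1.1) (fun r => (q2 n A r).1.2) hr b0 b1
  have k6 := row_single hn G.A_ge G.nodup (fun r => r.2.2.1) (fun r => r.2.2.2) G.mem_u' G.dig_v'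
    G.tgt_ne (fun r => (q6 n A r).1.1) (fun r => (q6 n A r).1.2) hr b0 b1
  have k3 := lev_single hA G.nodup hlev G.lev_ne (fun r => (q3 n A r).1.1) (fun r => (q3 n A r).1.2)
    hr (w := (ξ / scQ (3 * n) r.2.1.1 + η / scQ (3 * n) r.2.2.2 - η / scQ (3 * n) r.2.1.2) / 4)
    (by linarith) (by linarith)
  have k4 := lev_single hA G.nodup hlev G.lev_ne (fun r => (q4 n A r).1.1) (fun r => (q4 n A r).1.2)
    hr (w := (ξ / scQ (3 * n) r.2.1.1 + η / scQ (3 * n) r.2.2.2) / 4) (by linarith) (by linarith)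
  have k5 := lev_single hA G.nodup hlev G.lev_ne (fun r => (q5 n A r).1.1) (fun r => (q5 n A r).1.2)
    hr (w := ξ / scQ (3 * n) r.2.2.1 / 4) (by linarith) (by linarith)
  rw [if_neg (G.not_hl r hr)] at k1
  refine ⟨_, (ce r.1 + (ξ / scQ (3 * n) r.2.1.1 + η / scQ (3 * n) r.2.2.2
      - η / scQ (3 * n) r.2.1.2) / 4) / A, _, (ce r.1 + ξ / scQ (3 * n) r.2.2.1 / 4) / A, _,
    k2.1, k4.1, k6.1, pushQ_mem' hn (G.dig_v r hr) b0 b1, pushQ_mem' hn (G.dig_v' r hr) b0 b1,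
    k1.trans ?_, k2.2.trans ?_, k3.2.trans ?_, k4.2.trans ?_, k5.2.trans ?_, k6.2.trans ?_,
    k7.trans ?_⟩
  all_goals
    rw [Rat.cast_inj]
    simp only [q2, q3, q4, q5, q6, cylP, levP]
  all_goals
    try rw [eX]
    try rw [eY]
    try rw [eX']
    try rw [eY']
    generalize ξ / scQ (3 * n) r.2.1.1 = a at *
    generalize ξ / scQ (3 * n) r.2.2.1 = a' at *
    generalize η / scQ (3 * n) r.2.1.2 = b at *
    generalize η / scQ (3 * n) r.2.2.2 = b' at *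
    generalize slQ (3 * n) r.2.1.1 r.2.2.1 = lam at *
    generalize slQ (3 * n) r.2.1.2 r.2.2.2 = mu at *
    subst hlam hmu
    field_simp
  · ring
  · ring
  · ring
  · linear_combination b * hlm
  · linear_combination (-a) * hlm
  · ring
  · ring

end Vale.Agent.N113.St
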