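import Vale.Agent.N113.StPde
import Vale.Agent.N113.StGeo
import Vale.Agent.N113.Main

/-!
# P113, steady version: trajectories of the velocity field
-/

namespace Vale.Agent.N113.St

open Set Traj

lemma sum_pX (ν t : ℝ) (j : ℕ) (L : List Piece) (x : T3) :
    sumTerms ν (L.flatMap (pX j)) t x
      = 16 / kappa * per (Bump.eval (slot j)) (rep (x 2)) * Hf L (rep (x 1)) := by
  induction L with
  | nil => simp [sumTerms, Hf]
  | cons p L ih =>
    have e : Hf (p :: L) (rep (x 1)) = Hf [p] (rep (x 1)) + Hf L (rep (x 1)) := by simp [Hf]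
    have := kappa_pos.ne'
    rw [List.flatMap_cons, sumTerms_append, ih, e, mul_add]
    congr 1
    simp [pX, sT, sumTerms, Term.eval, Term.coeff, Term.time, Fin.prod_univ_three, Hf]
    field_simp

lemma sum_pY (ν t : ℝ) (j : ℕ) (L : List Piece) (x : T3) :
    sumTerms ν (L.flatMap (pY j)) t x
      = 16 / kappa * per (Bump.eval (slot j)) (rep (x 2)) * Hf L (rep (x 0)) := by
  induction L with
  | nil => simp [sumTerms, Hf]
  | cons p L ih =>
    have e : Hf (p :: L) (rep (x 0)) = Hf [p] (rep (x 0)) + Hf L (rep (x 0)) := by simp [Hf]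
    have := kappa_pos.ne'
    rw [List.flatMap_cons, sumTerms_append, ih, e, mul_add]
    congr 1
    simp [pY, sT, sumTerms, Term.eval, Term.coeff, Term.time, Fin.prod_univ_three, Hf]
    field_simp

lemma Hf_rep (L : List Piece) (s : ℝ) : Hf L (rep (s : UnitAddCircle)) = Hf L s := by
  simp only [Hf, per_rep]

/-- The steady field. -/
noncomputable def V (L : ℕ → List Piece) (i : Fin 3) (x : T3) : ℝ := sumTerms 0 (steady L i) 0 x

/-- The direction of the shear number `k`. -/
def dirS (k : ℕ) : Fin 3 := if k % 2 = 1 then 1 else 0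

/-- The displacement of the shear number `k`. -/
noncomputable def HS (L : ℕ → List Piece) (k : ℕ) (x : T3) : ℝ :=
  Hf (L (k % 8)) (rep (x (if k % 2 = 1 then 0 else 1)))

variable {L : ℕ → List Piece}

lemma sum_steady (L : ℕ → List Piece) (ν t : ℝ) (i : Fin 3) (x : T3) :
    sumTerms ν (steady L i) t x = V L i x := by
  fin_cases i
  · simp only [V, steady, Fin.zero_eta, Matrix.cons_val_zero, sumTerms_append, sum_pX]
  · simp only [V, steady, Fin.mk_one, Matrix.cons_val_one, Matrix.cons_val_zero, sumTerms_append,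
      sum_pY]
  · simp [V, steady, oneT, sumTerms, Term.eval, Term.coeff, Term.time]

lemma V_two (L : ℕ → List Piece) (x : T3) : V L 2 x = 1 := by
  simp [V, steady, oneT, sumTerms, Term.eval, Term.coeff, Term.time, Fin.prod_univ_three]

lemma V_slot (h0 : L 0 = []) (k : ℕ) {s : ℝ} (hs : s ∈ Icc ((k : ℝ) / 8) (((k : ℝ) + 1) / 8))
    {x : T3} (hx : x 2 = (s : UnitAddCircle)) {i : Fin 3} (hi : i ≠ 2) :
    V L i x = if i = dirS k then 16 / kappa * rho (16 * s - (2 * k + 1)) * HS L k x else 0 := by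
  have hp : ∀ j, j < 8 → per (Bump.eval (slot j)) (rep (x 2))
      = if k % 8 = j then rho (16 * s - (2 * k + 1)) else 0 := fun j hj => by
    rw [hx, per_rep, per_slot hj k hs]
  have hk : k % 2 = k % 8 % 2 := by omega
  have h8 : k % 8 < 8 := by omega
  fin_cases i
  · simp only [V, steady, Fin.zero_eta, Matrix.cons_val_zero, sumTerms_append, sum_pX, dirS, HS,
      hp 2 (by norm_num), hp 4 (by norm_num), hp 6 (by norm_num), hk]
    generalize k % 8 = r at *
    interval_cases r <;> simp [h0, Hf]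
  · simp only [V, steady, Fin.mk_one, Matrix.cons_val_one, Matrix.cons_val_zero, sumTerms_append,
      sum_pY, dirS, HS, hp 1 (by norm_num), hp 3 (by norm_num), hp 5 (by norm_num),
      hp 7 (by norm_num), hk]
    generalize k % 8 = r at *
    interval_cases r <;> simp
  · exact absurd rfl hi

lemma V_low (h0 : L 0 = []) {s : ℝ} (hs : s ∈ Icc (0 : ℝ) (1 / 8)) {x : T3}
    (hx : x 2 = (s : UnitAddCircle)) {i : Fin 3} (hi : i ≠ 2) : V L i x = 0 := by
  rw [V_slot h0 0 (by simpa using hs) hx hi]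
  simp [HS, h0, Hf]

/-- The loading velocity. -/
noncomputable def load (x₀ y₀ : ℚ) (t : ℝ) : R3 :=
  ![16 / kappa * rho (16 * t - (2 * (0 : ℕ) + 1)) * x₀,
    16 / kappa * rho (16 * t - (2 * (1 : ℕ) + 1)) * y₀, 0]

lemma sum_velS (L : ℕ → List Piece) (x₀ y₀ : ℚ) (ν : ℝ) {t : ℝ} (ht : 0 ≤ t) (i : Fin 3) (x : T3) :
    sumTerms ν (velS L x₀ y₀ i) t x = load x₀ y₀ t i + frac 2 t * V L i x := by
  have h1 : rampT.eval ν t x = frac 2 t - 1 := by
    have := kappa_pos.ne'
    simp only [rampT, Term.eval, Term.coeff, Term.time, Fin.prod_univ_three, Bump.eval, plateau,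
      frac, List.map_cons, List.map_nil, List.prod_cons, List.prod_nil]
    push_cast
    rw [sigma_of_ge (s := 16 * t - -1) (by linarith), show 16 * t - -1 - 6 = 16 * t - (2 * 2 + 1) by
      ring]
    simp
    field_simp
    ring
  have h2 : sumTerms ν (velI x₀ y₀ i) t x = load x₀ y₀ t i := by
    fin_cases i
    · exact sumTerms_iTerm ν 0 x₀ t x
    · exact sumTerms_iTerm ν 1 y₀ t x
    · rfl
  rw [velS, sumTerms_append, sumTerms_append, sum_map_mulT, h1, h2, sum_steady]
  ring

lemma frac_of_le (k : ℕ) {t : ℝ} (h : t ≤ k / 8) : frac k t = 0 := by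
  unfold frac
  rw [sigma_of_le (by linarith), zero_div]

lemma frac_of_ge (k : ℕ) {t : ℝ} (h : (k + 1) / 8 ≤ t) : frac k t = 1 := by
  unfold frac
  rw [sigma_of_ge (by linarith), div_self kappa_pos.ne']

lemma load_late (x₀ y₀ : ℚ) {t : ℝ} (ht : 1 / 4 ≤ t) (i : Fin 3) : load x₀ y₀ t i = 0 := by
  fin_cases i
  · simp only [load, Fin.zero_eta, Matrix.cons_val_zero]
    rw [rho_eq_zero (le_abs.2 (Or.inl (by push_cast; linarith)))]
    ring
  · simp only [load, Fin.mk_one, Matrix.cons_val_one, Matrix.cons_val_zero]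
    rw [rho_eq_zero (le_abs.2 (Or.inl (by push_cast; linarith)))]
    ring
  · rfl

lemma load_zero (x₀ y₀ : ℚ) (i : Fin 3) : load x₀ y₀ 0 i = 0 := by
  fin_cases i
  · simp only [load, Fin.zero_eta, Matrix.cons_val_zero]
    rw [rho_eq_zero (by norm_num)]
    ring
  · simp only [load, Fin.mk_one, Matrix.cons_val_one, Matrix.cons_val_zero]
    rw [rho_eq_zero (by norm_num)]
    ring
  · rfl

/-- The height of every particle that starts at height `0`. -/
noncomputable def Z (t : ℝ) : ℝ := ∫ s in (0 : ℝ)..t, frac 2 s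

lemma cont_frac (k : ℕ) : Continuous (frac k) :=
  continuous_iff_continuousAt.2 fun t => (hasDerivAt_frac k t).continuousAt

lemma hasDerivAt_Z (t : ℝ) : HasDerivAt Z (frac 2 t) t :=
  ((cont_frac 2).integral_hasStrictDerivAt 0 t).hasDerivAt

lemma Z_zero : Z 0 = 0 := by simp [Z]

lemma Z_mono : Monotone Z :=
  monotone_of_deriv_nonneg (fun t => (hasDerivAt_Z t).differentiableAt) fun t => by
    rw [(hasDerivAt_Z t).deriv]
    exact (frac_mem 2 t).1

lemma Z_nonneg {t : ℝ} (ht : 0 ≤ t) : 0 ≤ Z t := Z_zero ▸ Z_mono ht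

lemma Z_le : Z (3 / 8) ≤ 1 / 8 := by
  have h1 : Z (1 / 4) = Z 0 :=
    const_of_deriv_zero (f := Z) (a := 0) (b := 1 / 4) (fun t ht => by
      have := hasDerivAt_Z t
      rw [frac_of_le 2 (by push_cast; linarith [ht.2])] at this
      exact this.hasDerivWithinAt) _ ⟨by norm_num, le_rfl⟩
  have h2 : Monotone fun t => t - Z t :=
    monotone_of_deriv_nonneg (fun t => ((hasDerivAt_id t).sub (hasDerivAt_Z t)).differentiableAt)
      fun t => by
        have : HasDerivAt (fun t => t - Z t) (1 - frac 2 t) t :=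
          (hasDerivAt_id t).sub (hasDerivAt_Z t)
        rw [this.deriv]
        linarith [(frac_mem 2 t).2]
  have h3 := h2 (show (1 / 4 : ℝ) ≤ 3 / 8 by norm_num)
  simp only [h1, Z_zero] at h3
  linarith

lemma Z_low {t : ℝ} (ht : t ∈ Icc (0 : ℝ) (3 / 8)) : Z t ∈ Icc (0 : ℝ) (1 / 8) :=
  ⟨Z_nonneg ht.1, (Z_mono ht.2).trans Z_le⟩

lemma Z_late {t : ℝ} (ht : 3 / 8 ≤ t) : Z t = t - (3 / 8 - Z (3 / 8)) := by
  have := const_of_deriv_zero (f := fun t => Z t - t) (a := 3 / 8) (b := t) (fun s hs => by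
    have := (hasDerivAt_Z s).sub (hasDerivAt_id s)
    rw [frac_of_ge 2 (by push_cast; linarith [hs.1]), sub_self] at this
    exact this.hasDerivWithinAt) t ⟨ht, le_rfl⟩
  linarith

/-- The planar, time periodic field obtained by reading the height as time. -/
noncomputable def ut (L : ℕ → List Piece) (i : Fin 3) (s : ℝ) (p : T3) : ℝ :=
  if i = 2 then 0 else V L i (Function.update p 2 (s : UnitAddCircle))

/-- The positions at the ends of the shears. -/
noncomputable def posS (L : ℕ → List Piece) (a : R3) : ℕ → R3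
  | 0 => a
  | k + 1 => posS L a k + Pi.single (dirS k) (HS L k (proj (posS L a k)))

lemma planar (h0 : L 0 = []) (a : R3) :
    (∃ X, IsTrajectory (ut L) a X) ∧ ∀ X, IsTrajectory (ut L) a X → ∀ k : ℕ,
      X ((k : ℝ) / 8) = posS L a k ∧ ∀ t ∈ Icc ((k : ℝ) / 8) (((k : ℝ) + 1) / 8),
        ∃ θ ∈ Icc (0 : ℝ) 1, X t = posS L a k + θ • (posS L a (k + 1) - posS L a k) := by
  refine slot_trajectory (ut L) a dirS (HS L) (fun k x s => ?_) (fun k t ht i x => ?_) _ rfl
    fun k => rfl
  · unfold HS dirS line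
    split_ifs <;> simp
  · unfold ut
    split_ifs with h1 h2 h2
    · exfalso
      rw [h1, dirS] at h2
      split_ifs at h2 <;> exact absurd h2 (by decide)
    · rfl
    · rw [V_slot h0 k ht (by simp) h1, if_pos h2]
      congr 1
      unfold HS
      split_ifs <;> simp
    · rw [V_slot h0 k ht (by simp) h1, if_neg h2]

theorem traj (h0 : L 0 = []) (x₀ y₀ : ℚ) {u : Fin 3 → ℝ → T3 → ℝ}
    (hu : ∀ i t, 0 ≤ t → ∀ x, u i t x = load x₀ y₀ t i + frac 2 t * V L i x) :
    (∃ X, IsTrajectory u 0 X) ∧ ∀ X, IsTrajectory u 0 X →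
      (∀ t ∈ Icc (0 : ℝ) (3 / 8), X t 1 = frac 1 t * y₀) ∧ ∃ c ∈ Icc (1 / 4 : ℝ) (3 / 8),
        (∀ s, 3 / 8 ≤ s + c → X (s + c) 2 = s) ∧
        IsTrajectory (ut L) ![x₀, y₀, 0] fun s => ![X (s + c) 0, X (s + c) 1, 0] := by
  constructor
  · obtain ⟨Y, hY0, hY⟩ := (planar h0 ![x₀, y₀, 0]).1
    refine ⟨fun t => ![Y (Z t) 0 - (1 - frac 0 t) * x₀, Y (Z t) 1 - (1 - frac 1 t) * y₀, Z t],
      ?_, fun t ht => ?_⟩
    · ext i
      fin_cases i <;> simp [Z_zero, hY0, frac_of_le]
    have hc := (hY _ (Z_nonneg ht)).scomp t (hasDerivAt_Z t).hasDerivWithinAt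
      (show MapsTo Z (Ici 0) (Ici 0) from fun s hs => Z_nonneg hs)
    have key : ∀ i, i ≠ 2 → frac 2 t * V L i (proj ![Y (Z t) 0 - (1 - frac 0 t) * x₀,
        Y (Z t) 1 - (1 - frac 1 t) * y₀, Z t]) = frac 2 t * ut L i (Z t) (proj (Y (Z t))) := by
      intro i hi
      rcases le_total t (1 / 4) with h | h
      · rw [frac_of_le 2 (by push_cast; linarith), zero_mul, zero_mul]
      · rw [frac_of_ge 0 (by push_cast; linarith), frac_of_ge 1 (by push_cast; linarith), ut,
          if_neg hi]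
        congr 2
        ext j
        fin_cases j <;> simp [proj]
    rw [hasDerivWithinAt_pi] at hc ⊢
    intro i
    rw [hu i t ht]
    fin_cases i
    · have := (hc 0).sub
        (((hasDerivAt_frac 0 t).const_sub 1).mul_const (x₀ : ℝ)).hasDerivWithinAt
      refine HasDerivWithinAt.congr_deriv this ?_
      simp only [Fin.zero_eta]
      rw [key 0 (by decide)]
      simp [load, add_comm]
    · have := (hc 1).sub
        (((hasDerivAt_frac 1 t).const_sub 1).mul_const (y₀ : ℝ)).hasDerivWithinAt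
      refine HasDerivWithinAt.congr_deriv this ?_
      simp only [Fin.mk_one]
      rw [key 1 (by decide)]
      simp [load, add_comm]
    · refine HasDerivWithinAt.congr_deriv (hasDerivAt_Z t).hasDerivWithinAt ?_
      simp only [Fin.reduceFinMk]
      rw [V_two]
      simp [load]
  intro X hX
  have hd : ∀ t, 0 ≤ t → ∀ i, HasDerivWithinAt (fun s => X s i)
      (load x₀ y₀ t i + frac 2 t * V L i (proj (X t))) (Ici 0) t := fun t ht i => by
    rw [← hu i t ht]
    exact hasDerivWithinAt_pi.1 (hX.2 t ht) i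
  have h2 : ∀ t, 0 ≤ t → X t 2 = Z t := fun t ht => by
    have := const_of_deriv_zero (f := fun s => X s 2 - Z s) (a := 0) (b := t) (fun s hs => by
      have := ((hd s hs.1 2).sub (hasDerivAt_Z s).hasDerivWithinAt).mono
        (show Icc 0 t ⊆ Ici 0 from fun r hr => hr.1)
      rw [V_two, show load x₀ y₀ s 2 = 0 from rfl, zero_add, mul_one, sub_self] at this
      exact this) t ⟨ht, le_rfl⟩
    simp only [hX.1, Z_zero, Pi.zero_apply] at this
    linarith
  have hlow : ∀ t ∈ Icc (0 : ℝ) (3 / 8), ∀ i, i ≠ 2 → V L i (proj (X t)) = 0 := fun t ht i hi =>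
    V_low h0 (Z_low ht) (by rw [proj, h2 t ht.1]) hi
  have h3 : ∀ (i : Fin 3) (k : ℕ) (q : ℝ), i ≠ 2 →
      (∀ t, load x₀ y₀ t i = 16 / kappa * rho (16 * t - (2 * k + 1)) * q) →
      ∀ t ∈ Icc (0 : ℝ) (3 / 8), X t i = frac k t * q := fun i k q hi hl t ht => by
    have := const_of_deriv_zero (f := fun s => X s i - frac k s * q) (a := 0) (b := 3 / 8)
      (fun s hs => by
        have := ((hd s hs.1 i).sub ((hasDerivAt_frac k s).mul_const q).hasDerivWithinAt).mono
          (show Icc 0 (3 / 8) ⊆ Ici 0 from fun r hr => hr.1)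
        rw [hlow s hs i hi, hl, mul_zero, add_zero, sub_self] at this
        exact this) t ht
    simp only [hX.1, Pi.zero_apply, frac_of_le k (show (0 : ℝ) ≤ k / 8 by positivity)] at this
    linarith
  have hz := Z_low (t := 3 / 8) ⟨by norm_num, le_rfl⟩
  set c := 3 / 8 - Z (3 / 8) with hc
  have c1 : 1 / 4 ≤ c := by linarith [hz.2]
  have c2 : c ≤ 3 / 8 := by linarith [hz.1]
  have h4 : ∀ s, 3 / 8 ≤ s + c → X (s + c) 2 = s := fun s hs => by
    rw [h2 _ (by linarith), Z_late hs]
    ring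
  refine ⟨h3 1 1 y₀ (by decide) fun _ => rfl, c, ⟨c1, c2⟩, h4, ?_, fun s hs => ?_⟩
  · have e0 := h3 0 0 x₀ (by decide) (fun _ => rfl) c ⟨by linarith, c2⟩
    have e1 := h3 1 1 y₀ (by decide) (fun _ => rfl) c ⟨by linarith, c2⟩
    rw [frac_of_ge _ (by push_cast; linarith), one_mul] at e0 e1
    simp only [zero_add, e0, e1]
  have key : ∀ i, i ≠ 2 → HasDerivWithinAt (fun s => X (s + c) i)
      (ut L i s (proj ![X (s + c) 0, X (s + c) 1, 0])) (Ici 0) s := by
    intro i hi
    have h5 := (hd (s + c) (by linarith) i).comp s ((hasDerivAt_id s).add_const c).hasDerivWithinAt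
      (show MapsTo (fun s => id s + c) (Ici 0) (Ici 0) from fun r hr => by
        simp only [id, mem_Ici] at hr ⊢
        linarith)
    refine HasDerivWithinAt.congr_deriv h5 ?_
    rw [mul_one, load_late _ _ (by linarith), zero_add, ut, if_neg hi]
    rcases le_total (s + c) (3 / 8) with h | h
    · rw [hlow _ ⟨by linarith, h⟩ i hi, mul_zero,
        V_low h0 (s := s) ⟨hs, by linarith [hz.2]⟩ (by simp) hi]
    · rw [frac_of_ge 2 (by push_cast; linarith), one_mul]
      congr 1
      ext j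
      fin_cases j <;> simp [proj, h4 s h]
  rw [hasDerivWithinAt_pi]
  intro i
  fin_cases i
  · exact key 0 (by decide)
  · exact key 1 (by decide)
  · exact hasDerivWithinAt_const _ _ _

end Vale.Agent.N113.St
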