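import Vale.Agent.N113.StDef
import Vale.Agent.N113.Sim

/-!
# P113, steady version: the rules of a machine form a good system
-/

namespace Vale.Agent.N113.St

open Sim (code_nG code_nQ code_blank code_start tbl tbl_code)

lemma mem_words {n : ℕ} {ty : ℕ → ℕ} {u : List ℕ} :
    u ∈ words n ty ↔ ∃ s, s < n ∧ ((ty s = 1 ∧ ∃ e, e < n ∧ u = [s, e]) ∨ (ty s ≠ 1 ∧ u = [s])) := by
  simp only [words, List.mem_flatMap, List.mem_range]
  refine exists_congr fun s => and_congr_right fun _ => ?_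
  split_ifs with h
  · simp only [List.mem_map, List.mem_range, h, true_and, ne_eq, not_true_eq_false, false_and,
      or_false]
    exact exists_congr fun e => and_congr_right fun _ => eq_comm
  · simp [h]

variable (M : Machine)

lemma nn_eq : nn M.code = 4 * (3 * M.nQ * (M.nG + 1)) := rfl

lemma nQ_pos : 0 < M.nQ := M.start.pos

lemma nG_pos : 0 < M.nG := M.blank.pos

lemma bnd1 : 12 * M.nQ ≤ nn M.code := by
  rw [nn_eq]
  nlinarith [Nat.zero_le (M.nQ * M.nG)]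

lemma bnd2 : 4 * M.nG + 4 ≤ nn M.code := by
  rw [nn_eq]
  have := nQ_pos M
  nlinarith [Nat.zero_le (M.nQ * M.nG)]

lemma nn_mod : nn M.code % 4 = 0 := by
  rw [nn_eq]
  omega

lemma gam_div {s x : ℕ} (hx : x ≤ M.nG) : (s * (M.nG + 1) + x) / (M.nG + 1) = s := by
  rw [add_comm, Nat.add_mul_div_right _ _ (by omega), Nat.div_eq_of_lt (by omega), zero_add]

lemma gam_mod {s x : ℕ} (hx : x ≤ M.nG) : (s * (M.nG + 1) + x) % (M.nG + 1) = x := by
  rw [add_comm, Nat.add_mul_mod_self_right, Nat.mod_eq_of_lt (by omega)]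

lemma gam_lt {s x : ℕ} (hs : s < 3 * M.nQ) (hx : x ≤ M.nG) :
    4 * (s * (M.nG + 1) + x) + 3 < nn M.code := by
  rw [nn_eq]
  have : s * (M.nG + 1) + x < 3 * M.nQ * (M.nG + 1) := by nlinarith
  omega

lemma trG_lt {γ : ℕ} (h : 4 * γ < nn M.code) :
    (trG M.code γ).1 < M.nQ ∧ (trG M.code γ).2.1 < M.nG ∧ (trG M.code γ).2.2 < 3 := by
  have h1 : γ / (M.nG + 1) < 3 * M.nQ := by
    rw [Nat.div_lt_iff_lt_mul (by omega)]
    rw [nn_eq] at h
    omega
  have h2 : (if γ % (M.nG + 1) = M.nG then (M.blank : ℕ) else γ % (M.nG + 1)) < M.nG := by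
    split_ifs with h3
    · exact M.blank.isLt
    · have := Nat.mod_lt γ (show 0 < M.nG + 1 by omega)
      omega
  exact Sim.tbl_lt M (s := γ / (M.nG + 1)) h1 h2

lemma ok_cases {c : MachineCode} {t e : ℕ} (h : ok c t e = 1) :
    (t % 4 = 0 ∧ t < 12 * c.1 ∧ hl c t ≠ 1 ∧
      ((e % 4 = 0 ∧ e < 4 * c.2.1) ∨ (e % 4 = 3 ∧ t % 12 ≠ 4) ∨ (e = 2 ∧ t % 12 ≠ 0))) ∨
    (t % 4 = 3 ∧ e % 4 ≠ 1) ∨ (t % 4 = 2 ∧ e = 2) ∨ (t % 4 = 1 ∧ e ≠ 2) := by
  unfold ok at h
  split_ifs at h <;> omega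

lemma mem_rules {c : MachineCode} (hc : 0 < nn c) {r : Rule} :
    r ∈ rules c ↔ ∃ t e, t < nn c ∧ e < nn c ∧ ok c t e = 1 ∧
      r = (t * nn c + e, src c t e, tgt c t e) := by
  simp only [rules, List.mem_flatMap, List.mem_range]
  constructor
  · rintro ⟨i, hi, h⟩
    split_ifs at h with hok
    · rw [List.mem_singleton] at h
      exact ⟨_, _, (Nat.div_lt_iff_lt_mul hc).2 hi, Nat.mod_lt _ hc, hok,
        by rw [h, rule, Nat.div_add_mod']⟩
    · simp at h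
  · rintro ⟨t, e, ht, he, hok, rfl⟩
    have e1 : (t * nn c + e) / nn c = t := by
      rw [add_comm, Nat.add_mul_div_right _ _ hc, Nat.div_eq_of_lt he, zero_add]
    have e2 : (t * nn c + e) % nn c = e := by
      rw [add_comm, Nat.add_mul_mod_self_right, Nat.mod_eq_of_lt he]
    refine ⟨t * nn c + e, by nlinarith, ?_⟩
    rw [e1, e2, if_pos hok, rule, e1, e2]
    exact List.mem_singleton.2 rfl

lemma nn_pos : 0 < nn M.code := by
  have := bnd2 M
  omega

lemma gam_le {e : ℕ} (h : (e % 4 = 0 ∧ e < 4 * M.nG) ∨ e = 2) :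
    (if e = 2 then M.nG else e / 4) ≤ M.nG := by
  split_ifs <;> omega

lemma gam_inj {t e t' e' : ℕ} (ht : t % 4 = 0) (ht' : t' % 4 = 0)
    (h : (e % 4 = 0 ∧ e < 4 * M.nG) ∨ e = 2) (h' : (e' % 4 = 0 ∧ e' < 4 * M.nG) ∨ e' = 2)
    (hg : gam M.code t e = gam M.code t' e') : t = t' ∧ e = e' := by
  unfold gam at hg
  rw [code_nG] at hg
  have a1 := gam_div M (s := t / 4) (gam_le M h)
  have a2 := gam_div M (s := t' / 4) (gam_le M h')
  have b1 := gam_mod M (s := t / 4) (gam_le M h)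
  have b2 := gam_mod M (s := t' / 4) (gam_le M h')
  rw [hg] at a1 b1
  rw [a1] at a2
  rw [b1] at b2
  refine ⟨by omega, ?_⟩
  split_ifs at b2 <;> omega

lemma src_inj {c : MachineCode} {t e t' e' : ℕ} (h1 : (src c t e).1 = (src c t' e').1)
    (h2 : ¬ Incomp (src c t e).2 (src c t' e').2) : t = t' ∧ e = e' := by
  unfold src at h1 h2
  split_ifs at h1 h2 <;> simp_all [Incomp]

lemma tgt_cases {c : MachineCode} {t e : ℕ} (h : ok c t e = 1) :
    (t % 12 = 0 ∧ e % 4 = 3 ∧ tgt c t e = ([t], [e])) ∨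
    (t % 12 = 8 ∧ e % 4 = 3 ∧ tgt c t e = ([t, e], [])) ∨
    (t % 4 = 0 ∧ ((e % 4 = 0 ∧ e < 4 * c.2.1) ∨ e = 2) ∧
      ∃ b v, tgt c t e = ([4 * gam c t e + 3, 4 * b + 1], v)) ∨
    (t % 4 = 3 ∧ e = 2 ∧ ∃ s, tgt c t e = ([4 * s + 2, t], [2])) ∨
    (t % 4 = 3 ∧ e % 4 ≠ 1 ∧ tgt c t e = ([t, e], [])) ∨
    (t % 4 = 2 ∧ e = 2 ∧ ∃ b, tgt c t e = ([t - 1], [2, b])) ∨
    (t % 12 = 9 ∧ e % 4 = 1 ∧ tgt c t e = ([t - 1, e - 1], [])) ∨
    (t % 4 = 1 ∧ e % 4 = 1 ∧ tgt c t e = ([t - 1], [e - 1])) ∨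
    (t % 4 = 1 ∧ e % 4 ≠ 1 ∧ e ≠ 2 ∧ tgt c t e = ([t], [e])) := by
  have k := ok_cases h
  unfold tgt
  by_cases h1 : t % 4 = 0
  · rw [if_pos h1]
    by_cases h2 : e % 4 = 3
    · rw [if_pos h2]
      by_cases h3 : t % 12 = 0
      · exact Or.inl ⟨h3, h2, if_pos h3⟩
      · exact Or.inr (Or.inl ⟨by omega, h2, if_neg h3⟩)
    · exact Or.inr (Or.inr (Or.inl ⟨h1, by omega, _, _, if_neg h2⟩))
  rw [if_neg h1]
  refine Or.inr (Or.inr (Or.inr ?_))
  by_cases h2 : t % 4 = 3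
  · rw [if_pos h2]
    by_cases h3 : e = 2
    · exact Or.inl ⟨h2, h3, _, if_pos h3⟩
    · exact Or.inr (Or.inl ⟨h2, by omega, if_neg h3⟩)
  rw [if_neg h2]
  refine Or.inr (Or.inr ?_)
  by_cases h3 : t % 4 = 2
  · exact Or.inl ⟨h3, by omega, _, if_pos h3⟩
  rw [if_neg h3]
  by_cases h4 : e % 4 = 1
  · rw [if_pos h4]
    by_cases h5 : t % 12 = 9
    · exact Or.inr (Or.inl ⟨h5, h4, if_pos h5⟩)
    · exact Or.inr (Or.inr (Or.inl ⟨by omega, h4, if_neg h5⟩))
  · exact Or.inr (Or.inr (Or.inr ⟨by omega, h4, by omega, if_neg h4⟩))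

lemma tgt_inj {t e t' e' : ℕ} (h : ok M.code t e = 1) (h' : ok M.code t' e' = 1)
    (h1 : (tgt M.code t e).1 = (tgt M.code t' e').1)
    (h2 : ¬ Incomp (tgt M.code t e).2 (tgt M.code t' e').2) : t = t' ∧ e = e' := by
  have hg := gam_inj M (t := t) (e := e) (t' := t') (e' := e')
  have k := tgt_cases h
  have k' := tgt_cases h'
  rw [code_nG] at k k'
  generalize gam M.code t e = g at hg k
  generalize gam M.code t' e' = g' at hg k'
  generalize tgt M.code t e = p at k h1 h2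
  generalize tgt M.code t' e' = p' at k' h1 h2
  clear h h'
  rcases k with ⟨a, b, rfl⟩ | ⟨a, b, rfl⟩ | ⟨a, b, x, v, rfl⟩ | ⟨a, b, x, rfl⟩ | ⟨a, b, rfl⟩ |
      ⟨a, b, x, rfl⟩ | ⟨a, b, rfl⟩ | ⟨a, b, rfl⟩ | ⟨a, b, x, rfl⟩ <;>
    rcases k' with ⟨a', b', rfl⟩ | ⟨a', b', rfl⟩ | ⟨a', b', x', v', rfl⟩ | ⟨a', b', x', rfl⟩ |
      ⟨a', b', rfl⟩ | ⟨a', b', x', rfl⟩ | ⟨a', b', rfl⟩ | ⟨a', b', rfl⟩ | ⟨a', b', x', rfl⟩ <;>
    simp only [List.cons.injEq, and_true, reduceCtorEq, and_false] at h1 <;>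
    first
      | omega
      | (simp only [Incomp, or_false, not_not, ne_eq] at h2; omega)

theorem good : Good (nn M.code) (aa M.code) (hl M.code) tS tT (rules M.code) where
  n_pos := nn_pos M
  A_ge := le_rfl
  level := by
    intro r hr
    obtain ⟨t, e, ht, he, -, rfl⟩ := (mem_rules (nn_pos M)).1 hr
    simp only
    nlinarith
  nodup := by
    unfold rules
    rw [List.nodup_flatMap]
    refine ⟨fun i _ => by split_ifs <;> simp, List.nodup_range.pairwise_of_forall_ne ?_⟩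
    intro i _ j _ hij
    simp only [Function.onFun]
    split_ifs <;> simp [rule, hij.symm]
  lev_ne := by
    intro r hr r' hr' hne h
    obtain ⟨i, -, hi⟩ := List.mem_flatMap.1 hr
    obtain ⟨j, -, hj⟩ := List.mem_flatMap.1 hr'
    split_ifs at hi hj
    all_goals simp only [List.mem_singleton, List.not_mem_nil] at hi hj
    subst hi hj
    exact hne (congrArg (rule M.code) h)
  mem_u := by
    intro r hr
    obtain ⟨t, e, ht, he, -, rfl⟩ := (mem_rules (nn_pos M)).1 hr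
    refine mem_words.2 ⟨t, ht, ?_⟩
    simp only [src]
    split_ifs with h <;> simp [h, he]
  mem_u' := by
    intro r hr
    obtain ⟨t, e, ht, he, hok, rfl⟩ := (mem_rules (nn_pos M)).1 hr
    have k := ok_cases hok
    rw [code_nG, code_nQ] at k
    have b1 := bnd1 M
    have b2 := bnd2 M
    have b3 := nn_mod M
    have g1 : t % 4 = 0 → e % 4 ≠ 3 → 4 * gam M.code t e + 3 < nn M.code := fun h1 h2 =>
      gam_lt M (by omega) (gam_le M (by omega))
    have g2 := trG_lt M (γ := gam M.code t e)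
    have g3 := trG_lt M (γ := t / 4) (by omega)
    rw [mem_words]
    simp only [tgt]
    split_ifs with h1 h2 h3 h4 h5 h6 h7 h8 h9
    · exact ⟨t, ht, Or.inr ⟨by unfold tT; split_ifs <;> omega, rfl⟩⟩
    · exact ⟨t, ht, Or.inl ⟨by unfold tT; split_ifs <;> omega, e, he, rfl⟩⟩
    · exact ⟨_, g1 h1 h2, Or.inl ⟨by unfold tT; split_ifs <;> omega, _,
        by have := g1 h1 h2; have := g2 (by omega); omega, rfl⟩⟩
    · exact ⟨_, g1 h1 h2, Or.inl ⟨by unfold tT; split_ifs <;> omega, _,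
        by have := g1 h1 h2; have := g2 (by omega); omega, rfl⟩⟩
    · exact ⟨_, by omega, Or.inl ⟨by unfold tT; split_ifs <;> omega, t, ht, rfl⟩⟩
    · exact ⟨t, ht, Or.inl ⟨by unfold tT; split_ifs <;> omega, e, he, rfl⟩⟩
    · exact ⟨t - 1, by omega, Or.inr ⟨by unfold tT; split_ifs <;> omega, rfl⟩⟩
    · exact ⟨t - 1, by omega, Or.inl ⟨by unfold tT; split_ifs <;> omega, e - 1, by omega, rfl⟩⟩
    · exact ⟨t - 1, by omega, Or.inr ⟨by unfold tT; split_ifs <;> omega, rfl⟩⟩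
    · exact ⟨t, ht, Or.inr ⟨by unfold tT; split_ifs <;> omega, rfl⟩⟩
  dig_v := by
    intro r hr
    obtain ⟨t, e, ht, he, hok, rfl⟩ := (mem_rules (nn_pos M)).1 hr
    have b2 := bnd2 M
    have b3 := M.blank.isLt
    simp only [src, code_blank]
    split_ifs <;> simp <;> omega
  dig_v' := by
    intro r hr
    obtain ⟨t, e, ht, he, hok, rfl⟩ := (mem_rules (nn_pos M)).1 hr
    have b2 := bnd2 M
    have b3 := M.blank.isLt
    simp only [tgt, code_blank]
    split_ifs <;> simp <;> omega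
  src_ne := by
    intro r hr r' hr' hne h
    obtain ⟨t, e, -, -, -, rfl⟩ := (mem_rules (nn_pos M)).1 hr
    obtain ⟨t', e', -, -, -, rfl⟩ := (mem_rules (nn_pos M)).1 hr'
    by_contra hc
    obtain ⟨rfl, rfl⟩ := src_inj h hc
    exact hne rfl
  tgt_ne := by
    intro r hr r' hr' hne h
    obtain ⟨t, e, -, -, k, rfl⟩ := (mem_rules (nn_pos M)).1 hr
    obtain ⟨t', e', -, -, k', rfl⟩ := (mem_rules (nn_pos M)).1 hr'
    by_contra hc
    obtain ⟨rfl, rfl⟩ := tgt_inj M k k' h hc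
    exact hne rfl
  area := by
    intro r hr
    obtain ⟨t, e, -, -, hok, rfl⟩ := (mem_rules (nn_pos M)).1 hr
    have k := ok_cases hok
    simp only [src, tgt, tS]
    split_ifs <;> simp <;> omega
  not_hl := by
    intro r hr
    obtain ⟨t, e, -, -, hok, rfl⟩ := (mem_rules (nn_pos M)).1 hr
    have k := ok_cases hok
    have h0 : (src M.code t e).1.getD 0 0 = t := by
      unfold src
      split_ifs <;> rfl
    simp only [h0]
    by_cases h : t % 4 = 0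
    · omega
    · simp [hl, h]

end Vale.Agent.N113.St
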