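import Vale.Agent.N113.StGood

/-!
# P113, steady version: the area preserving two-stack machine simulates the Turing machine
-/

namespace Vale.Agent.N113.St

open Sim (code_nG code_nQ code_blank code_start tbl tbl_code)
open Relation

variable (M : Machine)

/-- One step on pairs of stack codes. -/
abbrev Sp (M : Machine) : ℚ × ℚ → ℚ × ℚ → Prop := Step (3 * nn M.code) (rules M.code)

lemma push_append (N : ℕ) (u v : List ℕ) (r : ℚ) : pushQ N (u ++ v) r = pushQ N u (pushQ N v r) := by
  simp only [Sim.pushQ_eq_foldr, List.foldr_append]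

lemma eB_mem : 0 ≤ eB M.code ∧ eB M.code ≤ 1 := by
  have h1 : 4 * (M.blank : ℕ) + 1 ≤ nn M.code := by
    have := bnd2 M
    have := M.blank.isLt
    omega
  have h2 : (4 * (M.blank : ℕ) : ℚ) + 1 ≤ nn M.code := by exact_mod_cast h1
  have h3 : (0 : ℚ) ≤ (M.blank : ℕ) := by positivity
  unfold eB
  rw [code_blank]
  push_cast
  have : (0 : ℚ) < 3 * (nn M.code : ℚ) - 1 := by linarith
  exact ⟨by positivity, (div_le_one this).2 (by linarith)⟩

lemma enc_mem {l : List ℕ} (hl : ∀ d ∈ l, d < nn M.code) : 0 ≤ enc M.code l ∧ enc M.code l ≤ 1 :=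
  Sim.pushQ_mem' (nn_pos M) hl (eB_mem M).1 (eB_mem M).2

lemma enc_blank (l : List ℕ) : enc M.code (l ++ [4 * (M.blank : ℕ)]) = enc M.code l := by
  have hn : (1 : ℚ) ≤ nn M.code := by exact_mod_cast nn_pos M
  unfold enc
  rw [push_append]
  congr 1
  show (3 * ((4 * (M.blank : ℕ) : ℕ) : ℚ) + 1 + eB M.code) / ((3 * nn M.code : ℕ) : ℚ) = _
  unfold eB
  rw [code_blank]
  push_cast
  have h1 : 3 * (nn M.code : ℚ) - 1 ≠ 0 := by linarith
  have h2 : 3 * (nn M.code : ℚ) ≠ 0 := by linarith
  field_simp
  ring

lemma step_rule {t e : ℕ} (ht : t < nn M.code) (he : e < nn M.code) (hok : ok M.code t e = 1)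
    {u v u' v' A B : List ℕ} (hs : src M.code t e = (u, v)) (hg : tgt M.code t e = (u', v'))
    (hA : ∀ d ∈ A, d < nn M.code) (hB : ∀ d ∈ B, d < nn M.code) :
    Sp M (enc M.code (u ++ A), enc M.code (v ++ B)) (enc M.code (u' ++ A), enc M.code (v' ++ B)) := by
  refine ⟨_, (mem_rules (nn_pos M)).2 ⟨t, e, ht, he, hok, rfl⟩, enc M.code A, enc M.code B,
    (enc_mem M hA).1, (enc_mem M hA).2, (enc_mem M hB).1, (enc_mem M hB).2, ?_, ?_⟩
  · simp only [hs, enc, push_append]
  · simp only [hg, enc, push_append]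

/-- Digits that are tape symbols or records. -/
def Dg (M : Machine) (d : ℕ) : Prop := (d % 4 = 0 ∧ d < 4 * M.nG) ∨ (d % 4 = 3 ∧ d < nn M.code)

lemma Dg.lt {M : Machine} {d : ℕ} (h : Dg M d) : d < nn M.code := by
  have := bnd2 M
  unfold Dg at h
  omega

lemma two_lt : 2 < nn M.code := by
  have := bnd2 M
  omega

lemma out_run {t : ℕ} (ht : t < nn M.code) (h3 : t % 4 = 3) (R : List ℕ) (hR : ∀ d ∈ R, Dg M d) :
    ∀ L : List ℕ, (∀ d ∈ L, d < nn M.code) →
      ReflTransGen (Sp M) (enc M.code (t :: L), enc M.code (R ++ [2]))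
        (enc M.code (t :: (R.reverse ++ L)), enc M.code [2]) := by
  induction R with
  | nil => exact fun L _ => ReflTransGen.refl
  | cons e R ih =>
    intro L hL
    have he := hR e List.mem_cons_self
    have hR' : ∀ d ∈ R, Dg M d := fun d hd => hR d (List.mem_cons_of_mem _ hd)
    have he' : e % 4 ≠ 1 ∧ e ≠ 2 := by unfold Dg at he; omega
    have s1 := step_rule M ht he.lt (u := [t]) (v := [e]) (u' := [t, e]) (v' := []) (A := L)
      (B := R ++ [2]) (by simp [ok, h3, he'.1])
      (by simp [src, tS, h3, he'.2, show t % 12 ≠ 0 by omega]) (by simp [tgt, h3, he'.2]) hL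
      (by
        intro d hd
        rcases List.mem_append.1 hd with h | h
        · exact (hR' d h).lt
        · rw [List.mem_singleton.1 h]
          exact two_lt M)
    have s2 := ih hR' (e :: L) (by
      intro d hd
      rcases List.mem_cons.1 hd with rfl | h
      · exact he.lt
      · exact hL d h)
    rw [List.reverse_cons, List.append_assoc]
    exact ReflTransGen.head s1 s2

lemma back_run {t : ℕ} (ht : t < nn M.code) (h1 : t % 4 = 1) (W : List ℕ) (hW : ∀ d ∈ W, Dg M d)
    (L : List ℕ) (hL : ∀ d ∈ L, d < nn M.code) :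
    ∀ R : List ℕ, (∀ d ∈ R, d < nn M.code) →
      ReflTransGen (Sp M) (enc M.code (t :: (W ++ L)), enc M.code R)
        (enc M.code (t :: L), enc M.code (W.reverse ++ R)) := by
  induction W with
  | nil => exact fun R _ => ReflTransGen.refl
  | cons e W ih =>
    intro R hR
    have he := hW e List.mem_cons_self
    have hW' : ∀ d ∈ W, Dg M d := fun d hd => hW d (List.mem_cons_of_mem _ hd)
    have he' : e % 4 ≠ 1 ∧ e ≠ 2 := by unfold Dg at he; omega
    have s1 := step_rule M ht he.lt (u := [t, e]) (v := []) (u' := [t]) (v' := [e]) (A := W ++ L)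
      (B := R) (by simp [ok, h1, he'.2]) (by simp [src, tS, h1]) (by simp [tgt, h1, he'.1])
      (by
        intro d hd
        rcases List.mem_append.1 hd with h | h
        · exact (hW' d h).lt
        · exact hL d h) hR
    have s2 := ih hW' (e :: R) (by
      intro d hd
      rcases List.mem_cons.1 hd with rfl | h
      · exact he.lt
      · exact hR d h)
    rw [List.reverse_cons, List.append_assoc]
    exact ReflTransGen.head s1 s2

/-- The pair of stack codes of an ordinary state. -/
def pt (M : Machine) (s : ℕ) (L R : List ℕ) : ℚ × ℚ :=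
  (enc M.code (4 * s :: L), enc M.code (R ++ [2]))

/-- The record is carried to the end marker and the machine comes back. -/
lemma shuttle {γ q b d : ℕ} (hγ : 4 * γ + 3 < nn M.code) (hT : trG M.code γ = (q, b, d))
    {L R : List ℕ} (hL : ∀ x ∈ L, Dg M x) (hR : ∀ x ∈ R, Dg M x) :
    ReflTransGen (Sp M) (enc M.code ((4 * γ + 3) :: (4 * b + 1) :: L), enc M.code (R ++ [2]))
      (if d = 2 then pt M (3 * q + d) (4 * b :: L) (R ++ [4 * γ + 3])
        else pt M (3 * q + d) L (4 * b :: (R ++ [4 * γ + 3]))) := by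
  have hb := trG_lt M (γ := γ) (by omega)
  rw [hT] at hb
  simp only at hb
  have b1 := bnd1 M
  have b2 := bnd2 M
  have h2 := two_lt M
  have hL1 : ∀ x ∈ (4 * b + 1) :: L, x < nn M.code := by
    intro x hx
    rcases List.mem_cons.1 hx with rfl | h
    · omega
    · exact (hL x h).lt
  have hL2 : ∀ x ∈ R.reverse ++ (4 * b + 1) :: L, x < nn M.code := by
    intro x hx
    rcases List.mem_append.1 hx with h | h
    · exact (hR x (List.mem_reverse.1 h)).lt
    · exact hL1 x h
  have hW : ∀ x ∈ (4 * γ + 3) :: R.reverse, Dg M x := by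
    intro x hx
    rcases List.mem_cons.1 hx with rfl | h
    · exact Or.inr ⟨by omega, hγ⟩
    · exact hR x (List.mem_reverse.1 h)
  have s1 := out_run M hγ (by omega) R hR _ hL1
  have s2 := step_rule M hγ h2 (u := [4 * γ + 3]) (v := [2, 4 * (M.blank : ℕ)])
    (u' := [4 * (3 * q + d) + 2, 4 * γ + 3]) (v' := [2]) (B := [])
    (by simp [ok, show (4 * γ + 3) % 4 = 3 by omega])
    (by simp [src, tS, code_blank, show (4 * γ + 3) % 4 = 3 by omega,
      show (4 * γ + 3) % 12 ≠ 0 by omega])
    (by simp [tgt, show (4 * γ + 3) % 4 = 3 by omega, show (4 * γ + 3) / 4 = γ by omega, hT])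
    hL2 (by simp)
  have s3 := step_rule M (t := 4 * (3 * q + d) + 2) (by omega) h2 (u := [4 * (3 * q + d) + 2])
    (v := [2, 4 * (M.blank : ℕ)]) (u' := [4 * (3 * q + d) + 1]) (v' := [2, 4 * (M.blank : ℕ)])
    (A := ((4 * γ + 3) :: R.reverse) ++ (4 * b + 1) :: L) (B := [])
    (by simp [ok, show (4 * (3 * q + d) + 2) % 4 = 2 by omega])
    (by simp [src, tS, code_blank, show (4 * (3 * q + d) + 2) % 4 = 2 by omega,
      show (4 * (3 * q + d) + 2) % 12 ≠ 0 by omega])
    (by simp [tgt, code_blank, show (4 * (3 * q + d) + 2) % 4 = 2 by omega])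
    (by
      intro x hx
      rcases List.mem_append.1 hx with h | h
      · exact (hW x h).lt
      · exact hL1 x h) (by simp)
  have s4 := back_run M (t := 4 * (3 * q + d) + 1) (by omega) (by omega) _ hW _ hL1 [2]
    (by simpa using h2)
  have e2 : enc M.code ([2, 4 * (M.blank : ℕ)] ++ []) = enc M.code [2] := enc_blank M [2]
  rw [e2] at s2 s3
  have hR2 : ∀ x ∈ (R ++ [4 * γ + 3]) ++ [2], x < nn M.code := by
    intro x hx
    simp only [List.mem_append, List.mem_singleton] at hx
    rcases hx with (h | rfl) | rfl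
    · exact (hR x h).lt
    · exact hγ
    · exact h2
  rw [List.reverse_cons, List.reverse_reverse] at s4
  refine (s1.trans (ReflTransGen.head s2 (ReflTransGen.head s3 s4))).trans
    (ReflTransGen.single ?_)
  have k1 : (4 * (3 * q + d) + 1) % 4 = 1 := by omega
  have k2 : (4 * b + 1) % 4 = 1 := by omega
  split_ifs with hd
  · exact step_rule M (t := 4 * (3 * q + d) + 1) (e := 4 * b + 1) (by omega) (by omega)
      (u := [4 * (3 * q + d) + 1, 4 * b + 1]) (v := []) (u' := [4 * (3 * q + d), 4 * b]) (v' := [])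
      (by simp [ok, k1]) (by simp [src, tS, k1])
      (by simp [tgt, k1, k2, show (4 * (3 * q + d) + 1) % 12 = 9 by omega])
      (fun x hx => (hL x hx).lt) hR2
  · exact step_rule M (t := 4 * (3 * q + d) + 1) (e := 4 * b + 1) (by omega) (by omega)
      (u := [4 * (3 * q + d) + 1, 4 * b + 1]) (v := []) (u' := [4 * (3 * q + d)]) (v' := [4 * b])
      (by simp [ok, k1]) (by simp [src, tS, k1])
      (by simp [tgt, k1, k2, show (4 * (3 * q + d) + 1) % 12 ≠ 9 by omega])
      (fun x hx => (hL x hx).lt) hR2

/-! ### Representation of configurations -/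

/-- Four times the `k`-th tape symbol of a stack. -/
def cell (M : Machine) (L : List ℕ) (k : ℕ) : ℕ :=
  (L.filter fun d => d % 4 = 0).getD k (4 * M.blank)

lemma cell_nil (k : ℕ) : cell M [] k = 4 * M.blank := by simp [cell]

lemma cell_rec {e : ℕ} (he : e % 4 = 3) (L : List ℕ) (k : ℕ) : cell M (e :: L) k = cell M L k := by
  simp [cell, he]

lemma cell_zero {e : ℕ} (he : e % 4 = 0) (L : List ℕ) : cell M (e :: L) 0 = e := by
  simp [cell, he]

lemma cell_succ {e : ℕ} (he : e % 4 = 0) (L : List ℕ) (k : ℕ) :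
    cell M (e :: L) (k + 1) = cell M L k := by
  simp [cell, he]

lemma cell_end (γ : ℕ) (L : List ℕ) (k : ℕ) : cell M (L ++ [4 * γ + 3]) k = cell M L k := by
  simp [cell, List.filter_append]

/-- The ordinary state `(s, L, R)` represents the configuration `cfg`. -/
structure Rep (M : Machine) (cfg : M.Cfg) (s : ℕ) (L R : List ℕ) : Prop where
  state : s / 3 = cfg.state
  left : ∀ k : ℕ, 4 * (cfg.tape (Sim.cut M cfg s - 1 - k) : ℕ) = cell M L k
  right : ∀ k : ℕ, 4 * (cfg.tape (Sim.cut M cfg s + k) : ℕ) = cell M R k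
  stay : s % 3 = 1 → ∃ e R', R = e :: R' ∧ e % 4 = 0
  dL : ∀ x ∈ L, Dg M x
  dR : ∀ x ∈ R, Dg M x

lemma hl_code (q : Fin M.nQ) {s : ℕ} (hs : s / 3 = q) :
    hl M.code (4 * s) = if M.halting q then 1 else 0 := by
  have h1 : 4 * s / 12 = q := by omega
  simp [hl, h1, MachineCode.isH, Machine.code, List.getD_eq_getElem?_getD]

lemma lt_end {R : List ℕ} (hR : ∀ x ∈ R, Dg M x) : ∀ x ∈ R ++ [2], x < nn M.code := by
  intro x hx
  rcases List.mem_append.1 hx with h | h
  · exact (hR x h).lt
  · rw [List.mem_singleton.1 h]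
    exact two_lt M

/-- After the scanned symbol is read the machine reaches the next configuration. -/
lemma finish {cfg : M.Cfg} (hh : M.halting cfg.state = false) {s x : ℕ} (hs : s / 3 = cfg.state)
    (hx : x ≤ M.nG) (h0 : (if x = M.nG then (M.blank : ℕ) else x) = cfg.tape cfg.head)
    {L R : List ℕ} (hL : ∀ k : ℕ, 4 * (cfg.tape (cfg.head - 1 - k) : ℕ) = cell M L k)
    (hR : ∀ k : ℕ, 4 * (cfg.tape (cfg.head + 1 + k) : ℕ) = cell M R k)
    (dL : ∀ x ∈ L, Dg M x) (dR : ∀ x ∈ R, Dg M x) :
    ∃ s' L' R', Rep M (M.next cfg) s' L' R' ∧ ReflTransGen (Sp M)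
      (enc M.code ([4 * (s * (M.nG + 1) + x) + 3,
        4 * (trG M.code (s * (M.nG + 1) + x)).2.1 + 1] ++ L), enc M.code (R ++ [2]))
      (pt M s' L' R') := by
  set r := M.step cfg.state (cfg.tape cfg.head) with hr
  have hq := cfg.state.isLt
  have hγ := gam_lt M (s := s) (by omega) hx
  have hT : trG M.code (s * (M.nG + 1) + x) = ((r.1 : ℕ), (r.2.1 : ℕ), (r.2.2 : ℕ)) := by
    unfold trG
    rw [code_nG, code_blank, gam_div M hx, gam_mod M hx, h0, hs]
    exact tbl_code M _ _
  have hnext : M.next cfg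
      = ⟨r.1, Function.update cfg.tape cfg.head r.2.1, cfg.head + ((r.2.2 : ℕ) : ℤ) - 1⟩ := by
    simp [Machine.next, hh, hr]
  have hd := r.2.2.isLt
  have hb := r.2.1.isLt
  have hsh := shuttle M hγ hT dL dR
  have hb4 : (4 * (r.2.1 : ℕ)) % 4 = 0 := by omega
  have db : Dg M (4 * (r.2.1 : ℕ)) := Or.inl ⟨hb4, by omega⟩
  have dR' : ∀ y ∈ R ++ [4 * (s * (M.nG + 1) + x) + 3], Dg M y := by
    intro y hy
    rcases List.mem_append.1 hy with h | h
    · exact dR y h
    · rw [List.mem_singleton.1 h]
      exact Or.inr ⟨by omega, hγ⟩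
  rw [hT, hnext]
  by_cases h2 : (r.2.2 : ℕ) = 2
  · rw [if_pos h2] at hsh
    refine ⟨_, _, _, ?_, hsh⟩
    have hcut : ∀ T : ℤ → Fin M.nG, Sim.cut M ⟨r.1, T, cfg.head + ((r.2.2 : ℕ) : ℤ) - 1⟩
        (3 * r.1 + r.2.2) = cfg.head + 1 := by
      intro T
      have : ¬ (3 * (r.1 : ℕ) + r.2.2) % 3 = 0 := by omega
      simp only [Sim.cut, this, if_false]
      omega
    refine ⟨by simp only; omega, fun k => ?_, fun k => ?_, fun h => by omega, ?_, dR'⟩
    · simp only [hcut]
      cases k with
      | zero => rw [cell_zero M hb4]; simp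
      | succ k =>
        rw [cell_succ M hb4, ← hL k, Function.update_of_ne (by push_cast; omega)]
        congr 3
        push_cast
        ring
    · simp only [hcut]
      rw [cell_end, ← hR k, Function.update_of_ne (by omega)]
    · intro y hy
      rcases List.mem_cons.1 hy with rfl | h
      · exact db
      · exact dL y h
  · rw [if_neg h2] at hsh
    refine ⟨_, _, _, ?_, hsh⟩
    have hcut : ∀ T : ℤ → Fin M.nG, Sim.cut M ⟨r.1, T, cfg.head + ((r.2.2 : ℕ) : ℤ) - 1⟩
        (3 * r.1 + r.2.2) = cfg.head := by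
      intro T
      simp only [Sim.cut]
      split_ifs <;> omega
    refine ⟨by simp only; omega, fun k => ?_, fun k => ?_, fun _ => ⟨_, _, rfl, hb4⟩, dL, ?_⟩
    · simp only [hcut]
      rw [← hL k, Function.update_of_ne (by omega)]
    · simp only [hcut]
      cases k with
      | zero => rw [cell_zero M hb4]; simp
      | succ k =>
        rw [cell_succ M hb4, cell_end, ← hR k, Function.update_of_ne (by push_cast; omega)]
        congr 3
        push_cast
        ring
    · intro y hy
      rcases List.mem_cons.1 hy with rfl | h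
      · exact db
      · exact dR' y h

lemma Rep.next {M : Machine} {cfg : M.Cfg} (hh : M.halting cfg.state = false) {s : ℕ} (m : ℕ) :
    ∀ {L R : List ℕ}, Rep M cfg s L R → (if s % 3 = 0 then L.length else R.length) < m →
      ∃ s' L' R', Rep M (M.next cfg) s' L' R' ∧ TransGen (Sp M) (pt M s L R) (pt M s' L' R') := by
  induction m with
  | zero => exact fun _ h => absurd h (Nat.not_lt_zero _)
  | succ m ih =>
    intro L R h hm
    have hq := cfg.state.isLt
    have hst := h.state
    have b1 := bnd1 M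
    have b2 := bnd2 M
    have ht : 4 * s < nn M.code := by omega
    have hnh : hl M.code (4 * s) ≠ 1 := by rw [hl_code M cfg.state hst, hh]; simp
    have hQ : ¬ 12 * M.code.1 ≤ 4 * s := by rw [code_nQ]; omega
    have hl' := h.left
    have hr' := h.right
    have k0 : 4 * s % 4 = 0 := by omega
    have k4 : 4 * s / 4 = s := by omega
    by_cases h3 : s % 3 = 0
    · simp only [Sim.cut, h3, if_true] at hl' hr' hm
      have k12 : 4 * s % 12 = 0 := by omega
      -- reading a tape symbol `e` above `L'`
      have real : ∀ e L', e % 4 = 0 → e < 4 * M.nG → (∀ x ∈ L', Dg M x) →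
          enc M.code (4 * s :: L) = enc M.code ([4 * s, e] ++ L') → cell M L 0 = e →
          (∀ k, cell M L (k + 1) = cell M L' k) →
          ∃ s' L' R', Rep M (M.next cfg) s' L' R' ∧
            TransGen (Sp M) (pt M s L R) (pt M s' L' R') := by
        intro e L' he he' dL' e1 e2 e3
        obtain ⟨s', L₁, R₁, a1, a2⟩ := finish M hh hst (x := e / 4) (by omega)
          (by have := hl' 0; rw [if_neg (by omega)]; simp at this; omega) (L := L') (R := R)
          (fun k => by rw [← e3, ← hl' (k + 1)]; congr 3; push_cast; ring) hr' dL' h.dR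
        refine ⟨s', L₁, R₁, a1, TransGen.head' ?_ a2⟩
        unfold pt
        rw [e1]
        exact step_rule M (e := e) ht (by omega) (v := []) (v' := [])
          (by simp [ok, k0, hQ, hnh, he, code_nG, not_le.2 he']) (by simp [src, tS, k0, k12])
          (by simp [tgt, k0, he, gam, k4, code_nG, show e ≠ 2 by omega])
          (fun x hx => (dL' x hx).lt) (lt_end M h.dR)
      cases L with
      | nil =>
        have := M.blank.isLt
        exact real (4 * M.blank) [] (by omega) (by omega) (by simp) (enc_blank M [4 * s]).symm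
          (cell_nil M 0) (fun k => by rw [cell_nil, cell_nil])
      | cons e L' =>
        have dL' : ∀ x ∈ L', Dg M x := fun x hx => h.dL x (List.mem_cons_of_mem _ hx)
        rcases h.dL e List.mem_cons_self with ⟨he, he'⟩ | ⟨he, he'⟩
        · exact real e L' he he' dL' rfl (cell_zero M he L') (cell_succ M he L')
        · have hrep : Rep M cfg s L' (e :: R) :=
            ⟨hst, fun k => by rw [h.left, cell_rec M he], fun k => by rw [h.right, cell_rec M he],
              fun h1 => by omega, dL', by
                intro x hx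
                rcases List.mem_cons.1 hx with rfl | h1
                · exact Or.inr ⟨he, he'⟩
                · exact h.dR x h1⟩
          obtain ⟨s', L₁, R₁, a1, a2⟩ := ih hrep (by rw [if_pos h3]; simpa using hm)
          refine ⟨s', L₁, R₁, a1, TransGen.head ?_ a2⟩
          exact step_rule M (e := e) ht he' (u := [4 * s, e]) (v := []) (u' := [4 * s]) (v' := [e])
            (by simp [ok, k0, hQ, hnh, he, k12]) (by simp [src, tS, k0, k12])
            (by simp [tgt, k0, he, k12]) (fun x hx => (dL' x hx).lt) (lt_end M h.dR)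
    · simp only [Sim.cut, h3, if_false] at hl' hr' hm
      have k12 : 4 * s % 12 ≠ 0 := by omega
      cases R with
      | nil =>
        obtain ⟨s', L₁, R₁, a1, a2⟩ := finish M hh hst (x := M.nG) le_rfl
          (by have := hr' 0; rw [cell_nil] at this; simp at this; simp [this]) (L := L) (R := [])
          hl' (fun k => by
            rw [cell_nil, ← cell_nil M (k + 1), ← hr' (k + 1)]; congr 3; push_cast; ring)
          h.dL (by simp)
        refine ⟨s', L₁, R₁, a1, TransGen.head' ?_ a2⟩
        unfold pt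
        have s1 := step_rule M (e := 2) ht (two_lt M) (u := [4 * s]) (v := [2, 4 * (M.blank : ℕ)])
          (u' := [4 * (s * (M.nG + 1) + M.nG) + 3,
            4 * (trG M.code (s * (M.nG + 1) + M.nG)).2.1 + 1])
          (v' := [2]) (B := []) (by simp [ok, k0, hQ, hnh, k12])
          (by simp [src, tS, k0, k12, code_blank]) (by simp [tgt, k0, gam, k4, code_nG])
          (fun x hx => (h.dL x hx).lt) (by simp)
        have e2 : enc M.code ([2, 4 * (M.blank : ℕ)] ++ []) = enc M.code ([] ++ [2]) :=
          enc_blank M [2]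
        rw [e2] at s1
        exact s1
      | cons e R' =>
        have dR' : ∀ x ∈ R', Dg M x := fun x hx => h.dR x (List.mem_cons_of_mem _ hx)
        rcases h.dR e List.mem_cons_self with ⟨he, he'⟩ | ⟨he, he'⟩
        · obtain ⟨s', L₁, R₁, a1, a2⟩ := finish M hh hst (x := e / 4) (by omega)
            (by
              have := hr' 0
              rw [cell_zero M he] at this
              rw [if_neg (by omega)]
              simp at this
              omega) (L := L) (R := R') hl'
            (fun k => by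
              rw [← cell_succ M he R' k, ← hr' (k + 1)]; congr 3; push_cast; ring) h.dL dR'
          refine ⟨s', L₁, R₁, a1, TransGen.head' ?_ a2⟩
          exact step_rule M (e := e) ht (by omega) (u := [4 * s]) (v := [e]) (v' := [])
            (by simp [ok, k0, hQ, hnh, he, code_nG, not_le.2 he'])
            (by simp [src, tS, k0, k12, show e ≠ 2 by omega])
            (by simp [tgt, k0, he, gam, k4, code_nG, show e ≠ 2 by omega])
            (fun x hx => (h.dL x hx).lt) (lt_end M dR')
        · have h1 : s % 3 ≠ 1 := fun h1 => by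
            obtain ⟨e', R'', e1, e2⟩ := h.stay h1
            obtain ⟨rfl, -⟩ := List.cons.inj e1
            omega
          have hrep : Rep M cfg s (e :: L) R' :=
            ⟨hst, fun k => by rw [h.left, cell_rec M he], fun k => by rw [h.right, cell_rec M he],
              fun h2 => absurd h2 h1, by
                intro x hx
                rcases List.mem_cons.1 hx with rfl | h2
                · exact Or.inr ⟨he, he'⟩
                · exact h.dL x h2, dR'⟩
          obtain ⟨s', L₁, R₁, a1, a2⟩ := ih hrep (by rw [if_neg h3]; simpa using hm)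
          refine ⟨s', L₁, R₁, a1, TransGen.head ?_ a2⟩
          exact step_rule M (e := e) ht he' (u := [4 * s]) (v := [e]) (u' := [4 * s, e]) (v' := [])
            (by simp [ok, k0, hQ, hnh, he, show 4 * s % 12 ≠ 4 by omega])
            (by simp [src, tS, k0, k12, show e ≠ 2 by omega])
            (by simp [tgt, k0, he, k12]) (fun x hx => (h.dL x hx).lt) (lt_end M dR')

lemma rep_init (w : List (Fin M.nG)) :
    Rep M (M.initCfg w) (3 * M.start + 2) [] ((w.map Fin.val).map fun a => 4 * a) := by
  have h3 : ¬ (3 * (M.start : ℕ) + 2) % 3 = 0 := by omega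
  have hf : ((w.map Fin.val).map fun a => 4 * a).filter (fun d => d % 4 = 0)
      = (w.map Fin.val).map fun a => 4 * a := by
    rw [List.filter_eq_self]
    intro d hd
    obtain ⟨a, _, rfl⟩ := List.mem_map.1 hd
    exact decide_eq_true (by omega)
  refine ⟨?_, fun k => ?_, fun k => ?_, fun h => by omega, by simp, ?_⟩
  · simp only [Machine.initCfg]
    omega
  · simp only [Machine.initCfg, Sim.cut, h3, if_false, cell_nil]
    rw [if_neg (by omega)]
  · simp only [Machine.initCfg, Sim.cut, h3, if_false, cell, hf]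
    rw [if_pos (by omega)]
    simp only [zero_add, Int.toNat_natCast, List.getD_eq_getElem?_getD, List.getElem?_map]
    cases w[k]? <;> simp
  · intro d hd
    obtain ⟨a, ha, rfl⟩ := List.mem_map.1 hd
    obtain ⟨b, -, rfl⟩ := List.mem_map.1 ha
    exact Or.inl ⟨by omega, by have := b.isLt; omega⟩

lemma start_eq (w : List ℕ) :
    start M.code w = pt M (3 * M.start + 2) [] (w.map fun a => 4 * a) := rfl

theorem start_mem (w : List (Fin M.nG)) :
    let z := start M.code (w.map Fin.val)
    0 ≤ z.1 ∧ z.1 ≤ 1 ∧ 0 ≤ z.2 ∧ z.2 ≤ 1 := by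
  have h1 := enc_mem M (l := [4 * (3 * M.start + 2)]) (by
    have := bnd1 M
    have := M.start.isLt
    simp only [List.mem_singleton, forall_eq]
    omega)
  have h2 := enc_mem M (lt_end M (rep_init M w).dR)
  exact ⟨h1.1, h1.2, h2.1, h2.2⟩

theorem sim_not_halts (w : List (Fin M.nG)) (h : ¬ M.HaltsOn w) :
    ∃ S : Set (ℚ × ℚ), start M.code (w.map Fin.val) ∈ S ∧ ∀ z ∈ S, ∃ z' ∈ S, Sp M z z' := by
  have hnh : ∀ k, M.halting (M.next^[k] (M.initCfg w)).state = false := fun k =>
    Bool.eq_false_iff.2 fun hk => h ⟨k, hk⟩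
  refine ⟨{z | ∃ k s L R, Rep M (M.next^[k] (M.initCfg w)) s L R ∧
    ReflTransGen (Sp M) z (pt M s L R)}, ⟨0, _, _, _, rep_init M w, ReflTransGen.refl⟩, ?_⟩
  rintro z ⟨k, s, L, R, h1, h2⟩
  obtain ⟨s', L', R', a1, a2⟩ := Rep.next (hnh k) _ h1 (Nat.lt_succ_self _)
  obtain ⟨z', b1, b2⟩ := TransGen.head'_iff.1 (TransGen.trans_right h2 a2)
  exact ⟨z', ⟨k + 1, s', L', R', by rwa [Function.iterate_succ_apply'], b2⟩, b1⟩

theorem sim_halts (w : List (Fin M.nG)) (h : M.HaltsOn w) :
    ∃ z, ReflTransGen (Sp M) (start M.code (w.map Fin.val)) z ∧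
      Halt (nn M.code) (hl M.code) tS z := by
  obtain ⟨k, hk⟩ := h
  have key : ∀ k, ∃ s L R, Rep M (M.next^[k] (M.initCfg w)) s L R ∧
      ReflTransGen (Sp M) (start M.code (w.map Fin.val)) (pt M s L R) := by
    intro k
    induction k with
    | zero => exact ⟨_, _, _, rep_init M w, ReflTransGen.refl⟩
    | succ k ih =>
      obtain ⟨s, L, R, hR, hS⟩ := ih
      rw [Function.iterate_succ_apply']
      cases hh : M.halting (M.next^[k] (M.initCfg w)).state with
      | true => exact ⟨s, L, R, by rwa [Machine.next, if_pos hh], hS⟩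
      | false =>
        obtain ⟨s', L', R', a1, a2⟩ := Rep.next hh _ hR (Nat.lt_succ_self _)
        exact ⟨s', L', R', a1, hS.trans a2.to_reflTransGen⟩
  obtain ⟨s, L, R, hR, hS⟩ := key k
  have hq := (M.next^[k] (M.initCfg w)).state.isLt
  have hst := hR.state
  have b1 := bnd1 M
  have b2 := bnd2 M
  have hb := M.blank.isLt
  have ht : 4 * s < nn M.code := by omega
  have hH : hl M.code (4 * s) = 1 := by rw [hl_code M _ hst, hk]; simp
  have h2 := enc_mem M (lt_end M hR.dR)
  refine ⟨_, hS, ?_⟩
  by_cases hty : tS (4 * s) = 1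
  · have key2 : ∀ e L', e < nn M.code → (∀ x ∈ L', x < nn M.code) →
        enc M.code (4 * s :: L) = enc M.code ([4 * s, e] ++ L') →
        Halt (nn M.code) (hl M.code) tS (pt M s L R) := fun e L' he hL' e1 =>
      ⟨[4 * s, e], mem_words.2 ⟨_, ht, Or.inl ⟨hty, e, he, rfl⟩⟩, hH, enc M.code L',
        (enc_mem M hL').1, (enc_mem M hL').2, by
          simp only [pt]
          rw [e1, enc, push_append]
          rfl, h2.1, h2.2⟩
    cases L with
    | nil => exact key2 (4 * M.blank) [] (by omega) (by simp) (enc_blank M [4 * s]).symm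
    | cons e L' =>
      exact key2 e L' (hR.dL e List.mem_cons_self).lt
        (fun x hx => (hR.dL x (List.mem_cons_of_mem _ hx)).lt) rfl
  · have hL := enc_mem M fun x hx => (hR.dL x hx).lt
    exact ⟨[4 * s], mem_words.2 ⟨_, ht, Or.inr ⟨hty, rfl⟩⟩, hH, enc M.code L, hL.1, hL.2, rfl,
      h2.1, h2.2⟩

end Vale.Agent.N113.St
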