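import Vale.Agent.N113.StFlow
import Vale.Agent.N113.StSim

/-!
# P113, steady version: the trajectory of the origin detects halting
-/

namespace Vale.Agent.N113.St

open Set Traj

lemma pos_odd {L : ℕ → List Piece} {a : R3} {k j : ℕ} (hk : k % 2 = 1) (hj : k % 8 = j)
    {x y y' : ℚ} (h : posS L a k = ![(x : ℝ), y, 0]) (e : Hf (L j) x = (y' - y : ℚ)) :
    posS L a (k + 1) = ![(x : ℝ), y', 0] := by
  rw [posS, h, dirS, HS, if_pos hk, if_pos hk, vec_add1, hj,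
    show proj ![(x : ℝ), y, 0] 0 = ((x : ℝ) : UnitAddCircle) from rfl, Hf_rep, e]
  push_cast
  rw [add_sub_cancel]

lemma pos_even {L : ℕ → List Piece} {a : R3} {k j : ℕ} (hk : k % 2 = 0) (hj : k % 8 = j)
    {x y x' : ℚ} (h : posS L a k = ![(x : ℝ), y, 0]) (e : Hf (L j) y = (x' - x : ℚ)) :
    posS L a (k + 1) = ![(x' : ℝ), y, 0] := by
  rw [posS, h, dirS, HS, if_neg (by omega), if_neg (by omega), vec_add0, hj,
    show proj ![(x : ℝ), y, 0] 1 = ((y : ℝ) : UnitAddCircle) from rfl, Hf_rep, e]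
  push_cast
  rw [add_sub_cancel]

/-- The point coding a pair of stacks. -/
noncomputable def ptS (A : ℕ) (z : ℚ × ℚ) : R3 :=
  ![((z.1 / (4 * A) : ℚ) : ℝ), ((z.2 / (4 * A) : ℚ) : ℝ), 0]

section
variable {n A : ℕ} {hl tS tT : ℕ → ℕ} {R : List Rule} (G : Good n A hl tS tT R) {a : R3}

lemma half {y : ℚ} (h : 0 ≤ y ∧ y ≤ 1 / 2) : (y : ℝ) ∈ Icc (0 : ℝ) (1 / 2) :=
  ⟨by exact_mod_cast h.1, by
    have : (y : ℝ) ≤ ((1 / 2 : ℚ) : ℝ) := by exact_mod_cast h.2
    simpa using this⟩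

include G

lemma small {y : ℚ} (h : 0 ≤ y ∧ y ≤ 1) : 0 ≤ y / (4 * A) ∧ y / (4 * A) ≤ 1 / 32 := by
  have h8 : (8 : ℚ) ≤ A := by exact_mod_cast (show 8 ≤ A by have := G.A_ge; omega)
  exact ⟨by have := h.1; positivity, by rw [div_le_iff₀ (by linarith)]; linarith [h.2]⟩

omit G in
lemma pos_idle (m : ℕ) {z : ℚ × ℚ} (h : posS (prog n A hl tS tT R) a (8 * m) = ptS A z) :
    posS (prog n A hl tS tT R) a (8 * m + 1) = ptS A z :=
  pos_even (j := 0) (by omega) (by omega) h (by simp [prog, Hf])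

lemma pos_step (m : ℕ) {z z' : ℚ × ℚ} (hs : Step (3 * n) R z z')
    (h : posS (prog n A hl tS tT R) a (8 * m) = ptS A z) :
    posS (prog n A hl tS tT R) a (8 * (m + 1)) = ptS A z' ∧
      ∀ j, j ≤ 8 → posS (prog n A hl tS tT R) a (8 * m + j) 1 ∈ Icc (0 : ℝ) (1 / 2) := by
  obtain ⟨y1, x2, y3, x4, y5, b1, b3, b5, b0, b7, g1, g2, g3, g4, g5, g6, g7⟩ := geo_step G hs
  have e1 := pos_idle m h
  have e2 := pos_odd (by omega) (by omega) e1 g1
  have e3 := pos_even (by omega) (by omega) e2 g2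
  have e4 := pos_odd (by omega) (by omega) e3 g3
  have e5 := pos_even (by omega) (by omega) e4 g4
  have e6 := pos_odd (by omega) (by omega) e5 g5
  have e7 := pos_even (by omega) (by omega) e6 g6
  have e8 := pos_odd (by omega) (by omega) e7 g7
  refine ⟨e8, fun j hj => ?_⟩
  have s0 := small G b0
  have s7 := small G b7
  interval_cases j
  · rw [add_zero, h]; exact half ⟨s0.1, by linarith [s0.2]⟩
  · rw [e1]; exact half ⟨s0.1, by linarith [s0.2]⟩
  · rw [e2]; exact half b1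
  · rw [e3]; exact half b1
  · rw [e4]; exact half b3
  · rw [e5]; exact half b3
  · rw [e6]; exact half b5
  · rw [e7]; exact half b5
  · rw [e8]; exact half ⟨s7.1, by linarith [s7.2]⟩

lemma pos_reach {z z' : ℚ × ℚ} (hs : Relation.ReflTransGen (Step (3 * n) R) z z') :
    ∃ m, posS (prog n A hl tS tT R) (ptS A z) (8 * m) = ptS A z' := by
  induction hs with
  | refl => exact ⟨0, rfl⟩
  | tail _ hbc ih =>
    obtain ⟨m, hm⟩ := ih
    exact ⟨m + 1, (pos_step G m hbc hm).1⟩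

lemma pos_low {S : Set (ℚ × ℚ)} {z : ℚ × ℚ} (hz : z ∈ S)
    (hS : ∀ z ∈ S, ∃ z' ∈ S, Step (3 * n) R z z') (k : ℕ) :
    posS (prog n A hl tS tT R) (ptS A z) k 1 ∈ Icc (0 : ℝ) (1 / 2) := by
  have key : ∀ m, ∃ z' ∈ S, posS (prog n A hl tS tT R) (ptS A z) (8 * m) = ptS A z' := by
    intro m
    induction m with
    | zero => exact ⟨z, hz, rfl⟩
    | succ m ih =>
      obtain ⟨z₁, h₁, e⟩ := ih
      obtain ⟨z₂, h₂, hs⟩ := hS z₁ h₁
      exact ⟨z₂, h₂, (pos_step G m hs e).1⟩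
  obtain ⟨z₁, h₁, e⟩ := key (k / 8)
  obtain ⟨z₂, -, hs⟩ := hS z₁ h₁
  have := (pos_step G _ hs e).2 (k % 8) (by omega)
  rwa [Nat.div_add_mod] at this

lemma pos_halt (m : ℕ) {z : ℚ × ℚ} (hz : Halt n hl tS z)
    (h : posS (prog n A hl tS tT R) a (8 * m) = ptS A z) :
    ∃ x y : ℚ, (0 ≤ x ∧ x ≤ 1 / 32) ∧ (0 ≤ y ∧ y ≤ 1 / 32) ∧
      posS (prog n A hl tS tT R) a (8 * m + 2) = ![(x : ℝ), (y + 3 / 4 : ℚ), 0] := by
  have g := geo_halt (tT := tT) G hz
  obtain ⟨u, hu, -, ξ, a0, a1, e, b⟩ := hz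
  refine ⟨_, _, small G (e ▸ pushQ_mem' G.n_pos ?_ a0 a1), small G b,
    pos_odd (j := 1) (by omega) (by omega) (pos_idle m h) (by rw [g]; push_cast; ring)⟩
  obtain ⟨s, hs, ⟨-, d, hd, rfl⟩ | ⟨-, rfl⟩⟩ := mem_words.1 hu <;> simp [*]

end

/-- Lower corner of the box. -/
def lo : Fin 3 → ℚ := ![-1 / 8, 5 / 8, 1 / 8]

/-- Upper corner of the box. -/
def hi : Fin 3 → ℚ := ![3 / 8, 7 / 8, 3 / 8]

lemma not_mem {x : R3} (h : x 1 ∈ Icc (0 : ℝ) (1 / 2)) : proj x ∉ boxImage lo hi := by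
  rintro ⟨y, hy, e⟩
  have h2 := hy 1
  have e2 : ((y 1 : ℝ) : UnitAddCircle) = (x 1 : ℝ) := congrFun e 1
  simp only [lo, hi, Matrix.cons_val_one, Matrix.cons_val_zero] at h2
  push_cast at h2
  have := (AddCircle.coe_eq_coe_iff_of_mem_Ico (p := (1 : ℝ)) (a := 0)
    (x := y 1) (y := x 1) ⟨by linarith [h2.1], by linarith [h2.2]⟩
    ⟨h.1, by linarith [h.2]⟩).1 e2
  linarith [h2.1, h.2]

lemma vel_spec (M : Machine) (w : List ℕ) (i : Fin 3) :
    ∀ τ ∈ vel M.code w i, Inv τ ∧ τ.2.2 i = [] ∧ τ.1.2.1 = 0 :=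
  velS_spec (prog_ne (nn_pos M) (by unfold aa; omega) _ _ _ _) _ _ i

lemma filter_compile (M : Machine) (w : List ℕ) (i : Fin 3) :
    (compile (M.code, w) i).filter Term.periodic = nsOf (steady (progM M.code)) i := by
  rw [compile, filter_nsOf]
  congr 1
  funext j
  exact filter_velS (prog_ne (nn_pos M) (by unfold aa; omega) _ _ _ _) _ _ j

theorem detect (M : Machine) (w : List (Fin M.nG)) :
    (∃ X, IsTrajectory (fun i => sumTerms 0 (vel M.code (w.map Fin.val) i)) 0 X) ∧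
      ∀ X, IsTrajectory (fun i => sumTerms 0 (vel M.code (w.map Fin.val) i)) 0 X →
        ((∃ t, 0 ≤ t ∧ proj (X t) ∈ boxImage lo hi) ↔ M.HaltsOn w) := by
  have G := good M
  have h0 : progM M.code 0 = [] := rfl
  obtain ⟨hex, hall⟩ := traj h0 _ _ (u := fun i => sumTerms 0 (vel M.code (w.map Fin.val) i))
    fun i t ht x => sum_velS _ _ _ 0 ht i x
  refine ⟨hex, fun X hX => ?_⟩
  obtain ⟨h1, c, hc, h2, h3⟩ := hall X hX
  have h4 := (planar h0 _).2 _ h3
  constructor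
  · rintro ⟨t, ht, hmem⟩
    by_contra hnh
    obtain ⟨S, hS0, hS⟩ := sim_not_halts M w hnh
    have l0 := pos_low G hS0 hS
    refine not_mem ?_ hmem
    rcases le_total t (3 / 8) with h | h
    · have l1 : _ ∈ Icc (0 : ℝ) (1 / 2) := l0 0
      have := frac_mem 1 t
      rw [h1 t ⟨ht, h⟩]
      simp only [posS, ptS, Matrix.cons_val_one, Matrix.cons_val_zero] at l1
      constructor <;> nlinarith [l1.1, l1.2, this.1, this.2]
    · obtain ⟨k, hk⟩ := exists_slot (show 0 ≤ t - c by linarith [hc.2])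
      obtain ⟨θ, hθ, e⟩ := (h4 k).2 _ hk
      have e1 := congrFun e 1
      have l1 := l0 k
      have l2 := l0 (k + 1)
      simp only [sub_add_cancel, Matrix.cons_val_one, Matrix.cons_val_zero, Pi.add_apply,
        Pi.smul_apply, Pi.sub_apply, smul_eq_mul] at e1
      rw [e1]
      unfold ptS at l1 l2
      unfold progM
      constructor <;> nlinarith [l1.1, l1.2, l2.1, l2.2, hθ.1, hθ.2]
  · intro hh
    obtain ⟨z, hz, hH⟩ := sim_halts M w hh
    obtain ⟨m, hm⟩ := pos_reach G hz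
    obtain ⟨x, y, ⟨a0, a1⟩, ⟨b0, b1⟩, e⟩ := pos_halt G m hH hm
    have e' := (h4 (8 * m + 2)).1.trans e
    have hm0 : (0 : ℝ) ≤ m := Nat.cast_nonneg m
    have e2 := h2 (((8 * m + 2 : ℕ) : ℝ) / 8) (by push_cast; linarith [hc.1])
    refine ⟨((8 * m + 2 : ℕ) : ℝ) / 8 + c, by push_cast; linarith [hc.1],
      ![x, (y + 3 / 4 : ℚ), 1 / 4], fun i => ?_, ?_⟩
    · have a0' : (0 : ℝ) ≤ x := by exact_mod_cast a0
      have b0' : (0 : ℝ) ≤ y := by exact_mod_cast b0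
      have a1' : (x : ℝ) ≤ (1 / 32 : ℚ) := by exact_mod_cast a1
      have b1' : (y : ℝ) ≤ (1 / 32 : ℚ) := by exact_mod_cast b1
      push_cast at a1' b1'
      fin_cases i <;> simp [lo, hi] <;> constructor <;> linarith
    · funext i
      fin_cases i
      · exact congrArg _ (congrFun e' 0).symm
      · exact congrArg _ (congrFun e' 1).symm
      · show ((1 / 4 : ℝ) : UnitAddCircle) = (X _ 2 : ℝ)
        rw [e2, show ((8 * m + 2 : ℕ) : ℝ) / 8 = 1 / 4 + m • (1 : ℝ) by simp; ring,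
          AddCircle.coe_add, AddCircle.coe_nsmul, AddCircle.coe_period, smul_zero, add_zero]

theorem solves (M : Machine) (w : List ℕ) (ν : ℝ) :
    (∀ i, SmoothOnHalf (sumTerms 0 (vel M.code w i))) ∧ ∀ T, 0 < T →
      IsClassicalOn ν (fun i => sumTerms ν (compile (M.code, w) i)) T
        (fun i => sumTerms 0 (vel M.code w i)) (fun _ _ => 0) := by
  have h := ns_solution ν (vel M.code w) (fun i τ hτ => (vel_spec M w i τ hτ).1.1)
    (fun i τ hτ => (vel_spec M w i τ hτ).2.1) fun i x => by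
      rw [vel, sum_velS _ _ _ _ le_rfl, load_zero, frac_of_le 2 (by norm_num)]
      ring
  simp only [fun i => sum_nu (fun τ hτ => (vel_spec M w i τ hτ).2.2) ν] at h
  exact h

lemma vel_late (M : Machine) (w : List ℕ) (i : Fin 3) {t : ℝ} (ht : 1 ≤ t) (x : T3) :
    sumTerms 0 (vel M.code w i) t x = V (progM M.code) i x := by
  rw [vel, sum_velS _ _ _ _ (by linarith), load_late _ _ (by linarith),
    frac_of_ge 2 (by push_cast; linarith), zero_add, one_mul]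

end Vale.Agent.N113.St
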