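import Vale.Agent.N113.StDef
import Vale.Agent.N113.FC
import Vale.Agent.N113.CompPrim

/-!
# P113, steady version: classical solutions, the force compiler
-/

namespace Vale.Agent.N113.St

open Set TermCalc

lemma eval_mulT (ν : ℝ) (τ σ : Term) (t : ℝ) (x : T3) :
    (mulT τ σ).eval ν t x = τ.eval ν t x * σ.eval ν t x := by
  simp only [Term.eval, mulT, Term.coeff, Term.time, List.map_append, List.prod_append,
    Finset.prod_mul_distrib, pow_add, zpow_add₀ kappa_pos.ne']
  push_cast
  ring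

lemma sum_map_mulT (ν : ℝ) (τ : Term) (W : List Term) (t : ℝ) (x : T3) :
    sumTerms ν (W.map (mulT τ)) t x = τ.eval ν t x * sumTerms ν W t x := by
  induction W with
  | nil => simp [sumTerms]
  | cons σ W ih => rw [List.map_cons, sumTerms_cons, sumTerms_cons, ih, eval_mulT, mul_add]

lemma sum_mulL (ν : ℝ) (U W : List Term) (t : ℝ) (x : T3) :
    sumTerms ν (mulL U W) t x = sumTerms ν U t x * sumTerms ν W t x := by
  induction U with
  | nil => simp [mulL, sumTerms]
  | cons τ U ih =>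
    unfold mulL at ih ⊢
    rw [List.flatMap_cons, sumTerms_append, ih, sum_map_mulT, sumTerms_cons, add_mul]

theorem ns_solution (ν : ℝ) (U : Fin 3 → List Term) (hwf : ∀ i, ∀ τ ∈ U i, Term.WF τ)
    (hind : ∀ i, ∀ τ ∈ U i, τ.2.2 i = []) (h0 : ∀ i x, sumTerms ν (U i) 0 x = 0) :
    (∀ i, SmoothOnHalf (sumTerms ν (U i))) ∧ ∀ T, 0 < T →
      IsClassicalOn ν (fun i => sumTerms ν (nsOf U i)) T (fun i => sumTerms ν (U i))
        (fun _ _ => 0) := by
  refine ⟨fun i => (contDiff_sumTerms (hwf i) ν).contDiffOn, fun T hT => ?_⟩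
  have hpd0 : ∀ j, pd j (fun _ : T3 => (0 : ℝ)) = fun _ => 0 := by
    intro j
    funext x
    simp [pd]
  refine
    { cont_u := fun i => contOn_sumTerms (hwf i) ν T
      diff_t := fun i t _ x =>
        (hasDerivAt_sum_time (hwf i) ν t x).differentiableAt.differentiableWithinAt
      cont_dt := fun i => ?_
      diff_x := fun i j t _ => hasPd_sumTerms (hwf i) ν t j
      cont_dx := fun i j => ?_
      diff_xx := fun i j k t _ => ?_
      cont_dxx := fun i j k => ?_
      cont_p := continuousOn_const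
      diff_p := fun j t _ x => differentiableAt_const _
      cont_dp := fun j => ?_
      mean_p := fun t _ => by simp
      momentum := fun i t ht x => ?_
      div_free := fun t _ x => ?_
      init := h0 }
  · refine (contOn_sumTerms (flatMap_dT_wf (hwf i)) ν T).congr ?_
    intro z hz
    exact dt_sumTerms (hwf i) ν hT hz.1 z.2
  · simp only [pd_sumTerms (hwf i)]
    exact contOn_sumTerms (flatMap_dX_wf j (hwf i)) ν T
  · rw [pd_sumTerms (hwf i)]
    exact hasPd_sumTerms (flatMap_dX_wf j (hwf i)) ν t k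
  · simp only [pd_sumTerms (hwf i), pd_sumTerms (flatMap_dX_wf j (hwf i))]
    exact contOn_sumTerms (flatMap_dX_wf k (flatMap_dX_wf j (hwf i))) ν T
  · simp only [hpd0]
    exact continuousOn_const
  · have hlap : ∀ j, pd j (pd j (sumTerms ν (U i) t)) x
        = sumTerms ν (((U i).flatMap (Term.dX j)).flatMap (Term.dX j)) t x := by
      intro j
      rw [pd_sumTerms (hwf i), pd_sumTerms (flatMap_dX_wf j (hwf i))]
    simp only [hlap, hpd0]
    simp only [pd_sumTerms (hwf i)]
    rw [dt_sumTerms (hwf i) ν hT ht, nsOf, sumTerms_append, sumTerms_forceOf]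
    simp only [sumTerms_append, conv, sum_mulL, Fin.sum_univ_three]
    ring
  · refine Finset.sum_eq_zero fun j _ => ?_
    rw [pd_sumTerms (hwf j), flatMap_dX_eq_nil (hind j), sumTerms_nil]

/-! ## Terms that are time independent or vanish after time `1` -/

/-- The bump and all its derivatives vanish after time `1`. -/
def End : Bump → Prop
  | .inl (_, _, a, b) => 0 < a ∧ b + 1 < a
  | .inr (_, l, a, b) => 0 < a ∧ 0 ≤ l ∧ b + l + 1 < a

lemma End.D {g : Bump} (h : End g) : ∀ p ∈ Bump.D g, End p.2 := by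
  rcases g with ⟨k, j, a, b⟩ | ⟨k, l, a, b⟩ <;>
    simp only [Bump.D, List.mem_cons, List.not_mem_nil, or_false, forall_eq_or_imp, forall_eq]
  · exact ⟨h, h⟩
  · exact ⟨h, ⟨h.1, by linarith [h.2.1, h.2.2]⟩, h.1, h.2.2⟩

lemma End.eval {g : Bump} (h : End g) {t : ℝ} (ht : 1 ≤ t) : Bump.eval g t = 0 := by
  rcases g with ⟨k, j, a, b⟩ | ⟨k, l, a, b⟩
  · have ha : (0 : ℝ) < a := by exact_mod_cast h.1
    have hb : (b : ℝ) + 1 < a := by exact_mod_cast h.2
    have h2 : 1 < (a : ℝ) * t - b := by nlinarith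
    simp only [Bump.eval]
    rw [iteratedDeriv_rho_eq_zero j (h2.trans_le (le_abs_self _)), mul_zero]
  · have ha : (0 : ℝ) < a := by exact_mod_cast h.1
    have hl : (0 : ℝ) ≤ l := by exact_mod_cast h.2.1
    have hb : (b : ℝ) + l + 1 < a := by exact_mod_cast h.2.2
    simp only [Bump.eval]
    rw [plateau_eq_zero hl (Or.inr (by nlinarith)), mul_zero]

lemma prodD_end {l : List Bump} {p : ℚ × List Bump} (hp : p ∈ prodD l) {g : Bump} (hg : g ∈ l)
    (h : End g) : ∃ g' ∈ p.2, End g' := by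
  induction l generalizing p with
  | nil => simp at hg
  | cons b l ih =>
    simp only [prodD, List.mem_append, List.mem_map] at hp
    rcases hp with ⟨q, hq, rfl⟩ | ⟨q, hq, rfl⟩
    · rcases List.mem_cons.1 hg with rfl | h'
      · exact ⟨_, List.mem_cons_self, h.D q hq⟩
      · exact ⟨g, List.mem_cons_of_mem _ h', h⟩
    · rcases List.mem_cons.1 hg with rfl | h'
      · exact ⟨g, List.mem_cons_self, h⟩
      · obtain ⟨g', h1, h2⟩ := ih hq h'
        exact ⟨g', List.mem_cons_of_mem _ h1, h2⟩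

/-- Well formed, no periodization in time, and constant in time or zero after time `1`. -/
def Inv (τ : Term) : Prop :=
  Term.WF τ ∧ τ.2.1.2 = [] ∧ (τ.2.1.1 = [] ∨ ∃ g ∈ τ.2.1.1, End g)

lemma Inv.dT {τ σ : Term} (h : Inv τ) (hσ : σ ∈ τ.dT) : Inv σ := by
  refine ⟨dT_wf h.1 hσ, ?_⟩
  simp only [Term.dT, h.2.1, prodD, List.map_nil, List.append_nil, List.mem_map] at hσ
  obtain ⟨p, hp, rfl⟩ := hσ
  refine ⟨rfl, ?_⟩
  rcases h.2.2 with h1 | ⟨g, h1, h2⟩
  · simp [h1, prodD] at hp
  · exact Or.inr (prodD_end hp h1 h2)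

lemma Inv.dX {τ σ : Term} {j : Fin 3} (h : Inv τ) (hσ : σ ∈ τ.dX j) : Inv σ :=
  ⟨dX_wf h.1 hσ, by rw [dX_time hσ]; exact h.2⟩

lemma Inv.heat {τ σ : Term} (h : Inv τ) (hσ : σ ∈ τ.heat) : Inv σ := by
  rcases mem_heat hσ with h1 | ⟨j, τ₁, τ₂, h1, h2, rfl⟩
  · exact h.dT h1
  · exact ((h.dX h1).dX h2 : Inv τ₂)

lemma Inv.mul {τ σ : Term} (h : Inv τ) (h' : Inv σ) : Inv (mulT τ σ) := by
  refine ⟨⟨?_, ?_, ?_, fun i => ?_⟩, by simp [mulT, h.2.1, h'.2.1], ?_⟩
  · exact fun r hr => (List.mem_append.1 hr).elim (h.1.1 r) (h'.1.1 r)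
  · exact fun r hr => (List.mem_append.1 hr).elim (h.1.2.1 r) (h'.1.2.1 r)
  · exact fun r hr => (List.mem_append.1 hr).elim (h.1.2.2.1 r) (h'.1.2.2.1 r)
  · exact fun r hr => (List.mem_append.1 hr).elim (h.1.2.2.2 i r) (h'.1.2.2.2 i r)
  · rcases h.2.2 with h1 | ⟨g, h1, h2⟩
    · rcases h'.2.2 with h3 | ⟨g, h3, h4⟩
      · exact Or.inl (by simp [mulT, h1, h3])
      · exact Or.inr ⟨g, List.mem_append_right _ h3, h4⟩
    · exact Or.inr ⟨g, List.mem_append_left _ h1, h2⟩

lemma inv_nsOf {U : Fin 3 → List Term} (h : ∀ i, ∀ τ ∈ U i, Inv τ) (i : Fin 3) :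
    ∀ σ ∈ nsOf U i, Inv σ := by
  have hc : ∀ j, ∀ σ ∈ conv U i j, Inv σ := by
    intro j σ hσ
    simp only [conv, mulL, List.mem_flatMap, List.mem_map] at hσ
    obtain ⟨τ, h1, τ', ⟨τ'', h2, h3⟩, rfl⟩ := hσ
    exact (h j τ h1).mul ((h i τ'' h2).dX h3)
  intro σ hσ
  simp only [nsOf, List.mem_append] at hσ
  rcases hσ with h1 | (h1 | h1) | h1
  · obtain ⟨τ, h2, h3⟩ := List.mem_flatMap.1 h1
    exact (h i τ h2).heat h3
  all_goals exact hc _ σ h1

lemma Inv.late {τ : Term} (h : Inv τ) (hp : τ.periodic = false) (ν : ℝ) {t : ℝ} (ht : 1 ≤ t)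
    (x : T3) : τ.eval ν t x = 0 := by
  rcases h.2.2 with h1 | ⟨g, h1, h2⟩
  · simp [Term.periodic, h1] at hp
  · have h3 : (τ.2.1.1.map fun g => Bump.eval g t).prod = 0 :=
      List.prod_eq_zero (List.mem_map.2 ⟨_, h1, h2.eval ht⟩)
    simp only [Term.eval, Term.time, h3, zero_mul, mul_zero]

lemma sum_late {L : List Term} (h : ∀ τ ∈ L, Inv τ) (ν : ℝ) {t : ℝ} (ht : 1 ≤ t) (x : T3) :
    sumTerms ν L t x = sumTerms ν (L.filter Term.periodic) 0 x := by
  induction L with
  | nil => rfl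
  | cons τ L ih =>
    have h1 := h τ List.mem_cons_self
    rw [sumTerms_cons, ih fun σ hσ => h σ (List.mem_cons_of_mem _ hσ)]
    cases hp : τ.periodic with
    | false => rw [List.filter_cons_of_neg (by simp [hp]), h1.late hp ν ht, zero_add]
    | true =>
      rw [List.filter_cons_of_pos hp, sumTerms_cons]
      have h2 : τ.2.1.1 = [] := List.isEmpty_iff.1 hp
      simp [Term.eval, Term.time, h2, h1.2.1]

lemma filter_flatMap {F : Term → List Term} (h : ∀ τ, ∀ σ ∈ F τ, σ.periodic = τ.periodic)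
    (U : List Term) :
    (U.flatMap F).filter Term.periodic = (U.filter Term.periodic).flatMap F := by
  induction U with
  | nil => rfl
  | cons τ U ih =>
    rw [List.flatMap_cons, List.filter_append, ih]
    cases hp : τ.periodic with
    | false =>
      rw [List.filter_cons_of_neg (by simp [hp]), List.filter_eq_nil_iff.2, List.nil_append]
      intro σ hσ
      simp [h τ σ hσ, hp]
    | true =>
      rw [List.filter_cons_of_pos hp, List.flatMap_cons, List.filter_eq_self.2]
      intro σ hσ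
      rw [h τ σ hσ, hp]

lemma periodic_mulT (τ σ : Term) : (mulT τ σ).periodic = (τ.periodic && σ.periodic) := by
  simp only [Term.periodic, mulT]
  cases τ.2.1.1 <;> simp

lemma filter_mulL (U W : List Term) :
    (mulL U W).filter Term.periodic = mulL (U.filter Term.periodic) (W.filter Term.periodic) := by
  induction U with
  | nil => rfl
  | cons τ U ih =>
    unfold mulL at ih ⊢
    rw [List.flatMap_cons, List.filter_append, ih, List.filter_map]
    cases hp : τ.periodic with
    | false =>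
      rw [List.filter_cons_of_neg (by simp [hp]), List.filter_eq_nil_iff.2, List.map_nil,
        List.nil_append]
      intro σ _
      simp [periodic_mulT, hp]
    | true =>
      rw [List.filter_cons_of_pos hp, List.flatMap_cons]
      congr 3
      funext σ
      simp [periodic_mulT, hp]

lemma filter_nsOf (U : Fin 3 → List Term) (i : Fin 3) :
    (nsOf U i).filter Term.periodic = nsOf (fun j => (U j).filter Term.periodic) i := by
  have hx : ∀ j, ((U i).flatMap (Term.dX j)).filter Term.periodic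
      = ((U i).filter Term.periodic).flatMap (Term.dX j) := fun j =>
    filter_flatMap (fun τ σ hσ => by unfold Term.periodic; rw [dX_time hσ]) _
  simp only [nsOf, conv, List.filter_append, filter_mulL, hx, forceOf]
  rw [filter_flatMap fun τ σ hσ => heat_periodic hσ]

/-! ## The terms of the velocity -/

/-- What is needed of the terms of the steady field. -/
def Sty (i : Fin 3) (τ : Term) : Prop :=
  Term.WF τ ∧ τ.2.1 = ([], []) ∧ τ.2.2 i = [] ∧ τ.1.2.1 = 0

lemma sT_wf (j : ℕ) (q : ℚ) {hx hy : List Bump} (h1 : ∀ g ∈ hx, Bump.WF g)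
    (h2 : ∀ g ∈ hy, Bump.WF g) : Term.WF (sT j q hx hy) := by
  refine ⟨by simp [sT], by simp [sT], by simp [sT], fun i => ?_⟩
  fin_cases i
  · exact h1
  · exact h2
  · simpa [sT] using FC.slot_wf j

lemma steady_sty {L : ℕ → List Piece} (hL : ∀ j, ∀ p ∈ L j, p.2.1 ≠ 0) (i : Fin 3) :
    ∀ τ ∈ steady L i, Sty i τ := by
  have hb : ∀ j k, ∀ p ∈ L j, ∀ g ∈ [bmp k p], Bump.WF g := fun j k p hp => by
    simpa [bmp, Bump.WF] using hL j p hp
  have hX : ∀ j, ∀ τ ∈ (L j).flatMap (pX j), Sty 0 τ := by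
    intro j τ hτ
    simp only [pX, List.mem_flatMap, List.mem_cons, List.not_mem_nil, or_false] at hτ
    obtain ⟨p, hp, rfl | rfl⟩ := hτ <;>
      exact ⟨sT_wf _ _ (by simp) (hb j _ p hp), rfl, rfl, rfl⟩
  have hY : ∀ j, ∀ τ ∈ (L j).flatMap (pY j), Sty 1 τ := by
    intro j τ hτ
    simp only [pY, List.mem_flatMap, List.mem_cons, List.not_mem_nil, or_false] at hτ
    obtain ⟨p, hp, rfl | rfl⟩ := hτ <;>
      exact ⟨sT_wf _ _ (hb j _ p hp) (by simp), rfl, rfl, rfl⟩
  intro τ hτ
  fin_cases i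
  · have h : τ ∈ (L 2).flatMap (pX 2) ++ (L 4).flatMap (pX 4) ++ (L 6).flatMap (pX 6) := hτ
    simp only [List.mem_append] at h
    rcases h with (h | h) | h <;> exact hX _ τ h
  · have h : τ ∈ (L 1).flatMap (pY 1) ++ (L 3).flatMap (pY 3) ++ (L 5).flatMap (pY 5)
        ++ (L 7).flatMap (pY 7) := hτ
    simp only [List.mem_append] at h
    rcases h with ((h | h) | h) | h <;> exact hY _ τ h
  · obtain rfl : τ = oneT := List.mem_singleton.1 hτ
    refine ⟨⟨by simp [oneT], by simp [oneT], by simp [oneT], fun i => ?_⟩, rfl, rfl, rfl⟩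
    fin_cases i <;> simp [oneT]

lemma inv_rampT : Inv rampT := by
  refine ⟨⟨by simp [rampT], by simp [rampT, Bump.WF], by simp [rampT], fun i => ?_⟩, rfl,
    Or.inr ⟨_, List.mem_cons_self, by norm_num [End]⟩⟩
  fin_cases i <;> simp [rampT]

lemma velS_spec {L : ℕ → List Piece} (hL : ∀ j, ∀ p ∈ L j, p.2.1 ≠ 0) (x₀ y₀ : ℚ) (i : Fin 3) :
    ∀ τ ∈ velS L x₀ y₀ i, Inv τ ∧ τ.2.2 i = [] ∧ τ.1.2.1 = 0 := by
  have hS : ∀ τ ∈ steady L i, Inv τ := fun τ hτ => by
    obtain ⟨h1, h2, -⟩ := steady_sty hL i τ hτ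
    exact ⟨h1, by rw [h2], Or.inl (by rw [h2])⟩
  intro τ hτ
  simp only [velS, List.mem_append, List.mem_map] at hτ
  rcases hτ with (h | ⟨σ, h, rfl⟩) | h
  · have k : ∀ (j : ℕ) (q : ℚ), j < 2 → Inv (iTerm j q) ∧ (iTerm j q).2.2 i = [] ∧
        (iTerm j q).1.2.1 = 0 := fun j q hj =>
      ⟨⟨FC.iTerm_wf _ _, rfl, Or.inr ⟨_, List.mem_cons_self, by
        have : (j : ℚ) < 2 := by exact_mod_cast hj
        simp only [slot, End]
        constructor <;> linarith⟩⟩, by fin_cases i <;> rfl, rfl⟩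
    fin_cases i
    · obtain rfl : τ = iTerm 0 x₀ := by simpa [velI] using h
      exact k _ _ (by norm_num)
    · obtain rfl : τ = iTerm 1 y₀ := by simpa [velI] using h
      exact k _ _ (by norm_num)
    · simp [velI] at h
  · obtain ⟨-, -, h3, h4⟩ := steady_sty hL i σ h
    refine ⟨inv_rampT.mul (hS σ h), ?_, by simp [mulT, rampT, h4]⟩
    simp only [mulT, h3, List.append_nil]
    fin_cases i <;> rfl
  · exact ⟨hS τ h, (steady_sty hL i τ h).2.2⟩

lemma filter_velS {L : ℕ → List Piece} (hL : ∀ j, ∀ p ∈ L j, p.2.1 ≠ 0) (x₀ y₀ : ℚ) (i : Fin 3) :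
    (velS L x₀ y₀ i).filter Term.periodic = steady L i := by
  rw [velS, List.filter_append, List.filter_eq_nil_iff.2, List.filter_eq_self.2, List.nil_append]
  · intro τ hτ
    simp [Term.periodic, (steady_sty hL i τ hτ).2.1]
  · intro τ hτ
    rcases List.mem_append.1 hτ with h | h
    · simp [(FC.velI_spec _ _ i τ h).2.1]
    · obtain ⟨σ, -, rfl⟩ := List.mem_map.1 h
      simp [Term.periodic, mulT, rampT]

lemma sum_nu {L : List Term} (h : ∀ τ ∈ L, τ.1.2.1 = 0) (ν : ℝ) : sumTerms ν L = sumTerms 0 L := by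
  funext t x
  unfold sumTerms
  congr 1
  exact List.map_congr_left fun τ hτ => by simp [Term.eval, Term.coeff, h τ hτ]

lemma prog_ne {n A : ℕ} (hn : 0 < n) (hA : 0 < A) (hl tS tT : ℕ → ℕ) (R : List Rule) (j : ℕ) :
    ∀ p ∈ prog n A hl tS tT R j, p.2.1 ≠ 0 := by
  have h1 : ∀ o u c c', (cylP (3 * n) A o u c c').2.1 ≠ 0 := fun o u c c' => by
    simp only [cylP, scQ]
    positivity
  have h2 : ∀ i c c', (levP A i c c').2.1 ≠ 0 := fun i c c' => by
    simp only [levP]
    positivity
  intro p hp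
  unfold prog at hp
  split_ifs at hp <;> simp only [List.mem_map, List.not_mem_nil] at hp <;>
    obtain ⟨r, -, rfl⟩ := hp <;> first | exact h1 _ _ _ _ | exact h2 _ _ _

/-! ## The compiler is primitive recursive -/

set_option synthInstance.maxSize 1024

section
variable {α : Type} [Primcodable α]

@[fun_prop] theorem pr_mulT {f g : α → Term} (hf : PR f) (hg : PR g) :
    PR (fun a => mulT (f a) (g a)) := by
  unfold mulT
  refine PR.pair (by fun_prop) (PR.pair (by fun_prop) (PR.pi fun i => ?_))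
  exact PR.append (PR.app (by fun_prop) i) (PR.app (by fun_prop) i)

theorem pr_nsOf {U : α → Fin 3 → List Term} (h : ∀ i, PR fun a => U a i) (i : Fin 3) :
    PR fun a => nsOf (U a) i := by
  have hc : ∀ j, PR fun a => conv (U a) i j := fun j => by
    have h1 : PR fun a => (U a i).flatMap (Term.dX j) :=
      PR.flatMap (h i) (PR.comp (pr_dX j) (PR.snd PR.id'))
    have h2 := h j
    unfold conv mulL
    exact PR.flatMap h2 (PR.map ⟨h1.out.comp Primrec.fst⟩ (by fun_prop))
  exact PR.append (PR.comp pr_forceOf (h i)) (PR.append (PR.append (hc 0) (hc 1)) (hc 2))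

@[fun_prop] theorem pr_bmp (k : ℕ) : PR (bmp k) := by
  unfold bmp
  fun_prop

@[fun_prop] theorem pr_sT (j : ℕ) {q : α → ℚ} {hx hy : α → List Bump} (hq : PR q) (h1 : PR hx)
    (h2 : PR hy) : PR (fun a => sT j (q a) (hx a) (hy a)) := by
  unfold sT
  exact PR.pair (by fun_prop) (PR.pair (PR.const _) (PR.vec3 h1 h2 (PR.const _)))

@[fun_prop] theorem pr_pX (j : ℕ) : PR (pX j) := by
  unfold pX
  fun_prop

@[fun_prop] theorem pr_pY (j : ℕ) : PR (pY j) := by
  unfold pY
  fun_prop

theorem pr_velS {L : α → ℕ → List Piece} {x y : α → ℚ} (hL : ∀ j, PR fun a => L a j) (hx : PR x)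
    (hy : PR y) (i : Fin 3) : PR fun a => velS (L a) (x a) (y a) i := by
  have h1 := hL 1
  have h2 := hL 2
  have h3 := hL 3
  have h4 := hL 4
  have h5 := hL 5
  have h6 := hL 6
  have h7 := hL 7
  have hs : PR fun a => steady (L a) := by
    unfold steady
    exact PR.vec3 (by fun_prop) (by fun_prop) (by fun_prop)
  have hs' := PR.app hs i
  have hi := PR.app (pr_velI hx hy) i
  unfold velS
  fun_prop

@[fun_prop] theorem pr_ht {n : α → ℕ} {u : α → List ℕ} (hn : PR n) (hu : PR u) :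
    PR (fun a => ht (n a) (u a)) := by
  unfold ht row
  fun_prop

@[fun_prop] theorem pr_ce : PR ce := by
  unfold ce
  fun_prop

@[fun_prop] theorem pr_cylP {N A : α → ℕ} {o c c' : α → ℚ} {u : α → List ℕ} (hN : PR N) (hA : PR A)
    (ho : PR o) (hu : PR u) (hc : PR c) (hc' : PR c') :
    PR (fun a => cylP (N a) (A a) (o a) (u a) (c a) (c' a)) := by
  unfold cylP
  fun_prop

@[fun_prop] theorem pr_levP {A i : α → ℕ} {c c' : α → ℚ} (hA : PR A) (hi : PR i) (hc : PR c)
    (hc' : PR c') : PR (fun a => levP (A a) (i a) (c a) (c' a)) := by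
  unfold levP
  fun_prop

theorem pr_words {n : α → ℕ} {ty : ℕ → ℕ} (hn : PR n) (hty : PR ty) :
    PR (fun a => words (n a) ty) := by
  unfold words
  exact PR.flatMap (by fun_prop) (PR.ite_eq (by fun_prop) (by fun_prop) (by fun_prop) (by fun_prop))

@[fun_prop] theorem pr_nn : PR nn := by
  unfold nn
  fun_prop

@[fun_prop] theorem pr_aa : PR aa := by
  unfold aa
  fun_prop

@[fun_prop] theorem pr_tS : PR tS := by
  unfold tS
  repeat' first | apply PR.ite_eq | fun_prop

@[fun_prop] theorem pr_tT : PR tT := by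
  unfold tT
  repeat' first | apply PR.ite_eq | fun_prop

@[fun_prop] theorem pr_hl {c : α → MachineCode} {t : α → ℕ} (hc : PR c) (ht : PR t) :
    PR (fun a => hl (c a) (t a)) := by
  unfold hl
  have h : PR fun a => MachineCode.isH (c a) (t a / 12) := by fun_prop
  exact PR.ite_eq (by fun_prop) (by fun_prop)
    ⟨Primrec.cond h.out (Primrec.const _) (Primrec.const _)⟩ (by fun_prop)

@[fun_prop] theorem pr_trG {c : α → MachineCode} {t : α → ℕ} (hc : PR c) (ht : PR t) :
    PR (fun a => trG (c a) (t a)) := by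
  unfold trG
  refine MachineCode.pr_tr hc (by fun_prop) ?_
  repeat' first | apply PR.ite_eq | fun_prop

@[fun_prop] theorem pr_gam {c : α → MachineCode} {t e : α → ℕ} (hc : PR c) (ht : PR t)
    (he : PR e) : PR (fun a => gam (c a) (t a) (e a)) := by
  unfold gam
  refine PR.nadd (by fun_prop) ?_
  repeat' first | apply PR.ite_eq | fun_prop

@[fun_prop] theorem pr_src {c : α → MachineCode} {t e : α → ℕ} (hc : PR c) (ht : PR t)
    (he : PR e) : PR (fun a => src (c a) (t a) (e a)) := by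
  unfold src
  refine PR.ite_eq (by fun_prop) (by fun_prop) (by fun_prop) (PR.pair (by fun_prop) ?_)
  repeat' first | apply PR.ite_eq | fun_prop

@[fun_prop] theorem pr_tgt {c : α → MachineCode} {t e : α → ℕ} (hc : PR c) (ht : PR t)
    (he : PR e) : PR (fun a => tgt (c a) (t a) (e a)) := by
  unfold tgt
  refine PR.ite_eq (by fun_prop) (by fun_prop) (PR.ite_eq (by fun_prop) (by fun_prop) ?_
    (PR.pair (by fun_prop) ?_)) ?_
  all_goals repeat' first | apply PR.ite_eq | fun_prop

@[fun_prop] theorem pr_ok {c : α → MachineCode} {t e : α → ℕ} (hc : PR c) (ht : PR t)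
    (he : PR e) : PR (fun a => ok (c a) (t a) (e a)) := by
  unfold ok
  have h := pr_hl hc ht
  repeat' first | exact h | apply PR.ite_eq | apply PR.ite_le | fun_prop

@[fun_prop] theorem pr_rules : PR rules := by
  unfold rules rule
  exact PR.flatMap (by fun_prop) (PR.ite_eq (by fun_prop) (by fun_prop) (by fun_prop) (by fun_prop))

theorem pr_progM (j : ℕ) : PR fun c => progM c j := by
  have w1 : PR fun c => words (nn c) tS := pr_words pr_nn pr_tS
  have w2 : PR fun c => words (nn c) tT := pr_words pr_nn pr_tT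
  unfold progM prog
  split_ifs
  · refine PR.map w1 ?_
    unfold q1
    refine pr_cylP (by fun_prop) (by fun_prop) (by fun_prop) (by fun_prop) ?_ (by fun_prop)
    exact PR.ite_eq (by fun_prop) (by fun_prop) (by fun_prop) (by fun_prop)
  · unfold q2
    fun_prop
  · unfold q3
    fun_prop
  · unfold q4
    fun_prop
  · unfold q5
    fun_prop
  · unfold q6
    fun_prop
  · unfold q7
    fun_prop
  · fun_prop

@[fun_prop] theorem pr_start {c : α → MachineCode} {w : α → List ℕ} (hc : PR c) (hw : PR w) :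
    PR (fun a => start (c a) (w a)) := by
  unfold start enc eB
  fun_prop

end

theorem primrec_compile : Primrec compile := by
  refine (PR.pi fun i => pr_nsOf (fun j => ?_) i).out
  have hs : PR fun z : MachineCode × List ℕ => start z.1 z.2 :=
    pr_start (PR.fst PR.id') (PR.snd PR.id')
  have h1 := PR.fst hs
  have h2 := PR.snd hs
  have h3 : PR fun z : MachineCode × List ℕ => (4 * aa z.1 : ℚ) := by fun_prop
  exact pr_velS (fun k => PR.comp (pr_progM k) (PR.fst PR.id')) (PR.qdiv h1 h3) (PR.qdiv h2 h3) j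

end Vale.Agent.N113.St
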